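import Vale.Agent.P157.Parisi.Defs

/-!
The variational formula for an arbitrary bounded potential: the slope of the site recursion and the
functional in the field path.
-/

noncomputable section

open MeasureTheory ProbabilityTheory
open scoped BigOperators

namespace Vale.Agent.P157.Parisi.Full

/-- `log cosh`. -/
def logCosh (x : ℝ) : ℝ := Real.log (Real.cosh x)

/-- The overlap path conjugate to a field path `ρ`: the tilted mean of the squared magnetisation of
one site, the magnetisation at depth `p` being the derivative of the recursion from `log cosh`. -/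
def siteSlope {r : ℕ} (m : Fin r → ℝ) (ρ : Fin (r + 1) → ℝ) (p : Fin (r + 1)) : ℝ :=
  ∫ g, down m ρ logCosh p (fun x => deriv (level m ρ logCosh p) x ^ 2) (Real.sqrt (ρ 0) * g)
    ∂gaussianReal 0 1

/-- The functional at a field path `(m, ρ)`: the pattern part at the conjugate overlap path, the
site part at `ρ`, and the pairing of the two paths. -/
def fullVal {r : ℕ} (α : ℝ) (f : ℝ → ℝ) (m : Fin r → ℝ) (ρ : Fin (r + 1) → ℝ) : ℝ :=
  α * patValue f m (siteSlope m ρ) + siteValue m ρ +
    1 / 2 * ∑ p, weight m p * ρ p * siteSlope m ρ p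

/-- A discrete field path. -/
structure IsFieldPath {r : ℕ} (m : Fin r → ℝ) (ρ : Fin (r + 1) → ℝ) : Prop where
  pos : ∀ i, 0 < m i
  lt_one : ∀ i, m i < 1
  strictMono : StrictMono m
  mono : Monotone ρ
  nonneg : 0 ≤ ρ 0

/-- The values of the functional over all discrete field paths. -/
def fullValues (α : ℝ) (f : ℝ → ℝ) : Set ℝ :=
  {v | ∃ (r : ℕ) (m : Fin r → ℝ) (ρ : Fin (r + 1) → ℝ), IsFieldPath m ρ ∧ v = fullVal α f m ρ}

/-- The segment between two paths. -/
def seg {r : ℕ} (ρ ρ' : Fin (r + 1) → ℝ) (t : ℝ) : Fin (r + 1) → ℝ :=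
  fun p => (1 - t) * ρ p + t * ρ' p

/-- The mean of the positive part of `q - a` under the weights of a path. -/
def excess {r : ℕ} (m : Fin r → ℝ) (q : Fin (r + 1) → ℝ) (a : ℝ) : ℝ :=
  ∑ p, weight m p * max (q p - a) 0

end Vale.Agent.P157.Parisi.Full
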