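import Vale.Agent.P157.Full.Defs
import Vale.Agent.P157.Parisi.Site.LowerBound
import Vale.Agent.P157.Parisi.Upper.PairMom

/-!
Objects of the stationarity of the lower bound: cavity averages of two replicas and their limits.
-/

noncomputable section

open MeasureTheory ProbabilityTheory
open scoped BigOperators

namespace Vale.Agent.P157.Parisi.Full

open Site (zLaw spread)

/-- The truncated series of `sinh`. -/
def sinhPart (K : ℕ) (x : ℝ) : ℝ :=
  ∑ j ∈ Finset.range K, x ^ (2 * j + 1) / (((2 * j + 1).factorial : ℕ) : ℝ)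

/-- The truncation of `sinh`. -/
def sinCut (K : ℕ) (y : ℝ) : ℝ := sinhPart K (K * Real.sin (y / K))

/-- A finite sine sum. -/
def IsSinTrig (ψ : ℝ → ℝ) : Prop :=
  ∃ (L : ℕ) (c t : Fin L → ℝ), ∀ y, ψ y = ∑ i, c i * Real.sin (t i * y)

/-- The cavity average of two replicas, with numerators `ψ` and denominator `φ`. -/
def cavPair (N : ℕ) {L : ℕ} (f : ℝ → ℝ) (T s : ℝ) (x : Fin L → ℝ) (μ : ℝ) (k : ℕ)
    (φ ψ : ℝ → ℝ) : ℝ :=
  ∫ d, ∫ z, (∑ σ : Cube N, ∑ τ : Cube N,
      (sysState N f s x μ).w d σ * (sysState N f s x μ).w d τ * (overlap σ τ ^ k *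
        ((ψ (cavY f z d σ) * Real.exp (cavB f T d σ)) *
          (ψ (cavY f z d τ) * Real.exp (cavB f T d τ))))) /
      (∑ σ : Cube N, (sysState N f s x μ).w d σ *
        (φ (cavY f z d σ) * Real.exp (cavB f T d σ))) ^ 2
    ∂zLaw ∂disLaw N L μ

/-- The same without the cavity exponent. -/
def cutPair (N : ℕ) {L : ℕ} (f : ℝ → ℝ) (s : ℝ) (x : Fin L → ℝ) (μ : ℝ) (k : ℕ)
    (φ ψ : ℝ → ℝ) : ℝ :=
  ∫ d, ∫ z, (∑ σ : Cube N, ∑ τ : Cube N,
      (sysState N f s x μ).w d σ * (sysState N f s x μ).w d τ * (overlap σ τ ^ k *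
        (ψ (cavY f z d σ) * ψ (cavY f z d τ)))) /
      (∑ σ : Cube N, (sysState N f s x μ).w d σ * φ (cavY f z d σ)) ^ 2
    ∂zLaw ∂disLaw N L μ

/-- The limit of the cavity average on a cascade: overlap path `q`, field path `ρ`, and a further
variance `δ` below the leaves. -/
def pairTarget {r : ℕ} (m : Fin r → ℝ) (q ρ : Fin (r + 1) → ℝ) (δ : ℝ) (k : ℕ) (φ ψ : ℝ → ℝ) : ℝ :=
  ∑ p, weight m p * (q p ^ k * ∫ e, Up.pairM (gaussianReal 0 1) m
      (fun η => spread δ φ (pathField ρ e η)) (fun η => spread δ ψ (pathField ρ e η))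
      (fun η => spread δ ψ (pathField ρ e η)) p ∂gaussianReal 0 1)

end Vale.Agent.P157.Parisi.Full
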