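import Vale.Agent.P157.Full.Slots
import Vale.Agent.P157.Full.CavDefs
import Vale.Agent.P157.Parisi.Site.Main

/-!
Interfaces between the parts of the proof of the formula for an arbitrary potential, as
propositions.
-/

noncomputable section

open MeasureTheory ProbabilityTheory Filter
open scoped BigOperators NNReal ENNReal Topology

namespace Vale.Agent.P157.Parisi.Full

open Vale.Agent.P168 (cascFilter)
open Vale.Agent.P168.Cascade (Exps)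

/-! ### The two recursions as functions of their paths -/

/-- Module D1: differences of the pattern part along a segment. -/
def PatDerivStmt : Prop :=
  ∀ (f : ℝ → ℝ) (A : ℝ), Smooth f A → ∀ (r : ℕ) (m : Fin r → ℝ) (q q' : Fin (r + 1) → ℝ),
    IsPath m q → IsPath m q' → ∀ B : ℝ,
    (∀ t ∈ Set.Ioo (0 : ℝ) 1,
      -(1 / 2) * ∑ p, weight m p * slope f m (seg q q' t) p * (q' p - q p) ≤ B) →
    patValue f m q' - patValue f m q ≤ B

/-- Module D2: differences of the site part along a segment. -/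
def SiteDerivStmt : Prop :=
  ∀ (r : ℕ) (m : Fin r → ℝ) (ρ ρ' : Fin (r + 1) → ℝ), IsFieldPath m ρ → IsFieldPath m ρ' →
    ∀ B : ℝ,
    (∀ t ∈ Set.Ioo (0 : ℝ) 1,
      -(1 / 2) * ∑ p, weight m p * siteSlope m (seg ρ ρ' t) p * (ρ' p - ρ p) ≤ B) →
    siteValue m ρ' - siteValue m ρ ≤ B

/-- Module S: the conjugate of a field path is an overlap path. -/
def SiteSlopeStmt : Prop :=
  ∀ (r : ℕ) (m : Fin r → ℝ) (ρ : Fin (r + 1) → ℝ), IsFieldPath m ρ →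
    Monotone (siteSlope m ρ) ∧ ∀ p, 0 ≤ siteSlope m ρ p ∧ siteSlope m ρ p ≤ 1

/-- Module A: the site part lies below its tangents. -/
def ConcaveStmt : Prop :=
  ∀ (r : ℕ) (m : Fin r → ℝ) (ρ ρ' : Fin (r + 1) → ℝ), IsFieldPath m ρ → IsFieldPath m ρ' →
    siteValue m ρ' ≤
      siteValue m ρ - 1 / 2 * ∑ p, weight m p * siteSlope m ρ p * (ρ' p - ρ p)

/-- Module P1: the slope of the pattern part moves at most like the path, uniformly. -/
def SlopeLipStmt : Prop :=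
  ∀ (f : ℝ → ℝ) (A : ℝ), Smooth f A → ∃ C : ℝ, 0 ≤ C ∧ ∀ (ξ : Path) (p p' : Fin (ξ.r + 1)),
    |slope f ξ.m ξ.q p - slope f ξ.m ξ.q p'| ≤ C * |ξ.q p - ξ.q p'|

/-- Module P2: the slope of the site part moves at most like the path, uniformly. -/
def SiteLipStmt : Prop :=
  ∀ S : ℝ, ∃ C : ℝ, 0 ≤ C ∧ ∀ (r : ℕ) (m : Fin r → ℝ) (ρ : Fin (r + 1) → ℝ), IsFieldPath m ρ →
    ρ (Fin.last r) ≤ S → ∀ p p', |siteSlope m ρ p - siteSlope m ρ p'| ≤ C * |ρ p - ρ p'|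

/-- Module U5: a path larger in the increasing convex order has the smaller pattern part. -/
def DomStmt : Prop :=
  ∀ (f : ℝ → ℝ) (A : ℝ), Smooth f A → ∀ ε > 0, ∃ e > 0, ∀ ξ ξ' : Path,
    (∀ a ∈ Set.Icc (0 : ℝ) 1, excess ξ.m ξ.q a ≤ excess ξ'.m ξ'.q a + e) →
      patValue f ξ'.m ξ'.q ≤ patValue f ξ.m ξ.q + ε

/-! ### The lower bound -/

/-- Module L1: the two cavity averages agree, as the sites are exchangeable. -/
def CavPairStmt : Prop :=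
  ∀ (α A C : ℝ) (f : ℝ → ℝ), 0 < α → Smooth f A → ∀ k : ℕ, ∀ ε > 0, ∃ T₀ : ℝ, ∀ T ≥ T₀,
    ∀ᶠ N : ℕ in atTop, ∀ μ : ℝ, 0 ≤ μ → |μ - α * N| ≤ C →
      ∀ x : Fin N → ℝ, (∀ i, x i ∈ Set.Icc (1 : ℝ) 2) →
        |cavPair N f T (scale N) x μ k Real.cosh Real.sinh -
          cavPair N f T (scale N) x μ (k + 1) Real.cosh Real.cosh| ≤ ε

/-- Module L2a: cavity averages with finite trigonometric sums, in asymptotic cascades. -/
def CutLimitStmt : Prop :=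
  ∀ (α A C : ℝ) (f : ℝ → ℝ) (N : ℕ → ℕ) (x : ∀ j, Fin (N j) → ℝ) (μ : ℕ → ℝ) (ξ : ℕ → Path),
    Site.Setup α A C f N x μ ξ → ∀ (k : ℕ) (M : ℝ) (φ ψ : ℝ → ℝ),
    Site.IsTrig φ → (∀ y, 1 ≤ φ y ∧ φ y ≤ M) → (Site.IsTrig ψ ∨ IsSinTrig ψ) → (∀ y, |ψ y| ≤ M) →
    Tendsto (fun j => cutPair (N j) f (scale (N j)) (x j) (μ j) k φ ψ -
      pairTarget (ξ j).m (ξ j).q (Site.rhoOf α f (ξ j)) (Site.deltaOf α f (ξ j)) k φ ψ) atTop (𝓝 0)

/-- Module L2b: truncating the hyperbolic functions and dropping the cavity exponent. -/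
def CutSwapStmt : Prop :=
  ∀ (α A C : ℝ) (f : ℝ → ℝ), 0 < α → Smooth f A → ∀ (k : ℕ) (T : ℝ), 0 ≤ T → ∀ ε > 0,
    ∃ K₀ : ℕ, ∀ K ≥ K₀, ∀ (N : ℕ → ℕ) (x : ∀ j, Fin (N j) → ℝ) (μ : ℕ → ℝ) (ξ : ℕ → Path),
      Site.Setup α A C f N x μ ξ → ∀ᶠ j in atTop,
        |cavPair (N j) f T (scale (N j)) (x j) (μ j) k Real.cosh Real.sinh -
            cutPair (N j) f (scale (N j)) (x j) (μ j) k (Site.cut K) (sinCut K)| ≤ ε ∧
          |cavPair (N j) f T (scale (N j)) (x j) (μ j) k Real.cosh Real.cosh -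
            cutPair (N j) f (scale (N j)) (x j) (μ j) k (Site.cut K) (Site.cut K)| ≤ ε

/-- Module L2c: the limit of the truncated averages on a cascade. -/
def TargetStmt : Prop :=
  ∀ (S : ℝ) (k : ℕ), ∀ ε > 0, ∃ K₀ : ℕ, ∀ K ≥ K₀,
    ∀ (r : ℕ) (m : Fin r → ℝ) (q ρ : Fin (r + 1) → ℝ) (δ : ℝ),
    IsPath m q → IsFieldPath m ρ → 0 ≤ δ → ρ (Fin.last r) + δ ≤ S →
      |pairTarget m q ρ δ k (Site.cut K) (sinCut K) -
          ∑ p, weight m p * (q p ^ k * siteSlope m ρ p)| ≤ ε ∧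
        |pairTarget m q ρ δ k (Site.cut K) (Site.cut K) - ∑ p, weight m p * q p ^ k| ≤ ε

/-- Module L: asymptotic cascades of the system are stationary. -/
def FixedStmt : Prop :=
  ∀ (α A C : ℝ) (f : ℝ → ℝ) (N : ℕ → ℕ) (x : ∀ j, Fin (N j) → ℝ) (μ : ℕ → ℝ) (ξ : ℕ → Path),
    Site.Setup α A C f N x μ ξ → (∀ j i, x j i ∈ Set.Icc (1 : ℝ) 2) →
    Tendsto (fun j => ∑ p, weight (ξ j).m p *
      |siteSlope (ξ j).m (Site.rhoOf α f (ξ j)) p - (ξ j).q p|) atTop (𝓝 0)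

/-! ### The upper bound -/

/-- Module U1a: one more slot. -/
def SlotStepStmt : Prop :=
  ∀ (N L T r : ℕ) (P : Sphere.Pts N) (f : ℝ → ℝ) (A : ℝ), N ≠ 0 → Smooth f A →
    ∀ (m : Fin r → ℝ), Exps m → ∀ (δ a : ℝ), 0 ≤ δ → 0 ≤ a →
    Real.sqrt δ * (N * a) ≤ 1 / 10 →
    ∀ (s : ℝ) (x : Fin L → ℝ) (μ : ℝ), 0 ≤ μ → ∀ (ks : Fin T → Fin (r + 1)) (k : Fin (r + 1)),
      slotFree P f δ a m ks s x μ +
          Up.svar a * δ / 2 * (N * (1 - slotOverlap P f δ a m ks s x μ k)) -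
          20 * (Real.sqrt δ * (N * a)) ^ 3 ≤
        slotFree P f δ a m (Fin.cons k ks) s x μ

/-- Module U1b: the truncated cascades carry the slots in the limit. -/
def TruncStmt : Prop :=
  ∀ (N L T r : ℕ) (P : Sphere.Pts N) (f : ℝ → ℝ) (A : ℝ), N ≠ 0 → Smooth f A →
    ∀ (m : Fin r → ℝ), Exps m → ∀ (δ a : ℝ), 0 ≤ δ → 0 ≤ a →
    ∀ (s : ℝ) (x : Fin L → ℝ) (μ : ℝ), 0 ≤ μ → ∀ ks : Fin T → Fin (r + 1),
      Tendsto (fun n => baseFree (truncBase P δ a m ks n) f s x μ) (cascFilter r)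
          (𝓝 (slotFree P f δ a m ks s x μ)) ∧
        ∀ (k : Fin (r + 1)) (b : ℝ), 0 ≤ b → ∀ ε > 0, ∀ᶠ n in cascFilter r,
          slotOverlap P f δ a m ks s x μ k ≤
            (baseState (truncBase P δ a m ks n) f s x μ).repMean 2
                (fun σ => max (Sphere.overlap (σ 0) (σ 1) - b) 0) +
              b * tailSum m (fun _ => 1) k + ε

/-- Module U2a: more patterns. -/
def AddStmt : Prop :=
  ∀ A : ℝ, ∃ C : ℝ, ∀ (N L : ℕ) (P : Sphere.Pts N) (B : Base P) (f : ℝ → ℝ), Smooth f A →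
    ∀ (s : ℝ) (x : Fin L → ℝ) (μ h : ℝ), 0 ≤ μ → 0 ≤ h → h ≤ 1 →
      |baseFree B f s x (μ + h) - baseFree B f s x μ -
        h * (baseState B f s x (μ + h)).logMean f 1| ≤ C * h ^ 2

/-- Module U2b: the perturbation moves the free energy little and is convex and even. -/
def PertShapeStmt : Prop :=
  ∀ (N L : ℕ) (P : Sphere.Pts N) (f : ℝ → ℝ) (A : ℝ), N ≠ 0 → Smooth f A → ∀ (s μ : ℝ), 0 ≤ μ →
    ∃ K : ℝ, ∀ B : Base P,
      (∀ x : Fin L → ℝ, (∀ i, |x i| ≤ 3) →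
        baseFree B f s (fun _ : Fin L => 0) μ ≤ baseFree B f s x μ ∧
          baseFree B f s x μ ≤ baseFree B f s (fun _ : Fin L => 0) μ + 2 * s ^ 2) ∧
      (∀ (x : Fin L → ℝ) (p : Fin L),
        ConvexOn ℝ Set.univ (fun y => baseFree B f s (Function.update x p y) μ) ∧
          (∀ y, baseFree B f s (Function.update x p (-y)) μ =
            baseFree B f s (Function.update x p y) μ) ∧
          ∀ y, baseFree B f s (Function.update x p y) μ ≤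
            baseFree B f s (Function.update x p 0) μ + s ^ 2 * (1 / 4) ^ (p.val + 1) * y ^ 2 / 2) ∧
      ∀ x x' : Fin L → ℝ, |baseFree B f s x μ - baseFree B f s x' μ| ≤ K * ∑ i, |x i - x' i|

/-- Module U2c: at a point where the free energy has a quadratic cap and concentrates, the
Ghirlanda–Guerra identity holds. -/
def GGStmt : Prop :=
  ∀ p₀ : ℕ, ∃ C : ℝ, ∀ (N L : ℕ) (P : Sphere.Pts N) (f : ℝ → ℝ) (A : ℝ), N ≠ 0 → Smooth f A →
    ∀ (s μ : ℝ), 0 < s → 0 ≤ μ → ∀ (x : Fin L → ℝ) (p : Fin L), p.val = p₀ →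
    (∀ i, |x i| ≤ 3) → x p ∈ Set.Icc (1 : ℝ) 2 → ∀ (ℓ φ : ℝ), 0 ≤ φ → ∀ η > 0,
      ∃ ε > 0, ∃ Y : Finset ℝ, ↑Y ⊆ Set.Icc (0 : ℝ) 3 ∧ ∀ B : Base P,
        (∀ y ∈ Y, baseFree B f s (Function.update x p y) μ ≤
          baseFree B f s x μ + ℓ * (y - x p) +
            100 * s ^ 2 * (1 / 4) ^ (p₀ + 1) * (y - x p) ^ 2 + ε) →
        (∀ y ∈ Y, baseDev B f s (Function.update x p y) μ ≤ φ) →
          Sphere.GGWithin (baseState B f s x μ) p₀ (C * (1 + Real.sqrt φ) / s + η)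

/-- Module U3: the free energy of the truncated cascades concentrates. -/
def ConcStmt : Prop :=
  ∀ (r : ℕ) (m : Fin r → ℝ), Exps m → ∀ (α A R a : ℝ), 0 ≤ a → ∃ C : ℝ, 0 ≤ C ∧
    ∀ (N L T : ℕ) (P : Sphere.Pts N) (f : ℝ → ℝ), N ≠ 0 → Smooth f A → ∀ (δ : ℝ), 0 ≤ δ →
    δ * T ≤ R → ∀ ks : Fin T → Fin (r + 1), ∀ (s μ : ℝ), 0 ≤ s → 0 ≤ μ → μ ≤ α * N + 1 →
    ∀ x : Fin L → ℝ, (∀ i, |x i| ≤ 3) → ∀ᶠ n in cascFilter r,
      baseDev (truncBase P δ a m ks n) f s x μ ≤ C * (Real.sqrt N + s + 1)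

/-- The condition on the configurations: the slots alone, with the pairing with `q`, are below
`S₀` per site. -/
def Init (P : ∀ N, Sphere.Pts N) {r : ℕ} (m : Fin r → ℝ) (q : Fin (r + 1) → ℝ) (S₀ : ℝ) : Prop :=
  ∀ η > 0, ∀ R : ℝ, ∃ a₀ : ℝ, ∀ a ≥ a₀, ∀ᶠ N : ℕ in atTop,
    ∀ (T : ℕ) (ks : Fin T → Fin (r + 1)) (δ : ℝ), 0 ≤ δ → δ * T ≤ R →
      slotFree (P N) (fun _ => 0) δ a m ks 0 (fun _ : Fin N => 0) 0 +
          Up.svar a * δ / 2 * (N * ∑ t, (tailSum m q (ks t) - 1)) ≤ N * (S₀ + η)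

/-- Module U4: the upper bound on any configurations. -/
def UpperGenStmt : Prop :=
  ∀ (P : ∀ N, Sphere.Pts N) (α A : ℝ) (f : ℝ → ℝ), 0 < α → Smooth f A →
    ∀ (r : ℕ) (m : Fin r → ℝ) (q : Fin (r + 1) → ℝ), IsPath m q → ∀ S₀ : ℝ, Init P m q S₀ →
    ∀ ε > 0, ∀ᶠ N : ℕ in atTop,
      Sphere.logPartS (P N) f 0 (fun _ : Fin N => 0) (α * N) ≤
        N * (α * patValue f m q + S₀ + ε)

/-- The cube as a family of unit vectors. -/
def cubePts (N : ℕ) : Sphere.Pts N where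
  K := Fintype.card (Cube N)
  pos := Fintype.card_pos
  u k := unitVec ((Fintype.equivFin (Cube N)).symm k)
  norm_one hN σ := by
    have hs : ∀ (τ : Cube N) i, unitVec τ i ^ 2 = 1 / (N : ℝ) := fun τ i => by
      rw [unitVec, div_pow, Real.sq_sqrt (Nat.cast_nonneg N)]
      congr 1
      unfold sv
      split <;> norm_num
    simp only [hs, Finset.sum_const, Finset.card_univ, Fintype.card_fin, nsmul_eq_mul]
    field_simp

/-- Module U6: the slots on the cube. -/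
def InitCubeStmt : Prop :=
  ∀ (r : ℕ) (m : Fin r → ℝ) (q : Fin (r + 1) → ℝ), IsPath m q → ∀ S₀ : ℝ,
    (∀ ρ, IsFieldPath m ρ → siteValue m ρ + 1 / 2 * ∑ p, weight m p * ρ p * q p ≤ S₀) →
      Init cubePts m q S₀

/-- The upper bound on the cube. -/
def UpperFullStmt : Prop :=
  ∀ (α A : ℝ) (f : ℝ → ℝ), 0 < α → Smooth f A →
    ∀ (r : ℕ) (m : Fin r → ℝ) (q : Fin (r + 1) → ℝ), IsPath m q → ∀ S₀ : ℝ,
    (∀ ρ, IsFieldPath m ρ → siteValue m ρ + 1 / 2 * ∑ p, weight m p * ρ p * q p ≤ S₀) →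
    ∀ ε > 0, ∀ᶠ N : ℕ in atTop,
      meanPressure isingLaw α f N ≤ α * patValue f m q + S₀ + ε

/-- The lower bound on the cube. -/
def LowerFullStmt : Prop :=
  ∀ (α A : ℝ) (f : ℝ → ℝ), 0 < α → Smooth f A → ∀ ε > 0,
    ∀ᶠ N : ℕ in atTop, ∃ v ∈ fullValues α f, v ≤ meanPressure isingLaw α f N + ε

/-- The formula for smooth potentials. -/
def SmoothFormulaStmt : Prop :=
  ∀ (α A : ℝ) (f : ℝ → ℝ), 0 < α → Smooth f A →
    Tendsto (meanPressure isingLaw α f) atTop (𝓝 (sInf (fullValues α f)))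

/-- The formula for bounded Borel potentials. -/
def BorelFormulaStmt : Prop :=
  ∀ (α : ℝ) (f : ℝ → ℝ), 0 < α → Measurable f → (∃ A, ∀ z, |f z| ≤ A) →
    BddBelow (fullValues α f) ∧
      Tendsto (meanPressure isingLaw α f) atTop (𝓝 (sInf (fullValues α f)))

/-- Module B: from smooth potentials to bounded Borel ones. -/
def ExtendStmt : Prop :=
  SiteSlopeStmt → ConcaveStmt → SmoothFormulaStmt → BorelFormulaStmt

end Vale.Agent.P157.Parisi.Full
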