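import Vale.Agent.P157.Full.Deriv.Rec
import Vale.Agent.P157.Full.Statements

/-!
The pattern part and the site part as functions of their paths: differences along segments.
-/

noncomputable section

open MeasureTheory ProbabilityTheory Filter Topology Set

namespace Vale.Agent.P157.Parisi.Full

open Deriv

lemma seg_zero {r : ℕ} (q q' : Fin (r + 1) → ℝ) : seg q q' 0 = q := by funext p; simp [seg]

lemma seg_one {r : ℕ} (q q' : Fin (r + 1) → ℝ) : seg q q' 1 = q' := by funext p; simp [seg]

theorem patDeriv_spec : PatDerivStmt := by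
  intro f A hf r m q q' hq hq' B hB
  have hA : 0 ≤ A := (abs_nonneg _).trans (hf.b0 0)
  have hbase : Fam A (fun _ => f) (fun _ => deriv f) (fun _ => deriv (deriv f)) (fun _ _ => 0) :=
    ⟨hA, hf.d0.continuous.comp continuous_snd, hf.d1.continuous.comp continuous_snd,
      hf.d2.continuous.comp continuous_snd, continuousOn_const,
      fun _ x => (hf.d0 x).hasDerivAt, fun _ x => (hf.d1 x).hasDerivAt,
      fun t _ x => hasDerivAt_const t (f x), fun _ => hf.b1, fun _ => hf.b2,
      fun _ _ _ => by simpa using hA⟩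
  set δ : ℝ → ℝ := fun t => (1 - t) * (1 - q (Fin.last r)) + t * (1 - q' (Fin.last r))
  have hi : Inc δ ((1 - q' (Fin.last r)) - (1 - q (Fin.last r))) :=
    inc_segment (sub_nonneg.2 hq.le_one) (sub_nonneg.2 hq'.le_one)
  obtain ⟨L', hT⟩ := hbase.step one_pos hi
  obtain ⟨t, ht, heq⟩ := segment_value (κ := 0) hT hq.pos hq.mono hq'.mono hq.nonneg hq'.nonneg
    (fun t _ x => by
      simp only [tl, tilt_eq, zero_add, one_mul]
      rw [show (fun g => wgt 1 (δ t) f x g * ((1 - q' (Fin.last r) - (1 - q (Fin.last r))) / 2 *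
          (deriv (deriv f) (x + Real.sqrt (δ t) * g) + deriv f (x + Real.sqrt (δ t) * g) ^ 2))) =
        fun g => (1 - q' (Fin.last r) - (1 - q (Fin.last r))) / 2 * (wgt 1 (δ t) f x g *
          (deriv (deriv f) (x + Real.sqrt (δ t) * g) + deriv f (x + Real.sqrt (δ t) * g) ^ 2))
        from funext fun g => by ring, integral_const_mul]
      ring)
  have hδ : ∀ s, (fun x => layer 1 (δ s) f x) = topMean f (1 - seg q q' s (Fin.last r)) := fun s => by
    rw [topMean_eq]
    show layer 1 (δ s) f = _
    congr 1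
    simp only [δ, seg]; ring
  simp only [root, hδ, seg_zero, seg_one] at heq
  rw [show patValue f m q' - patValue f m q = _ from heq, add_zero]
  exact hB t ht

lemma hasDerivAt_logCosh (x : ℝ) : HasDerivAt logCosh (Real.tanh x) x :=
  ((Real.hasDerivAt_cosh x).log (Real.cosh_pos x).ne').congr_deriv
    (Real.tanh_eq_sinh_div_cosh x).symm

lemma hasDerivAt_tanh' (x : ℝ) : HasDerivAt Real.tanh (1 - Real.tanh x ^ 2) x := by
  have h := (Real.hasDerivAt_sinh x).div (Real.hasDerivAt_cosh x) (Real.cosh_pos x).ne'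
  rw [show Real.tanh = fun y => Real.sinh y / Real.cosh y from funext Real.tanh_eq_sinh_div_cosh]
  refine h.congr_deriv ?_
  have := (Real.cosh_pos x).ne'
  field_simp

lemma sq_tanh_le_one (x : ℝ) : Real.tanh x ^ 2 ≤ 1 := by
  rw [Real.tanh_eq_sinh_div_cosh, div_pow, div_le_one (by positivity), Real.cosh_sq]
  linarith

theorem siteDeriv_spec : SiteDerivStmt := by
  intro r m ρ ρ' hρ hρ' B hB
  have hcont : Continuous Real.tanh :=
    continuous_iff_continuousAt.2 fun x => (hasDerivAt_tanh' x).continuousAt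
  have hlc : Continuous logCosh :=
    continuous_iff_continuousAt.2 fun x => (hasDerivAt_logCosh x).continuousAt
  have hbase : Fam 1 (fun _ => logCosh) (fun _ => Real.tanh) (fun _ x => 1 - Real.tanh x ^ 2)
      (fun _ _ => 0) :=
    ⟨zero_le_one, hlc.comp continuous_snd, hcont.comp continuous_snd,
      (continuous_const.sub (hcont.pow 2)).comp continuous_snd, continuousOn_const,
      fun _ x => hasDerivAt_logCosh x, fun _ x => hasDerivAt_tanh' x,
      fun t _ x => hasDerivAt_const t (logCosh x),
      fun _ x => sq_le_one_iff_abs_le_one _ |>.1 (sq_tanh_le_one x),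
      fun _ x => by
        rw [abs_le]; constructor <;> nlinarith [sq_tanh_le_one x, sq_nonneg (Real.tanh x)],
      fun _ _ _ => by simp⟩
  obtain ⟨t, ht, heq⟩ := segment_value (κ := (ρ' (Fin.last r) - ρ (Fin.last r)) / 2) hbase hρ.pos
    hρ.mono hρ'.mono hρ.nonneg hρ'.nonneg (fun t _ x => by ring)
  simp only [root, seg_zero, seg_one] at heq
  have := hB t ht
  change ((∫ g, level m ρ' logCosh 0 (Real.sqrt (ρ' 0) * g) ∂gaussianReal 0 1) -
    ρ' (Fin.last r) / 2) - ((∫ g, level m ρ logCosh 0 (Real.sqrt (ρ 0) * g) ∂gaussianReal 0 1) -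
    ρ (Fin.last r) / 2) ≤ B
  simp only [siteSlope] at this
  simp only [Deriv.sq] at heq
  linarith

end Vale.Agent.P157.Parisi.Full
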