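import Vale.Agent.P157.Full.Slots
import Vale.Agent.P157.Parisi.Sphere.Perturb.Identity

/-! Systems over a random base: measurability, bounds and comparison of their averages. -/

noncomputable section

open MeasureTheory ProbabilityTheory
open scoped BigOperators NNReal ENNReal

namespace Vale.Agent.P157.Parisi.Full.BaseU

open Vale.Agent.P157.Parisi.Perturb (absJ)
open Vale.Agent.P157.Parisi.Sphere (Conf)
open Vale.Agent.P157.Parisi.Sphere.Perturb ( abs_feat_le)
open Vale.Agent.P168.Limit (gw logZ gav rav)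
open Vale.Agent.P168.Limit.SelfAvg (abs_logZ_sub_le')

variable {N L : ℕ} {P : Sphere.Pts N} (B : Base P) {f : ℝ → ℝ} {A : ℝ}

/-- The log-weights of the base. -/
def logV (ω : B.Ω) (σ : Conf P) : ℝ := Real.log (B.v ω σ)

/-- The law of the disorder and the base. -/
abbrev baseLaw (L : ℕ) (μ : ℝ) : Measure (Dis N L × B.Ω) := (disLaw N L μ).prod B.law

/-- The Hamiltonian over a base. -/
def baseH (f : ℝ → ℝ) (s : ℝ) (x : Fin L → ℝ) (z : Dis N L × B.Ω) (σ : Conf P) : ℝ :=
  logV B z.2 σ + Sphere.totalH f s x z.1 σ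

lemma exp_baseH (f : ℝ → ℝ) (s : ℝ) (x : Fin L → ℝ) (z : Dis N L × B.Ω) (σ : Conf P) :
    Real.exp (baseH B f s x z σ) = B.v z.2 σ * Real.exp (Sphere.totalH f s x z.1 σ) := by
  rw [baseH, logV, Real.exp_add, Real.exp_log (B.pos _ _)]

lemma basePsi_eq (f : ℝ → ℝ) (s : ℝ) (x : Fin L → ℝ) (d : Dis N L) (ω : B.Ω) :
    basePsi B f s x d ω = logZ (baseH B f s x (d, ω)) := by
  simp only [basePsi, logZ, exp_baseH]

lemma baseW_eq (f : ℝ → ℝ) (s : ℝ) (x : Fin L → ℝ) (μ : ℝ) (z : Dis N L × B.Ω) (σ : Conf P) :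
    (baseState B f s x μ).w z σ = gw (baseH B f s x z) σ := by
  simp only [baseState, gw, exp_baseH]

lemma abs_pertH_le (s : ℝ) (x : Fin L → ℝ) (J : PertIdx N L → ℝ) (σ : Conf P) :
    |Sphere.pertH s x J σ| ≤ (|s| * ∑ p, |x p|) * absJ J := by
  rw [Sphere.Perturb.pertH_eq_field, absJ, Finset.mul_sum]
  refine (Finset.abs_sum_le_sum_abs _ _).trans (Finset.sum_le_sum fun c _ => ?_)
  rw [abs_mul, abs_mul, abs_mul]
  refine mul_le_mul_of_nonneg_right ?_ (abs_nonneg _)
  refine (mul_le_of_le_one_right (by positivity) (abs_feat_le _ _)).trans ?_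
  exact mul_le_mul_of_nonneg_left (Finset.single_le_sum (f := fun p => |x p|)
    (fun _ _ => abs_nonneg _) (Finset.mem_univ c.1)) (abs_nonneg _)

lemma abs_logV_le (ω : B.Ω) (σ : Conf P) : |logV B ω σ| ≤ B.bd := B.le_bd ω σ

lemma abs_baseH_le (hb : ∀ y, |f y| ≤ A) (s : ℝ) (x : Fin L → ℝ) (z : Dis N L × B.Ω) (σ : Conf P) :
    |baseH B f s x z σ| ≤ B.bd + A * z.1.1 + (|s| * ∑ p, |x p|) * absJ z.1.2.2 := by
  have h1 : |∑ a ∈ Finset.range z.1.1, f (dot (z.1.2.1 a) (Sphere.unitVec σ))| ≤ A * z.1.1 :=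
    (Finset.abs_sum_le_sum_abs _ _).trans ((Finset.sum_le_sum fun a _ => hb _).trans_eq
      (by simp [mul_comm]))
  have h2 := abs_pertH_le s x z.1.2.2 σ
  have h3 := abs_logV_le B z.2 σ
  unfold baseH Sphere.totalH
  have := abs_add_le (∑ a ∈ Finset.range z.1.1, f (dot (z.1.2.1 a) (Sphere.unitVec σ))) (Sphere.pertH s x z.1.2.2 σ)
  have := abs_add_le (logV B z.2 σ)
    ((∑ a ∈ Finset.range z.1.1, f (dot (z.1.2.1 a) (Sphere.unitVec σ))) + Sphere.pertH s x z.1.2.2 σ)
  linarith

lemma measurable_baseH (hf : Continuous f) (s : ℝ) (x : Fin L → ℝ) (σ : Conf P) :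
    Measurable fun z : Dis N L × B.Ω => baseH B f s x z σ := by
  have h : Measurable fun d : Dis N L => Sphere.totalH f s (x, d).1 (x, d).2 σ :=
    (Sphere.Perturb.measurable_totalH hf s σ).comp measurable_prodMk_left
  exact (((B.meas σ).comp measurable_snd).log).add (h.comp measurable_fst)

lemma measurable_gw (hf : Continuous f) (s : ℝ) (x : Fin L → ℝ) (σ : Conf P) :
    Measurable fun z : Dis N L × B.Ω => gw (baseH B f s x z) σ :=
  (measurable_baseH B hf s x σ).exp.div
    (Finset.measurable_sum _ fun τ _ => (measurable_baseH B hf s x τ).exp)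

lemma measurable_logZ (hf : Continuous f) (s : ℝ) (x : Fin L → ℝ) :
    Measurable fun z : Dis N L × B.Ω => logZ (baseH B f s x z) :=
  (Finset.measurable_sum _ fun σ _ => (measurable_baseH B hf s x σ).exp).log

lemma integrable_absJ (μ : ℝ) : Integrable (fun d : Dis N L => absJ d.2.2) (disLaw N L μ) :=
  (Vale.Agent.P157.Parisi.Perturb.memLp_absJ μ).integrable one_le_two

lemma integrable_absJ' (μ : ℝ) :
    Integrable (fun z : Dis N L × B.Ω => absJ z.1.2.2) (baseLaw B L μ) :=
  (integrable_absJ μ).comp_fst B.law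

lemma integrable_logZ (hf : Continuous f) (hb : ∀ y, |f y| ≤ A) (s μ : ℝ) (x : Fin L → ℝ) :
    Integrable (fun z => logZ (baseH B f s x z)) (baseLaw B L μ) := by
  have h1 : Integrable (fun d : Dis N L => A * (d.1 : ℝ)) (disLaw N L μ) :=
    ((Vale.Agent.P168.Toolkit.integrable_count _).comp_fst _).const_mul A
  have h2 := ((integrable_const (|logZ (fun _ : Conf P => (0 : ℝ))| + B.bd)).add
    (h1.comp_fst B.law)).add ((integrable_absJ' (L := L) B μ).const_mul (|s| * ∑ p, |x p|))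
  refine h2.mono' (measurable_logZ B hf s x).aestronglyMeasurable (ae_of_all _ fun z => ?_)
  have h := abs_logZ_sub_le' (fun _ : Conf P => (0 : ℝ)) (baseH B f s x z)
    fun σ => abs_baseH_le B hb s x z σ
  simp only [zero_add] at h
  simp only [Pi.add_apply, Real.norm_eq_abs]
  linarith [abs_sub_abs_le_abs_sub (logZ (baseH B f s x z)) (logZ fun _ : Conf P => (0 : ℝ))]

lemma baseFree_eq (hf : Continuous f) (hb : ∀ y, |f y| ≤ A) (s μ : ℝ) (x : Fin L → ℝ) :
    baseFree B f s x μ = ∫ z, logZ (baseH B f s x z) ∂baseLaw B L μ := by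
  rw [integral_prod _ (integrable_logZ B hf hb s μ x)]
  simp only [baseFree, basePsi_eq]

lemma baseDev_eq (hf : Continuous f) (hb : ∀ y, |f y| ≤ A) (s μ : ℝ) (x : Fin L → ℝ) :
    baseDev B f s x μ =
      ∫ z, |logZ (baseH B f s x z) - baseFree B f s x μ| ∂baseLaw B L μ := by
  have h : Integrable (fun z => |logZ (baseH B f s x z) - baseFree B f s x μ|) (baseLaw B L μ) :=
    ((integrable_logZ B hf hb s μ x).sub (integrable_const _)).abs
  rw [integral_prod _ h]
  simp only [baseDev, basePsi_eq]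

/-- Integrals over the disorder and the base compare if those over the Gaussian variables do. -/
lemma integral_le {μ : ℝ} {F G : Dis N L × B.Ω → ℝ} (hF : Integrable F (baseLaw B L μ))
    (hG : Integrable G (baseLaw B L μ))
    (h : ∀ (n : ℕ) (g : ℕ → Fin N → ℝ) (ω : B.Ω),
      ∫ J, F ((n, g, J), ω) ∂gam (PertIdx N L) ≤ ∫ J, G ((n, g, J), ω) ∂gam (PertIdx N L)) :
    ∫ z, F z ∂baseLaw B L μ ≤ ∫ z, G z ∂baseLaw B L μ := by
  rw [integral_prod_symm _ hF, integral_prod_symm _ hG]
  refine integral_mono_ae hF.integral_prod_right hG.integral_prod_right ?_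
  filter_upwards [hF.prod_left_ae, hG.prod_left_ae] with ω h1 h2
  unfold disLaw at h1 h2 ⊢
  rw [integral_prod _ h1, integral_prod _ h2]
  refine integral_mono_ae h1.integral_prod_left h2.integral_prod_left ?_
  filter_upwards [h1.prod_right_ae, h2.prod_right_ae] with n k1 k2
  rw [integral_prod _ k1, integral_prod _ k2]
  exact integral_mono_ae k1.integral_prod_left k2.integral_prod_left (ae_of_all _ fun g => h n g ω)

/-- Integrals over the disorder and the base agree if those over the Gaussian variables do. -/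
lemma integral_eq {μ : ℝ} {F G : Dis N L × B.Ω → ℝ} (hF : Integrable F (baseLaw B L μ))
    (hG : Integrable G (baseLaw B L μ))
    (h : ∀ (n : ℕ) (g : ℕ → Fin N → ℝ) (ω : B.Ω),
      ∫ J, F ((n, g, J), ω) ∂gam (PertIdx N L) = ∫ J, G ((n, g, J), ω) ∂gam (PertIdx N L)) :
    ∫ z, F z ∂baseLaw B L μ = ∫ z, G z ∂baseLaw B L μ :=
  le_antisymm (integral_le B hF hG fun n g ω => (h n g ω).le)
    (integral_le B hG hF fun n g ω => (h n g ω).ge)

end Vale.Agent.P157.Parisi.Full.BaseU
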