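import Vale.Agent.P157.Full.Statements
import Vale.Agent.P157.Full.BaseFacts
import Vale.Agent.P157.Parisi.Sphere.Main.Shift

/-! More patterns: the free energy over a base moves by the mean of one fresh pattern, up to the
square of the added intensity. -/

noncomputable section

open MeasureTheory ProbabilityTheory
open scoped BigOperators NNReal ENNReal

namespace Vale.Agent.P157.Parisi.Full.BaseU

open Vale.Agent.P157.Parisi.Perturb (absJ)
open Vale.Agent.P157.Parisi.Sphere (Conf)
open Vale.Agent.P157.Parisi.Sphere.Main (Tame freshMean countMean disMean disMean_eq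
  abs_countMean_le countMean_add)
open Vale.Agent.P168.Limit (gw logZ gav)
open Vale.Agent.P168.Limit.SelfAvg (abs_logZ_sub_le' logZ_tilt')
open Vale.Agent.P168.Toolkit (integrable_poisson_of_linear integrable_poisson_of_bdd integrable_count
  integrable_count_sq integral_count_sq integral_superposition abs_le_linear
  poisson_lipschitz)

/-- Second order expansion of a Poisson mean in its parameter. -/
lemma poisson_second_order (a b : ℝ≥0) {c : ℕ → ℝ} {A : ℝ} (h : ∀ n, |c (n + 1) - c n| ≤ A) :
    |∫ n, c n ∂poissonMeasure (a + b) - ∫ n, c n ∂poissonMeasure a -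
      (b : ℝ) * ∫ n, (c (n + 1) - c n) ∂poissonMeasure (a + b)| ≤ 4 * A * (b : ℝ) ^ 2 := by
  have hA : 0 ≤ A := (abs_nonneg _).trans (h 0)
  set d : ℕ → ℝ := fun n => c (n + 1) - c n with hd
  have hlin : ∀ n, |c n| ≤ |c 0| + A * n := fun n => by
    have := abs_le_linear h 0 n
    rw [zero_add] at this
    have := abs_sub_abs_le_abs_sub (c n) (c 0)
    linarith
  have hdd : ∀ n, |d (n + 1) - d n| ≤ 2 * A := fun n => by
    have := abs_sub (d (n + 1)) (d n)
    have := h (n + 1)
    have := h n
    simp only [hd] at *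
    linarith
  have hdi : ∀ r : ℝ≥0, Integrable d (poissonMeasure r) := fun r => integrable_poisson_of_bdd r h
  have hk : ∀ n, Integrable (fun k => c (n + k)) (poissonMeasure b) := fun n =>
    integrable_poisson_of_linear b (A := |c n|) (B := A) fun k => by
      have := abs_le_linear h n k
      have := abs_sub_abs_le_abs_sub (c (n + k)) (c n)
      linarith
  have hq : Integrable (fun k : ℕ => (k : ℝ) ^ 2 - k) (poissonMeasure b) :=
    (integrable_count_sq b).sub (integrable_count b)
  have hinner : ∀ n, |(∫ k, c (n + k) ∂poissonMeasure b) - c n - (b : ℝ) * d n| ≤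
      2 * A * (b : ℝ) ^ 2 := by
    intro n
    have hg : Integrable (fun k : ℕ => c (n + k) - c n - (k : ℝ) * d n) (poissonMeasure b) :=
      ((hk n).sub (integrable_const _)).sub ((integrable_count b).mul_const _)
    have e : (∫ k, c (n + k) ∂poissonMeasure b) - c n - (b : ℝ) * d n =
        ∫ k : ℕ, (c (n + k) - c n - (k : ℝ) * d n) ∂poissonMeasure b := by
      have hk1 : Integrable (fun k => c (n + k) - c n) (poissonMeasure b) :=
        (hk n).sub (integrable_const _)
      rw [integral_sub hk1
        ((integrable_count b).mul_const _), integral_sub (hk n) (integrable_const _),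
        integral_mul_const, Vale.Agent.P168.Toolkit.integral_count]
      simp
    have hpt : ∀ k : ℕ, |c (n + k) - c n - (k : ℝ) * d n| ≤ 2 * A * ((k : ℝ) ^ 2 - k) := by
      intro k
      rcases k with _ | _ | k
      · simp
      · simp [hd]
      · have h1 := abs_le_linear h n (k + 2)
        have h2 : |((k + 2 : ℕ) : ℝ) * d n| ≤ ((k + 2 : ℕ) : ℝ) * A := by
          rw [abs_mul, Nat.abs_cast]
          exact mul_le_mul_of_nonneg_left (h n) (Nat.cast_nonneg _)
        refine (abs_sub _ _).trans ((add_le_add h1 h2).trans ?_)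
        have hk0 : (0 : ℝ) ≤ k := Nat.cast_nonneg k
        push_cast
        nlinarith [mul_nonneg hA hk0, mul_nonneg hA (mul_nonneg hk0 hk0)]
    rw [e]
    refine abs_integral_le_integral_abs.trans
      ((integral_mono hg.abs (hq.const_mul (2 * A)) hpt).trans ?_)
    rw [integral_const_mul, integral_sub (integrable_count_sq b) (integrable_count b),
      Vale.Agent.P168.Toolkit.integral_count, integral_count_sq]
    exact le_of_eq (by ring)
  have hca := integrable_poisson_of_linear a hlin
  have hg : Integrable (fun n => ∫ k, c (n + k) ∂poissonMeasure b) (poissonMeasure a) :=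
    integrable_poisson_of_linear a (A := |c 0| + (2 * A * (b : ℝ) ^ 2 + b * A)) (B := A) fun n => by
      have := abs_le.1 (hinner n)
      have := abs_le.1 (hlin n)
      have h4 : |(b : ℝ) * d n| ≤ b * A := by
        rw [abs_mul, NNReal.abs_eq]; exact mul_le_mul_of_nonneg_left (h n) b.coe_nonneg
      have := abs_le.1 h4
      rw [abs_le]; constructor <;> linarith
  have h1 : |∫ n, c n ∂poissonMeasure (a + b) - ∫ n, c n ∂poissonMeasure a -
      (b : ℝ) * ∫ n, d n ∂poissonMeasure a| ≤ 2 * A * (b : ℝ) ^ 2 := by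
    rw [integral_superposition (integrable_poisson_of_linear _ hlin), ← integral_sub hg hca,
      ← integral_const_mul, ← integral_sub (hg.sub' hca) ((hdi a).const_mul _)]
    rw [← Real.norm_eq_abs]
    refine (norm_integral_le_of_norm_le_const (μ := poissonMeasure a) (C := 2 * A * (b : ℝ) ^ 2)
      (ae_of_all _ fun n => ?_)).trans_eq (by simp)
    exact hinner n
  have h2 := poisson_lipschitz a (a + b) hdd
  rw [NNReal.coe_add, sub_add_cancel_left, abs_neg, NNReal.abs_eq] at h2
  have h3 : |(b : ℝ) * ∫ n, d n ∂poissonMeasure a - b * ∫ n, d n ∂poissonMeasure (a + b)| ≤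
      2 * A * (b : ℝ) ^ 2 := by
    rw [← mul_sub, abs_mul, NNReal.abs_eq]
    exact (mul_le_mul_of_nonneg_left h2 b.coe_nonneg).trans_eq (by ring)
  refine le_trans (le_of_eq ?_) ((abs_add_le _ _).trans (add_le_add h1 h3) |>.trans_eq (by ring))
  simp only [hd]
  ring_nf

variable {N L : ℕ} {P : Sphere.Pts N} (B : Base P) {f : ℝ → ℝ} {A : ℝ}

/-- The log-partition function over the base as a functional of the Hamiltonian. -/
def psiFun (ω : B.Ω) (H : Conf P → ℝ) : ℝ := logZ fun σ => logV B ω σ + H σ

/-- The bound of the functional. -/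
def psiBd (A s : ℝ) (x : Fin L → ℝ) (J : PertIdx N L → ℝ) : ℝ :=
  |logZ (fun _ : Conf P => (0 : ℝ))| + B.bd + |A| + (|s| * ∑ p, |x p|) * absJ J

lemma measurable_psiFun (ω : B.Ω) : Measurable (psiFun B ω) :=
  (Finset.measurable_sum _ fun σ _ => ((measurable_pi_apply σ).const_add _).exp).log

lemma tame_psiFun (hf : Smooth f A) (s : ℝ) (x : Fin L → ℝ) (ω : B.Ω) :
    Tame (P := P) f s x (psiFun B ω) (psiBd B A s x) := by
  have hbd : 0 ≤ B.bd := (abs_nonneg _).trans (B.le_bd ω default)
  have hJ : ∀ J : PertIdx N L → ℝ, 0 ≤ (|s| * ∑ p, |x p|) * absJ J := fun J =>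
    mul_nonneg (mul_nonneg (abs_nonneg _) (Finset.sum_nonneg fun _ _ => abs_nonneg _))
      (Finset.sum_nonneg fun _ _ => abs_nonneg _)
  refine ⟨measurable_psiFun B ω, ?_, fun J => ?_, fun m g J => ?_⟩
  · exact (integrable_const (|logZ (fun _ : Conf P => (0 : ℝ))| + B.bd + |A|)).add
      ((integrable_finsetSum _ fun c _ =>
        (Vale.Agent.P168.Toolkit.integrable_eval_gaussPi c).abs).const_mul _)
  · unfold psiBd
    linarith [hJ J, abs_nonneg (logZ (fun _ : Conf P => (0 : ℝ))), abs_nonneg A]
  · have h := abs_logZ_sub_le' (fun _ : Conf P => (0 : ℝ))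
      (fun σ => baseH B f s x ((m, g, J), ω) σ) fun σ =>
        abs_baseH_le B hf.b0 s x ((m, g, J), ω) σ
    simp only [zero_add] at h
    have e : psiFun B ω (fun σ => Sphere.Main.patH f m g σ + Sphere.pertH s x J σ) =
        logZ fun σ => baseH B f s x ((m, g, J), ω) σ := rfl
    rw [e]
    have h3 := abs_sub_abs_le_abs_sub (logZ fun σ => baseH B f s x ((m, g, J), ω) σ)
      (logZ fun _ : Conf P => (0 : ℝ))
    refine le_trans (by linarith) (b := |logZ (fun _ : Conf P => (0 : ℝ))| +
      (B.bd + A * m + (|s| * ∑ p, |x p|) * absJ J)) ?_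
    have hm : (0 : ℝ) ≤ m := Nat.cast_nonneg m
    unfold psiBd
    nlinarith [mul_nonneg hm (abs_nonneg (logZ (fun _ : Conf P => (0 : ℝ)))), mul_nonneg hm hbd,
      mul_nonneg hm (hJ J), le_abs_self A, abs_nonneg A]

/-- The mean over a base with exactly `n` patterns. -/
def baseCount (f : ℝ → ℝ) (s : ℝ) (x : Fin L → ℝ) (ω : B.Ω) (n : ℕ) : ℝ :=
  countMean f s x (psiFun B ω) n

lemma abs_baseCount_succ (hf : Smooth f A) (s : ℝ) (x : Fin L → ℝ) (ω : B.Ω) (n : ℕ) :
    |baseCount B f s x ω (n + 1) - baseCount B f s x ω n| ≤ A := by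
  have hT := tame_psiFun B hf s x ω
  have hT1 := hT.fresh hf 1
  unfold baseCount
  rw [countMean_add hT hf n 1]
  have i1 := hT1.integrable_gJ hf n
  have i0 := hT.integrable_gJ hf n
  simp only [countMean]
  rw [← integral_sub i1.integral_prod_right i0.integral_prod_right]
  rw [← Real.norm_eq_abs]
  refine (norm_integral_le_of_norm_le_const (μ := gam (PertIdx N L)) (C := A) ?_).trans_eq (by simp)
  filter_upwards [i1.prod_left_ae, i0.prod_left_ae] with J h1 h0
  rw [← integral_sub h1 h0]
  refine (norm_integral_le_of_norm_le_const (μ := Measure.infinitePi fun _ : ℕ => gam (Fin N))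
    (C := A) (ae_of_all _ fun g => ?_)).trans_eq (by simp)
  set H : Conf P → ℝ := fun σ => Sphere.Main.patH f n g σ + Sphere.pertH s x J σ
  have hd : ∀ g' : Fin 1 → Fin N → ℝ,
      |psiFun B ω (fun σ => H σ + ∑ j, f (dot (g' j) (Sphere.unitVec σ))) - psiFun B ω H| ≤ A := by
    intro g'
    have := abs_logZ_sub_le' (fun σ => logV B ω σ + H σ)
      (fun σ => ∑ j, f (dot (g' j) (Sphere.unitVec σ))) (c := A) fun σ => by simpa using hf.b0 _
    simpa [psiFun, add_assoc] using this
  have hi : Integrable (fun g' : Fin 1 → Fin N → ℝ =>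
      psiFun B ω (fun σ => H σ + ∑ j, f (dot (g' j) (Sphere.unitVec σ))))
      (Measure.pi fun _ => gam (Fin N)) := by
    refine Integrable.of_bound ((measurable_psiFun B ω).comp (measurable_pi_lambda _ fun σ =>
      measurable_const.add (Finset.measurable_sum _ fun j _ => hf.d0.continuous.measurable.comp
        (by unfold dot; fun_prop)))).aestronglyMeasurable (|psiFun B ω H| + A)
      (ae_of_all _ fun g' => ?_)
    rw [Real.norm_eq_abs]
    linarith [hd g', abs_sub_abs_le_abs_sub
      (psiFun B ω (fun σ => H σ + ∑ j, f (dot (g' j) (Sphere.unitVec σ)))) (psiFun B ω H)]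
  have e : freshMean f (psiFun B ω) 1 H - psiFun B ω H =
      ∫ g' : Fin 1 → Fin N → ℝ,
        (psiFun B ω (fun σ => H σ + ∑ j, f (dot (g' j) (Sphere.unitVec σ))) - psiFun B ω H)
        ∂(Measure.pi fun _ => gam (Fin N)) := by
    rw [integral_sub hi (integrable_const _), freshMean]
    simp
  show ‖freshMean f (psiFun B ω) 1 H - psiFun B ω H‖ ≤ A
  rw [e]
  refine (norm_integral_le_of_norm_le_const (C := A) (ae_of_all _ fun g' => ?_)).trans_eq (by simp)
  exact hd g'

lemma disMean_psiFun (f : ℝ → ℝ) (s : ℝ) (x : Fin L → ℝ) (μ : ℝ) (ω : B.Ω) :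
    disMean f s x P μ (psiFun B ω) = ∫ d, logZ (baseH B f s x (d, ω)) ∂disLaw N L μ := rfl

lemma baseFree_count (hf : Smooth f A) (s μ : ℝ) (x : Fin L → ℝ) :
    baseFree B f s x μ = ∫ ω, ∫ n, baseCount B f s x ω n ∂poissonMeasure μ.toNNReal ∂B.law ∧
      Integrable (fun ω => ∫ n, baseCount B f s x ω n ∂poissonMeasure μ.toNNReal) B.law := by
  have hi := integrable_logZ B hf.d0.continuous hf.b0 s μ x
  have e : ∀ ω, ∫ d, logZ (baseH B f s x (d, ω)) ∂disLaw N L μ =
      ∫ n, baseCount B f s x ω n ∂poissonMeasure μ.toNNReal := fun ω => by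
    rw [← disMean_psiFun, disMean_eq (tame_psiFun B hf s x ω) hf]; rfl
  refine ⟨?_, hi.integral_prod_right.congr (ae_of_all _ e)⟩
  rw [baseFree_eq B hf.d0.continuous hf.b0, integral_prod_symm _ hi]
  exact integral_congr_ae (ae_of_all _ e)

/-- The fresh pattern over a base. -/
lemma logMean_count (hf : Smooth f A) (s μ : ℝ) (x : Fin L → ℝ) :
    (baseState B f s x μ).logMean f 1 =
        ∫ ω, ∫ n, (baseCount B f s x ω (n + 1) - baseCount B f s x ω n)
          ∂poissonMeasure μ.toNNReal ∂B.law ∧
      Integrable (fun ω => ∫ n, (baseCount B f s x ω (n + 1) - baseCount B f s x ω n)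
        ∂poissonMeasure μ.toNNReal) B.law := by
  set γ : Measure (Fin 1 → Fin N → ℝ) := Measure.pi fun _ => gam (Fin N) with hγ
  set G : Dis N L × B.Ω → (Fin 1 → Fin N → ℝ) → ℝ := fun z g =>
    Real.log (∑ σ, (baseState B f s x μ).w z σ * Real.exp (∑ j, f (dot (g j) (Sphere.unitVec σ)))) with hG
  set Fr : Dis N L × B.Ω → ℝ := fun z => freshMean f (psiFun B z.2) 1 (Sphere.totalH f s x z.1)
  have hmz : ∀ σ : Conf P, Measurable fun p : (Dis N L × B.Ω) × (Fin 1 → Fin N → ℝ) =>
      ∑ j, f (dot (p.2 j) (Sphere.unitVec σ)) := fun σ =>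
    Finset.measurable_sum _ fun j _ => hf.d0.continuous.measurable.comp (by unfold dot; fun_prop)
  have hGm : Measurable fun p : (Dis N L × B.Ω) × (Fin 1 → Fin N → ℝ) => G p.1 p.2 := by
    simp only [hG, baseW_eq]
    exact (Finset.measurable_sum _ fun σ _ =>
      ((measurable_gw B hf.d0.continuous s x σ).comp measurable_fst).mul (hmz σ).exp).log
  have hGe : ∀ z g, G z g = psiFun B z.2 (fun σ => Sphere.totalH f s x z.1 σ +
      ∑ j, f (dot (g j) (Sphere.unitVec σ))) - logZ (baseH B f s x z) := by
    intro z g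
    have := logZ_tilt' (baseH B f s x z) (fun σ => ∑ j, f (dot (g j) (Sphere.unitVec σ)))
    simp only [psiFun, hG, baseW_eq, ← add_assoc]
    exact this.symm
  have hGb : ∀ z g, |G z g| ≤ A := by
    intro z g
    rw [hGe]
    have := abs_logZ_sub_le' (baseH B f s x z) (fun σ => ∑ j, f (dot (g j) (Sphere.unitVec σ))) (c := A)
      fun σ => by simpa using hf.b0 _
    simpa [psiFun, baseH, add_assoc] using this
  have hGi : ∀ z, ∫ g, G z g ∂γ = Fr z - logZ (baseH B f s x z) := by
    intro z
    have hi : Integrable (fun g => psiFun B z.2 (fun σ => Sphere.totalH f s x z.1 σ +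
        ∑ j, f (dot (g j) (Sphere.unitVec σ)))) γ := by
      have h0 : Integrable (G z) γ := Integrable.of_bound
        (hGm.comp measurable_prodMk_left).aestronglyMeasurable A (ae_of_all _ (hGb z))
      refine (h0.add (integrable_const (logZ (baseH B f s x z)))).congr (ae_of_all _ fun g => ?_)
      simp [hGe]
    simp only [hGe]
    rw [integral_sub hi (integrable_const _)]
    simp [Fr, freshMean, hγ]
  have hGint : Integrable (fun z => ∫ g, G z g ∂γ) (baseLaw B L μ) :=
    Integrable.of_bound (hGm.stronglyMeasurable.integral_prod_right').aestronglyMeasurable A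
      (ae_of_all _ fun z => (norm_integral_le_of_norm_le_const (ae_of_all _ (hGb z))).trans_eq
        (by simp))
  have hL : (baseState B f s x μ).logMean f 1 = ∫ z, ∫ g, G z g ∂γ ∂baseLaw B L μ := rfl
  have e : ∀ ω, ∫ d, (∫ g, G (d, ω) g ∂γ) ∂disLaw N L μ =
      ∫ n, (baseCount B f s x ω (n + 1) - baseCount B f s x ω n) ∂poissonMeasure μ.toNNReal := by
    intro ω
    have hT := tame_psiFun B hf s x ω
    have hT1 := hT.fresh hf 1
    simp only [hGi, Fr]
    rw [integral_sub]
    · show disMean f s x P μ (freshMean f (psiFun B ω) 1) - disMean f s x P μ (psiFun B ω) = _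
      rw [disMean_eq hT1 hf, disMean_eq hT hf, ← integral_sub]
      · refine integral_congr_ae (ae_of_all _ fun n => ?_)
        simp only [baseCount, countMean_add hT hf n 1]
      · exact integrable_poisson_of_linear _ (A := ∫ J, psiBd B A s x J * ((1 : ℕ) + 1) ∂gam (PertIdx N L))
          (B := ∫ J, psiBd B A s x J * ((1 : ℕ) + 1) ∂gam (PertIdx N L))
          fun n => (abs_countMean_le hT1 n).trans_eq (by ring)
      · exact integrable_poisson_of_linear _ (A := ∫ J, psiBd B A s x J ∂gam (PertIdx N L))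
          (B := ∫ J, psiBd B A s x J ∂gam (PertIdx N L))
          fun n => (abs_countMean_le hT n).trans_eq (by ring)
    · exact hT1.integrable hf
    · exact hT.integrable hf
  refine ⟨?_, hGint.integral_prod_right.congr (ae_of_all _ e)⟩
  rw [hL, integral_prod_symm _ hGint]
  exact integral_congr_ae (ae_of_all _ e)

end Vale.Agent.P157.Parisi.Full.BaseU

namespace Vale.Agent.P157.Parisi.Full

open BaseU

/-- Module U2a. -/
theorem addStmt : AddStmt := by
  intro A
  refine ⟨4 * A, fun N L P B f hf s x μ h hμ hh _ => ?_⟩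
  obtain ⟨e1, i1⟩ := baseFree_count B hf s (μ + h) x
  obtain ⟨e0, i0⟩ := baseFree_count B hf s μ x
  obtain ⟨eL, iL⟩ := logMean_count B hf s (μ + h) x
  rw [e1, e0, eL, ← integral_sub i1 i0, ← integral_const_mul,
    ← integral_sub (i1.sub' i0) (iL.const_mul h)]
  rw [← Real.norm_eq_abs]
  refine (norm_integral_le_of_norm_le_const (C := 4 * A * h ^ 2) (ae_of_all _ fun ω => ?_)).trans_eq
    (by simp)
  have hp := poisson_second_order μ.toNNReal h.toNNReal (abs_baseCount_succ B hf s x ω)
  rw [Real.coe_toNNReal h hh, ← Real.toNNReal_add hμ hh] at hp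
  exact hp

end Vale.Agent.P157.Parisi.Full
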