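import Mathlib

/-!
Bernstein polynomials: uniform approximation of Lipschitz functions on `[0, 1]` at the rate `1/√n`.
-/

noncomputable section

open Polynomial
open scoped BigOperators

namespace Vale.Agent.P157.Parisi.Full

/-- The value of a Bernstein polynomial is nonnegative on `[0, 1]`. -/
lemma bern_nonneg (n k : ℕ) {t : ℝ} (ht : t ∈ Set.Icc (0 : ℝ) 1) :
    0 ≤ (bernsteinPolynomial ℝ n k).eval t := by
  have h1 : 0 ≤ 1 - t := sub_nonneg.2 ht.2
  have h0 := ht.1
  simp only [bernsteinPolynomial, eval_mul, eval_pow, eval_sub, eval_one, eval_X, eval_natCast]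
  positivity

lemma bern_sum (n : ℕ) (t : ℝ) :
    ∑ k ∈ Finset.range (n + 1), (bernsteinPolynomial ℝ n k).eval t = 1 := by
  rw [← eval_finsetSum, bernsteinPolynomial.sum, eval_one]

lemma bern_variance (n : ℕ) (t : ℝ) :
    ∑ k ∈ Finset.range (n + 1), ((n : ℝ) * t - k) ^ 2 * (bernsteinPolynomial ℝ n k).eval t =
      n * t * (1 - t) := by
  have h := congrArg (Polynomial.eval t) (bernsteinPolynomial.variance ℝ n)
  simpa [eval_finsetSum, nsmul_eq_mul, mul_assoc] using h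

/-- The approximation. -/
lemma bern_approx {φ : ℝ → ℝ} {L : ℝ} (hL : 0 ≤ L)
    (hφ : ∀ s t, |φ s - φ t| ≤ L * |s - t|) {n : ℕ} (hn : 0 < n) {t : ℝ}
    (ht : t ∈ Set.Icc (0 : ℝ) 1) :
    |φ t - ∑ k ∈ Finset.range (n + 1), φ (k / n) * (bernsteinPolynomial ℝ n k).eval t| ≤
      L / Real.sqrt n := by
  set b : ℕ → ℝ := fun k => (bernsteinPolynomial ℝ n k).eval t
  have hb : ∀ k, 0 ≤ b k := fun k => bern_nonneg n k ht
  have hnR : (0 : ℝ) < n := Nat.cast_pos.2 hn
  have hs : 0 < Real.sqrt n := Real.sqrt_pos.2 hnR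
  have hss : Real.sqrt n * Real.sqrt n = n := Real.mul_self_sqrt hnR.le
  have e : φ t - ∑ k ∈ Finset.range (n + 1), φ (k / n) * b k =
      ∑ k ∈ Finset.range (n + 1), (φ t - φ (k / n)) * b k := by
    simp only [sub_mul, Finset.sum_sub_distrib, ← Finset.mul_sum]
    rw [bern_sum, mul_one]
  rw [e]
  have key : ∀ k : ℕ, |(φ t - φ (k / n)) * b k| ≤
      L / (2 * Real.sqrt n) * ((((n : ℝ) * t - k) ^ 2 / n + 1) * b k) := by
    intro k
    rw [abs_mul, abs_of_nonneg (hb k), ← mul_assoc]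
    refine mul_le_mul_of_nonneg_right ((hφ _ _).trans ?_) (hb k)
    rw [show t - (k : ℝ) / n = ((n : ℝ) * t - k) / n by field_simp, abs_div, abs_of_pos hnR,
      show L / (2 * Real.sqrt n) * (((n : ℝ) * t - k) ^ 2 / n + 1) =
        L * ((((n : ℝ) * t - k) ^ 2 / n + 1) / (2 * Real.sqrt n)) by ring]
    refine mul_le_mul_of_nonneg_left ?_ hL
    rw [div_le_div_iff₀ hnR (by positivity)]
    have h2 := sq_nonneg (|(n : ℝ) * t - k| - Real.sqrt n)
    have h3 : |(n : ℝ) * t - k| * |(n : ℝ) * t - k| = ((n : ℝ) * t - k) ^ 2 := by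
      rw [← sq, sq_abs]
    rw [add_mul, div_mul_cancel₀ _ hnR.ne', one_mul]
    nlinarith
  refine (Finset.abs_sum_le_sum_abs _ _).trans ((Finset.sum_le_sum fun k _ => key k).trans ?_)
  rw [← Finset.mul_sum]
  simp only [add_mul, one_mul, Finset.sum_add_distrib, div_mul_eq_mul_div, ← Finset.sum_div]
  rw [bern_variance, bern_sum]
  have h1 : (n : ℝ) * t * (1 - t) / n ≤ 1 := by
    rw [div_le_one hnR]
    have h0 : t * (1 - t) ≤ 1 := by nlinarith [ht.1, ht.2]
    nlinarith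
  rw [div_le_div_iff₀ (by positivity) hs]
  calc L * ((n : ℝ) * t * (1 - t) / n + 1) * Real.sqrt n ≤ L * 2 * Real.sqrt n :=
        mul_le_mul_of_nonneg_right (mul_le_mul_of_nonneg_left (by linarith) hL) hs.le
    _ = L * (2 * Real.sqrt n) := by ring

end Vale.Agent.P157.Parisi.Full
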