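import Vale.Agent.P157.Full.Statements

/-!
The truncated hyperbolic sine, and the change of a normalised pair average with its data.
-/

noncomputable section

open Filter Topology Finset
open scoped BigOperators

namespace Vale.Agent.P157.Parisi.Full

open Site (IsTrig cut coshPart gapBound)

/-! ### Sine sums -/

lemma IsSinTrig.sin_mul (s : ℝ) {φ : ℝ → ℝ} (h : IsTrig φ) :
    IsSinTrig fun y => Real.sin (s * y) * φ y := by
  obtain ⟨L, c, t, h⟩ := h
  refine ⟨L + L, Fin.append (fun i => c i / 2) (fun i => c i / 2),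
    Fin.append (fun i => s + t i) (fun i => s - t i), fun y => ?_⟩
  show Real.sin (s * y) * φ y = _
  simp only [Fin.sum_univ_add, Fin.append_left, Fin.append_right, h, Finset.mul_sum,
    ← Finset.sum_add_distrib, add_mul, sub_mul, Real.sin_add, Real.sin_sub]
  exact Finset.sum_congr rfl fun i _ => by ring

lemma isSinTrig_sinCut (K : ℕ) : IsSinTrig (sinCut K) := by
  have hs : IsTrig fun y => ∑ j ∈ Finset.range K,
      (K : ℝ) ^ (2 * j + 1) / (((2 * j + 1).factorial : ℕ) : ℝ) *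
        ((-1 / 2) * Real.cos (2 / (K : ℝ) * y) + 1 / 2) ^ j :=
    IsTrig.sum _ fun j _ =>
      (((((IsTrig.cos (2 / (K : ℝ))).const_mul (-1 / 2)).add (IsTrig.const (1 / 2))).pow j).const_mul _)
  refine (congrArg IsSinTrig (funext fun y => ?_)).mp (IsSinTrig.sin_mul (1 / (K : ℝ)) hs)
  simp only [sinCut, sinhPart, Finset.mul_sum]
  refine Finset.sum_congr rfl fun j _ => ?_
  have e : (-1 / 2) * Real.cos (2 / (K : ℝ) * y) + 1 / 2 = Real.sin (y / K) ^ 2 := by
    rw [show 2 / (K : ℝ) * y = 2 * (y / K) by ring, Real.cos_two_mul]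
    linarith [Real.sin_sq_add_cos_sq (y / K)]
  rw [e, show 1 / (K : ℝ) * y = y / K by ring, mul_pow]
  ring

/-! ### The truncated series -/

/-- A term of the series of `cosh`. -/
def cTerm (u : ℝ) (j : ℕ) : ℝ := u ^ (2 * j) / (((2 * j).factorial : ℕ) : ℝ)

/-- A term of the series of `sinh`. -/
def sTerm (u : ℝ) (j : ℕ) : ℝ := u ^ (2 * j + 1) / (((2 * j + 1).factorial : ℕ) : ℝ)

lemma cTerm_nonneg (u : ℝ) (j : ℕ) : 0 ≤ cTerm u j := by
  rw [cTerm, pow_mul]; positivity

lemma sTerm_le {u : ℝ} (hu : 0 ≤ u) (j : ℕ) : sTerm u j ≤ cTerm u j + cTerm u (j + 1) := by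
  have hf : (0 : ℝ) < ((2 * j).factorial : ℕ) := by exact_mod_cast Nat.factorial_pos _
  have h1 : (((2 * j + 1).factorial : ℕ) : ℝ) = (2 * j + 1) * ((2 * j).factorial : ℕ) := by
    rw [Nat.factorial_succ]; push_cast; ring
  have h2 : (((2 * (j + 1)).factorial : ℕ) : ℝ) =
      (2 * j + 2) * ((2 * j + 1) * ((2 * j).factorial : ℕ)) := by
    rw [show 2 * (j + 1) = 2 * j + 1 + 1 by ring, Nat.factorial_succ, Nat.cast_mul, h1]
    push_cast; ring
  have key : u ≤ (2 * j + 1) + u ^ 2 / (2 * j + 2) := by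
    rw [← sub_nonneg, show (2 * (j:ℝ) + 1) + u ^ 2 / (2 * j + 2) - u =
      ((2 * j + 1) * (2 * j + 2) + u ^ 2 - u * (2 * j + 2)) / (2 * j + 2) by field_simp]
    exact div_nonneg (by nlinarith [sq_nonneg (u - (j + 1)), Nat.cast_nonneg (α := ℝ) j])
      (by positivity)
  have key2 := mul_le_mul_of_nonneg_left key (pow_nonneg hu (2 * j))
  rw [sTerm, cTerm, cTerm, h1, h2, show 2 * (j + 1) = 2 * j + 2 by ring, pow_succ, pow_add]
  have e : u ^ (2 * j) / ((2 * j).factorial : ℕ) +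
      u ^ (2 * j) * u ^ 2 / ((2 * j + 2) * ((2 * j + 1) * ((2 * j).factorial : ℕ))) =
      u ^ (2 * j) * ((2 * j + 1) + u ^ 2 / (2 * j + 2)) / ((2 * j + 1) * ((2 * j).factorial : ℕ)) := by
    field_simp
  rw [e]
  exact div_le_div_of_nonneg_right key2 (by positivity)

lemma sum_sTerm_add_le {u : ℝ} (hu : 0 ≤ u) : ∀ J : ℕ,
    (∑ j ∈ range J, sTerm u j) + cTerm u J ≤ 2 * ∑ j ∈ range (J + 1), cTerm u j
  | 0 => by simp only [range_zero, sum_empty, zero_add, sum_range_one]
            linarith [cTerm_nonneg u 0]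
  | J + 1 => by
    have := sum_sTerm_add_le hu J
    have := sTerm_le hu J
    rw [sum_range_succ, sum_range_succ (n := J + 1)]
    linarith

lemma sinhPart_neg (K : ℕ) (u : ℝ) : sinhPart K (-u) = -sinhPart K u := by
  simp only [sinhPart, ← Finset.sum_neg_distrib]
  refine Finset.sum_congr rfl fun j _ => ?_
  rw [Odd.neg_pow ⟨j, by ring⟩]; ring

lemma sinhPart_nonneg (K : ℕ) {u : ℝ} (hu : 0 ≤ u) : 0 ≤ sinhPart K u :=
  Finset.sum_nonneg fun j _ => by positivity

lemma sinhPart_le_sinh (K : ℕ) {u : ℝ} (hu : 0 ≤ u) : sinhPart K u ≤ Real.sinh u :=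
  sum_le_hasSum _ (fun j _ => by positivity) (Real.hasSum_sinh u)

lemma abs_sinhPart (K : ℕ) (u : ℝ) : |sinhPart K u| = sinhPart K |u| := by
  rcases le_total 0 u with h | h
  · rw [abs_of_nonneg h, abs_of_nonneg (sinhPart_nonneg K h)]
  · rw [abs_of_nonpos h, sinhPart_neg,
      abs_of_nonpos (by simpa [sinhPart_neg] using sinhPart_nonneg K (neg_nonneg.2 h))]

lemma continuous_sinCut (K : ℕ) : Continuous (sinCut K) := by
  unfold sinCut sinhPart; fun_prop

lemma sinCut_neg (K : ℕ) (y : ℝ) : sinCut K (-y) = -sinCut K y := by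
  simp only [sinCut, neg_div, Real.sin_neg, mul_neg, sinhPart_neg]

lemma abs_scaledSin_le_K (K : ℕ) (y : ℝ) : |(K : ℝ) * Real.sin (y / K)| ≤ K := by
  rw [abs_mul, Nat.abs_cast]
  exact mul_le_of_le_one_right (Nat.cast_nonneg K) (Real.abs_sin_le_one _)

/-- The truncation of `sinh` is dominated by twice the truncation of `cosh`. -/
lemma abs_sinCut_le {K : ℕ} (hK : 0 < K) (y : ℝ) : |sinCut K y| ≤ 2 * cut K y := by
  obtain ⟨J, rfl⟩ : ∃ J, K = J + 1 := ⟨K - 1, by omega⟩
  have hu' := abs_scaledSin_le_K (J + 1) y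
  set v := ((J + 1 : ℕ) : ℝ) * Real.sin (y / (J + 1 : ℕ)) with hv
  have hc : cut (J + 1) y = ∑ j ∈ range (J + 1), cTerm |v| j := by
    simp only [cut, coshPart, cTerm, pow_mul, sq_abs, ← hv]
  have hs : |sinCut (J + 1) y| = ∑ j ∈ range (J + 1), sTerm |v| j := by
    rw [sinCut, ← hv, abs_sinhPart]; rfl
  have h0 : sTerm |v| J ≤ cTerm |v| J := by
    have hf : (0 : ℝ) < ((2 * J).factorial : ℕ) := by exact_mod_cast Nat.factorial_pos _
    rw [sTerm, cTerm, Nat.factorial_succ, pow_succ, div_le_div_iff₀ (by positivity) hf]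
    push_cast at hu' ⊢
    nlinarith [mul_le_mul_of_nonneg_left
      (show |v| ≤ 2 * J + 1 by linarith [Nat.cast_nonneg (α := ℝ) J])
      (mul_nonneg (pow_nonneg (abs_nonneg v) (2 * J)) hf.le)]
  rw [hc, hs, sum_range_succ]
  have := sum_sTerm_add_le (abs_nonneg v) J
  linarith

lemma abs_sinCut_le_cosh {K : ℕ} {y R : ℝ} (h : |y| ≤ R) : |sinCut K y| ≤ Real.cosh R := by
  rw [sinCut, abs_sinhPart]
  refine (sinhPart_le_sinh K (abs_nonneg _)).trans ((Real.sinh_lt_cosh _).le.trans ?_)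
  rw [Real.cosh_abs]
  refine Real.cosh_le_cosh.2 ((Site.abs_scaledSin_le K y).trans ?_)
  rwa [abs_of_nonneg ((abs_nonneg y).trans h)]

lemma sinh_tail_le (K : ℕ) {u : ℝ} (hu : 0 ≤ u) :
    Real.sinh u - sinhPart K u ≤ 2 * (Real.cosh u - coshPart K u) := by
  have hs : HasSum (fun j => sTerm u (j + K)) (Real.sinh u - sinhPart K u) :=
    (hasSum_nat_add_iff' K).2 (Real.hasSum_sinh u)
  have h := hasSum_le (fun j => ?_) hs
    ((Site.hasSum_cosh_tail K u).add (Site.hasSum_cosh_tail (K + 1) u))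
  · have : coshPart K u ≤ coshPart (K + 1) u := by
      simp only [coshPart, sum_range_succ]
      exact le_add_of_nonneg_right (cTerm_nonneg u K)
    linarith
  · exact (sTerm_le hu (j + K)).trans (le_of_eq (by rw [add_assoc j K 1]; rfl))

/-- The gap of the truncation of `sinh`. -/
lemma sinh_sub_sinCut_le {K : ℕ} (hK : 0 < K) {y R : ℝ} (h : |y| ≤ R) :
    |Real.sinh y - sinCut K y| ≤ 2 * gapBound K R := by
  have hR : 0 ≤ R := (abs_nonneg y).trans h
  have hcr : |Real.sinh y| ≤ Real.cosh R := by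
    rw [Real.abs_sinh]
    refine (Real.sinh_lt_cosh _).le.trans (Real.cosh_le_cosh.2 ?_)
    rwa [abs_abs, abs_of_nonneg hR]
  have hcrude : |Real.sinh y - sinCut K y| ≤ 2 * Real.cosh R :=
    (abs_sub _ _).trans (by linarith [abs_sinCut_le_cosh (K := K) h])
  unfold Site.gapBound
  split_ifs with hRK
  · rw [mul_min_of_nonneg _ _ (by norm_num : (0:ℝ) ≤ 2)]
    refine le_min hcrude ?_
    suffices hpos : ∀ y, 0 ≤ y → y ≤ R → |Real.sinh y - sinCut K y| ≤
        2 * (Real.cosh R * (Real.exp (R ^ 3 / (4 * (K : ℝ) ^ 2)) - 1) +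
          (Real.cosh R - coshPart K R)) by
      rcases le_total 0 y with hy | hy
      · exact hpos y hy ((le_abs_self y).trans h)
      · have := hpos (-y) (neg_nonneg.2 hy) ((neg_le_abs y).trans h)
        rwa [Real.sinh_neg, sinCut_neg, ← neg_sub_neg, neg_neg, neg_neg, abs_sub_comm] at this
    intro y hy hyR
    have hKr : (0 : ℝ) < K := by exact_mod_cast hK
    set u := (K : ℝ) * Real.sin (y / K) with hu
    have hu0 : 0 ≤ u := mul_nonneg hKr.le (Real.sin_nonneg_of_nonneg_of_le_pi (by positivity)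
      (((div_le_one hKr).2 (hyR.trans hRK)).trans (by linarith [Real.two_le_pi])))
    have huy : u ≤ y := by
      have := Site.abs_scaledSin_le K y
      rwa [← hu, abs_of_nonneg hu0, abs_of_nonneg hy] at this
    have hd : y - u ≤ R ^ 3 / (4 * (K : ℝ) ^ 2) := by
      have := Site.abs_sub_cube_le (K := K) (y := y) (by rw [abs_of_nonneg hy]; linarith)
      rw [← hu, abs_of_nonneg hu0, abs_of_nonneg hy] at this
      have : y ^ 3 / (4 * (K : ℝ) ^ 2) ≤ R ^ 3 / (4 * (K : ℝ) ^ 2) := by gcongr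
      linarith
    have h1 : Real.sinh y - Real.sinh u ≤
        Real.cosh R * (Real.exp (R ^ 3 / (4 * (K : ℝ) ^ 2)) - 1) := by
      have e : Real.sinh y - Real.sinh u =
          (Real.exp (y - u) - 1) * ((Real.exp u + Real.exp (-y)) / 2) := by
        have e1 : Real.exp (y - u) * Real.exp u = Real.exp y := by rw [← Real.exp_add]; ring_nf
        have e2 : Real.exp (y - u) * Real.exp (-y) = Real.exp (-u) := by rw [← Real.exp_add]; ring_nf
        rw [Real.sinh_eq, Real.sinh_eq, sub_one_mul, ← mul_div_assoc, mul_add, e1, e2]; ring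
      rw [e, mul_comm (Real.cosh R)]
      refine mul_le_mul (by linarith [Real.exp_le_exp.2 hd]) ?_ (by positivity)
        (by linarith [Real.one_le_exp (le_trans (sub_nonneg.2 huy) hd)])
      refine le_trans ?_ (Real.cosh_le_cosh.2
        (abs_le_abs (huy.trans hyR) ((neg_nonpos.2 hu0).trans hR)))
      rw [Real.cosh_eq]
      linarith [Real.exp_le_exp.2 (neg_le_neg huy)]
    have h2 : Real.sinh u - sinhPart K u ≤ 2 * (Real.cosh R - coshPart K R) :=
      (sinh_tail_le K hu0).trans (mul_le_mul_of_nonneg_left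
        (Site.tail_mono K (by rw [abs_of_nonneg hu0, abs_of_nonneg hR]; exact huy.trans hyR))
        (by norm_num))
    have h3 : 0 ≤ Real.sinh u - sinhPart K u := sub_nonneg.2 (sinhPart_le_sinh K hu0)
    have h4 : 0 ≤ Real.sinh y - Real.sinh u := sub_nonneg.2 (Real.sinh_le_sinh.2 huy)
    have e : Real.sinh y - sinCut K y = (Real.sinh y - Real.sinh u) + (Real.sinh u - sinhPart K u) := by
      rw [sinCut, ← hu]; ring
    rw [e, abs_of_nonneg (by linarith)]
    have : 0 ≤ Real.cosh R * (Real.exp (R ^ 3 / (4 * (K : ℝ) ^ 2)) - 1) :=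
      mul_nonneg (Real.cosh_pos R).le (sub_nonneg.2 (Real.one_le_exp (by positivity)))
    linarith
  · exact hcrude

/-! ### Normalised pair averages -/

variable {ι : Type*} [Fintype ι]

/-- The normalised average of `R i j * n i * n j`. -/
def pairQ (w : ι → ℝ) (R : ι → ι → ℝ) (n a : ι → ℝ) : ℝ :=
  (∑ i, ∑ j, w i * w j * (R i j * (n i * n j))) / (∑ i, w i * a i) ^ 2

lemma pairQ_smul (w : ι → ℝ) (R : ι → ι → ℝ) (n a : ι → ℝ) {c : ℝ} (hc : c ≠ 0) :
    pairQ w R (fun i => n i * c) (fun i => a i * c) = pairQ w R n a := by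
  unfold pairQ
  rw [show ∑ i, w i * (a i * c) = (∑ i, w i * a i) * c by
      rw [Finset.sum_mul]; exact Finset.sum_congr rfl fun i _ => by ring,
    show ∑ i, ∑ j, w i * w j * (R i j * (n i * c * (n j * c))) =
      (∑ i, ∑ j, w i * w j * (R i j * (n i * n j))) * c ^ 2 by
      simp only [Finset.sum_mul]
      exact Finset.sum_congr rfl fun i _ => Finset.sum_congr rfl fun j _ => by ring,
    mul_pow, mul_div_mul_right _ _ (pow_ne_zero 2 hc)]

lemma abs_bilin_le {R : ι → ι → ℝ} (hR : ∀ i j, |R i j| ≤ 1) (x y : ι → ℝ) :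
    |∑ i, ∑ j, R i j * (x i * y j)| ≤ (∑ i, |x i|) * ∑ j, |y j| := by
  rw [Finset.sum_mul_sum]
  refine (Finset.abs_sum_le_sum_abs _ _).trans (Finset.sum_le_sum fun i _ =>
    (Finset.abs_sum_le_sum_abs _ _).trans (Finset.sum_le_sum fun j _ => ?_))
  rw [abs_mul, abs_mul]
  exact mul_le_of_le_one_left (by positivity) (hR i j)

lemma abs_pairQ_le {w : ι → ℝ} (hw : ∀ i, 0 ≤ w i) {R : ι → ι → ℝ} (hR : ∀ i j, |R i j| ≤ 1)
    {n a : ι → ℝ} (hn : ∀ i, |n i| ≤ 2 * a i) : |pairQ w R n a| ≤ 4 := by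
  unfold pairQ
  rw [abs_div, abs_pow, sq_abs]
  have hS : 0 ≤ ∑ i, w i * a i :=
    Finset.sum_nonneg fun i _ => mul_nonneg (hw i) (by linarith [(abs_nonneg _).trans (hn i)])
  have h1 : ∑ i, |w i * n i| ≤ 2 * ∑ i, w i * a i := by
    rw [Finset.mul_sum]
    refine Finset.sum_le_sum fun i _ => ?_
    rw [abs_mul, abs_of_nonneg (hw i)]
    exact (mul_le_mul_of_nonneg_left (hn i) (hw i)).trans_eq (by ring)
  have h2 : |∑ i, ∑ j, w i * w j * (R i j * (n i * n j))| ≤ 4 * (∑ i, w i * a i) ^ 2 := by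
    have e : ∑ i, ∑ j, w i * w j * (R i j * (n i * n j)) =
        ∑ i, ∑ j, R i j * ((w i * n i) * (w j * n j)) :=
      Finset.sum_congr rfl fun i _ => Finset.sum_congr rfl fun j _ => by ring
    rw [e]
    refine (abs_bilin_le hR _ _).trans ?_
    calc (∑ i, |w i * n i|) * ∑ j, |w j * n j|
        ≤ (2 * ∑ i, w i * a i) * (2 * ∑ i, w i * a i) :=
          mul_le_mul h1 h1 (Finset.sum_nonneg fun i _ => abs_nonneg _) (by linarith)
      _ = _ := by ring
  rcases hS.eq_or_lt with h0 | h0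
  · rw [← h0]; norm_num
  · rw [div_le_iff₀ (by positivity)]; exact h2

/-- Two normalised pair averages differ by at most the plain differences of their data. -/
lemma abs_pairQ_sub_le {w : ι → ℝ} (hw : ∀ i, 0 ≤ w i) {R : ι → ι → ℝ} (hR : ∀ i j, |R i j| ≤ 1)
    {n a n' a' : ι → ℝ} (hn : ∀ i, |n i| ≤ 2 * a i) (hn' : ∀ i, |n' i| ≤ 2 * a' i)
    (hS : 0 < ∑ i, w i * a i) (hS' : 0 < ∑ i, w i * a' i) :
    |pairQ w R n a - pairQ w R n' a'| ≤
      8 * (∑ i, w i * (|n i - n' i| + |a i - a' i|)) / ∑ i, w i * a' i := by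
  set S := ∑ i, w i * a i with hSd
  set S' := ∑ i, w i * a' i with hSd'
  set x : ι → ℝ := fun i => w i * n i / S with hx
  set y : ι → ℝ := fun i => w i * n' i / S' with hy
  have hQ : ∀ (m : ι → ℝ) (T : ℝ), (∑ i, ∑ j, w i * w j * (R i j * (m i * m j))) / T ^ 2 =
      ∑ i, ∑ j, R i j * ((w i * m i / T) * (w j * m j / T)) := fun m T => by
    simp only [Finset.sum_div]
    exact Finset.sum_congr rfl fun i _ => Finset.sum_congr rfl fun j _ => by ring
  have e : pairQ w R n a - pairQ w R n' a' =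
      (∑ i, ∑ j, R i j * ((x i - y i) * x j)) + ∑ i, ∑ j, R i j * (y i * (x j - y j)) := by
    rw [pairQ, pairQ, ← hSd, ← hSd', hQ, hQ, ← Finset.sum_add_distrib, ← Finset.sum_sub_distrib]
    refine Finset.sum_congr rfl fun i _ => ?_
    rw [← Finset.sum_add_distrib, ← Finset.sum_sub_distrib]
    exact Finset.sum_congr rfl fun j _ => by simp only [x, y]; ring
  have hnorm : ∀ {m b : ι → ℝ}, (∀ i, |m i| ≤ 2 * b i) → 0 < ∑ i, w i * b i →
      ∑ i, |w i * m i / ∑ i, w i * b i| ≤ 2 := fun {m b} hm hb => by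
    simp only [abs_div, abs_of_pos hb, ← Finset.sum_div]
    rw [div_le_iff₀ hb, Finset.mul_sum]
    refine Finset.sum_le_sum fun i _ => ?_
    rw [abs_mul, abs_of_nonneg (hw i)]
    exact (mul_le_mul_of_nonneg_left (hm i) (hw i)).trans_eq (by ring)
  set E := ∑ i, w i * (|n i - n' i| + |a i - a' i|)
  have hd : ∑ i, |x i - y i| ≤ 2 * E / S' := by
    have e1 : ∀ i, x i - y i = (w i * (n i - n' i) + x i * (S' - S)) / S' := fun i => by
      simp only [x, y]; field_simp; ring
    simp only [e1, abs_div, abs_of_pos hS', ← Finset.sum_div]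
    refine div_le_div_of_nonneg_right ?_ hS'.le
    refine (Finset.sum_le_sum fun i _ => abs_add_le _ _).trans ?_
    have h1 : |S' - S| ≤ ∑ i, w i * |a i - a' i| := by
      rw [hSd, hSd', ← Finset.sum_sub_distrib]
      refine (Finset.abs_sum_le_sum_abs _ _).trans_eq (Finset.sum_congr rfl fun i _ => ?_)
      rw [← mul_sub, abs_mul, abs_of_nonneg (hw i), abs_sub_comm]
    rw [Finset.sum_add_distrib]
    have h2 : ∑ i, |x i * (S' - S)| ≤ 2 * ∑ i, w i * |a i - a' i| := by
      simp only [abs_mul, ← Finset.sum_mul]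
      exact mul_le_mul (hnorm hn hS) h1 (abs_nonneg _) (by norm_num)
    have h3 : ∑ i, |w i * (n i - n' i)| = ∑ i, w i * |n i - n' i| :=
      Finset.sum_congr rfl fun i _ => by rw [abs_mul, abs_of_nonneg (hw i)]
    have h4 : E = ∑ i, w i * |n i - n' i| + ∑ i, w i * |a i - a' i| := by
      simp only [E, mul_add, Finset.sum_add_distrib]
    have h5 : 0 ≤ ∑ i, w i * |n i - n' i| :=
      Finset.sum_nonneg fun i _ => mul_nonneg (hw i) (abs_nonneg _)
    linarith
  rw [e]
  refine (abs_add_le _ _).trans ((add_le_add (abs_bilin_le hR _ _) (abs_bilin_le hR _ _)).trans ?_)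
  calc (∑ i, |x i - y i|) * (∑ j, |x j|) + (∑ i, |y i|) * ∑ j, |x j - y j|
      ≤ 2 * E / S' * 2 + 2 * (2 * E / S') := by
        refine add_le_add ?_ ?_
        · exact mul_le_mul hd (hnorm hn hS) (Finset.sum_nonneg fun i _ => abs_nonneg _)
            ((Finset.sum_nonneg fun i _ => abs_nonneg _).trans hd)
        · exact mul_le_mul (hnorm hn' hS') hd (Finset.sum_nonneg fun i _ => abs_nonneg _)
            (by norm_num)
    _ = _ := by ring

end Vale.Agent.P157.Parisi.Full
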