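import Vale.Agent.P157.RSPattern
import Vale.Agent.P157.Parisi.Site.Casc
import Vale.Agent.P157.Parisi.Site.LowerBound
import Vale.Agent.P157.Parisi.Upper.Nodes

/-!
Laws of Gaussian linear forms, and exponential moments of Poisson counts.
-/

noncomputable section

open MeasureTheory ProbabilityTheory Filter
open scoped BigOperators NNReal

namespace Vale.Agent.P157.Parisi.Full

open Site (zLaw spread)

/-- A function of a linear form of independent standard Gaussians. -/
lemma integral_form {ι : Type*} [Fintype ι] (u : ι → ℝ) {h : ℝ → ℝ} (hm : Measurable h) (x : ℝ) :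
    ∫ g, h (x + dot g u) ∂gam ι = spread (∑ i, u i ^ 2) h x := by
  set v := ∑ i, u i ^ 2 with hv
  rcases (show 0 ≤ v from Finset.sum_nonneg fun i _ => sq_nonneg _).eq_or_lt with h0 | h0
  · have hu : ∀ i, u i = 0 := fun i => pow_eq_zero_iff two_ne_zero |>.1
      ((Finset.sum_eq_zero_iff_of_nonneg fun i _ => sq_nonneg _).1 h0.symm i (Finset.mem_univ i))
    simp [← h0, spread, dot, hu]
  · set c := Real.sqrt v
    have hc : c ≠ 0 := (Real.sqrt_pos.2 h0).ne'
    have hu : ∑ i, (u i / c) ^ 2 = 1 := by
      simp only [div_pow, ← Finset.sum_div, c, Real.sq_sqrt h0.le]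
      exact div_self h0.ne'
    have e : ∀ g, dot g u = c * dot g (fun i => u i / c) := fun g => by
      simp only [dot, Finset.mul_sum]
      exact Finset.sum_congr rfl fun i _ => by field_simp
    have hd : Measurable fun g : ι → ℝ => dot g (fun i => u i / c) := by unfold dot; fun_prop
    simp only [e]
    have hh : Measurable fun z : ℝ => h (x + c * z) :=
      hm.comp ((measurable_id.const_mul c).const_add x)
    rw [spread, show gaussianReal 0 1 = gam1 from rfl, ← map_dot_unit hu,
      integral_map hd.aemeasurable hh.aestronglyMeasurable]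

/-- A function of a linear form of the first `n` cavity coefficients. -/
lemma integral_form_zLaw (n : ℕ) (u : ℕ → ℝ) {h : ℝ → ℝ} (hm : Measurable h) :
    ∫ z, h (∑ a ∈ Finset.range n, z a * u a) ∂zLaw =
      spread (∑ a ∈ Finset.range n, u a ^ 2) h 0 := by
  have hmp := Vale.Agent.P168.Limit.Cavity.measurePreserving_marginal (gaussianReal 0 1)
    (fun i : Fin n => (i : ℕ)) Fin.val_injective
  have hd : Measurable fun g : Fin n → ℝ => h (0 + dot g fun i => u i) := by unfold dot; fun_prop
  have e := integral_form (fun i : Fin n => u i) hm 0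
  rw [gam, ← hmp.map_eq, integral_map hmp.measurable.aemeasurable hd.aestronglyMeasurable] at e
  simpa only [dot, Finset.sum_range, zero_add] using e

/-- The field of a cascade leaf, averaged over all its marks. -/
lemma integral_pathField {r : ℕ} {ρ : Fin (r + 1) → ℝ} (hρ : Monotone ρ) (h0 : 0 ≤ ρ 0)
    {h : ℝ → ℝ} (hm : Measurable h) {B : ℝ} (hb : ∀ x, |h x| ≤ B * Real.exp |x|) :
    Integrable (fun e => ∫ η, h (pathField ρ e η) ∂(Measure.pi fun _ : Fin r => gaussianReal 0 1))
        (gaussianReal 0 1) ∧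
      ∫ e, ∫ η, h (pathField ρ e η) ∂(Measure.pi fun _ : Fin r => gaussianReal 0 1)
          ∂gaussianReal 0 1 = spread (ρ (Fin.last r)) h 0 := by
  have hs : ∑ p : Fin r, Real.sqrt (ρ p.succ - ρ p.castSucc) ^ 2 = ρ (Fin.last r) - ρ 0 := by
    have := Up.sum_inc ρ
    simp only [Up.inc] at this
    rw [Finset.sum_congr rfl fun p _ => Real.sq_sqrt (sub_nonneg.2 (hρ (Fin.castSucc_le_succ p)))]
    linarith
  have e1 : ∀ e, ∫ η, h (pathField ρ e η) ∂(Measure.pi fun _ : Fin r => gaussianReal 0 1) =
      spread (ρ (Fin.last r) - ρ 0) h (0 + Real.sqrt (ρ 0) * e) := fun e => by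
    have e2 : ∀ η : Fin r → ℝ, pathField ρ e η = (0 + Real.sqrt (ρ 0) * e) +
        dot η fun p => Real.sqrt (ρ p.succ - ρ p.castSucc) := fun η => by
      simp only [pathField, dot, zero_add, mul_comm]
    simp only [e2]
    rw [← hs]
    exact integral_form _ hm _
  simp only [e1]
  have := Site.spread_spread hm hb h0 (sub_nonneg.2 (hρ (Fin.zero_le (Fin.last r)))) 0
  rwa [add_sub_cancel] at this

/-- The exponential moment of a Poisson count. -/
lemma integral_exp_count (r : ℝ≥0) (t : ℝ) :
    Integrable (fun n : ℕ => Real.exp (t * n)) (poissonMeasure r) ∧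
      ∫ n : ℕ, Real.exp (t * n) ∂poissonMeasure r = Real.exp (r * (Real.exp t - 1)) := by
  have e : ∀ n : ℕ, Vale.Agent.P168.Toolkit.pw r n * Real.exp (t * n) =
      Real.exp (-r) * (((r : ℝ) * Real.exp t) ^ n / (n.factorial : ℝ)) := fun n => by
    rw [Vale.Agent.P168.Toolkit.pw, mul_comm t, Real.exp_nat_mul, mul_pow]; ring
  have hs : HasSum (fun n : ℕ => ((r : ℝ) * Real.exp t) ^ n / (n.factorial : ℝ))
      (Real.exp ((r : ℝ) * Real.exp t)) := by
    have h := NormedSpace.expSeries_div_hasSum_exp ((r : ℝ) * Real.exp t)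
    rwa [congrFun Real.exp_eq_exp_ℝ ((r : ℝ) * Real.exp t)]
  refine ⟨?_, ?_⟩
  · rw [Vale.Agent.P168.Toolkit.integrable_poisson_iff]
    simp only [abs_of_pos (Real.exp_pos _), e]
    exact hs.summable.mul_left _
  · rw [Vale.Agent.P168.Toolkit.integral_poisson_eq]
    simp only [e, (hs.mul_left (Real.exp (-r))).tsum_eq, ← Real.exp_add]
    ring_nf

end Vale.Agent.P157.Parisi.Full
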