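import Vale.Agent.P157.Full.CutBasics
import Vale.Agent.P157.Full.GaussForm
import Vale.Agent.P157.Parisi.Site.Main
import Vale.Agent.P157.Parisi.Cont.Main
import Vale.Agent.P157.Parisi.ModA.TreeShape
import Vale.Agent.P157.Parisi.ModA.TiltFactor

/-!
Module L2b: truncating the hyperbolic functions and dropping the cavity exponent.
-/

noncomputable section

open MeasureTheory ProbabilityTheory Filter Topology Finset
open scoped BigOperators NNReal

namespace Vale.Agent.P157.Parisi.Full

open Site (zLaw spread gib cut gapBound gapMean)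

variable {N L : ℕ} {f : ℝ → ℝ} {A T : ℝ}

/-- A pair of a function and its truncation. -/
structure CutFun (K : ℕ) (s ψ : ℝ → ℝ) : Prop where
  sc : Continuous s
  ψc : Continuous ψ
  dom : ∀ y, |s y| ≤ Real.cosh y
  dom' : ∀ y, |ψ y| ≤ 2 * cut K y
  gap : ∀ y R, |y| ≤ R → |s y - ψ y| ≤ 2 * gapBound K R

lemma cutFun_cosh {K : ℕ} (hK : 0 < K) : CutFun K Real.cosh (cut K) where
  sc := Real.continuous_cosh
  ψc := Site.continuous_cut K
  dom y := (abs_of_pos (Real.cosh_pos y)).le
  dom' y := by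
    have := Site.one_le_cut hK y
    rw [abs_of_nonneg (by linarith)]; linarith
  gap y R h := by
    rw [abs_of_nonneg (sub_nonneg.2 (Site.cut_le_cosh K y))]
    have := Site.gapBound_nonneg (K := K) ((abs_nonneg y).trans h)
    linarith [Site.cosh_sub_cut_le hK h]

lemma cutFun_sinh {K : ℕ} (hK : 0 < K) : CutFun K Real.sinh (sinCut K) where
  sc := Real.continuous_sinh
  ψc := continuous_sinCut K
  dom y := by
    rw [Real.abs_sinh, ← Real.cosh_abs]
    exact (Real.sinh_lt_cosh _).le
  dom' := abs_sinCut_le hK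
  gap y R h := sinh_sub_sinCut_le hK h

/-- The error of a truncation at one point. -/
def cutErr (K : ℕ) (s ψ : ℝ → ℝ) (y : ℝ) : ℝ :=
  |s y - ψ y| + |Real.cosh y - cut K y|

lemma cutErr_le {K : ℕ} (hK : 0 < K) {s ψ : ℝ → ℝ} (h : CutFun K s ψ) {y R : ℝ} (hy : |y| ≤ R) :
    0 ≤ cutErr K s ψ y ∧ cutErr K s ψ y ≤ 3 * gapBound K R := by
  refine ⟨add_nonneg (abs_nonneg _) (abs_nonneg _), ?_⟩
  rw [cutErr, abs_of_nonneg (sub_nonneg.2 (Site.cut_le_cosh K y))]
  linarith [h.gap y R hy, Site.cosh_sub_cut_le hK hy]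

lemma cutErr_le_cosh {K : ℕ} (hK : 0 < K) {s ψ : ℝ → ℝ} (h : CutFun K s ψ) (y : ℝ) :
    cutErr K s ψ y ≤ 3 * Real.cosh y := by
  have := (cutErr_le hK h (y := y) le_rfl).2
  have := Site.gapBound_le_cosh K |y|
  rw [Real.cosh_abs] at this
  linarith

lemma integrable_cutErr {K : ℕ} (hK : 0 < K) {s ψ : ℝ → ℝ} (h : CutFun K s ψ) (c x : ℝ) :
    Integrable (fun g => cutErr K s ψ (x + c * g)) (gaussianReal 0 1) := by
  have hm : Continuous (cutErr K s ψ) :=
    ((h.sc.sub h.ψc).abs).add (Real.continuous_cosh.sub (Site.continuous_cut K)).abs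
  refine ((Site.integrable_cosh_mul c x).const_mul 3).mono'
    (hm.comp (by fun_prop)).aestronglyMeasurable (ae_of_all _ fun g => ?_)
  rw [Real.norm_eq_abs, abs_of_nonneg (cutErr_le hK h le_rfl).1]
  exact cutErr_le_cosh hK h _

lemma spread_cutErr_le {K : ℕ} (hK : 0 < K) {s ψ : ℝ → ℝ} (h : CutFun K s ψ) {v V : ℝ}
    (hv : 0 ≤ v) :
    spread v (cutErr K s ψ) 0 ≤ 3 * Real.exp (v / 2) ∧
      (v ≤ V → spread v (cutErr K s ψ) 0 ≤ 3 * gapMean V K) := by
  refine ⟨?_, fun hV => ?_⟩
  · refine (integral_mono (integrable_cutErr hK h _ _) ((Site.integrable_cosh_mul _ _).const_mul 3)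
      fun g => cutErr_le_cosh hK h _).trans_eq ?_
    have := Site.spread_cosh hv 0
    rw [Real.cosh_zero, mul_one, spread] at this
    rw [integral_const_mul, this]
  · rw [spread, gapMean, ← integral_const_mul]
    refine integral_mono (integrable_cutErr hK h _ _) ((Site.integrable_gap V K).const_mul 3)
      fun g => (cutErr_le hK h ?_).2
    rw [zero_add, abs_mul, abs_of_nonneg (Real.sqrt_nonneg _)]
    exact mul_le_mul_of_nonneg_right (Real.sqrt_le_sqrt hV) (abs_nonneg g)

/-! ### One disorder -/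

/-- The variance of the cavity field. -/
def yVar (f : ℝ → ℝ) (d : Dis N L) (σ : Cube N) : ℝ :=
  ∑ a ∈ Finset.range d.1, (deriv f (dot (d.2.1 a) (unitVec σ)) / Real.sqrt N) ^ 2

lemma yVar_mem (hf : Smooth f A) (hN : 0 < N) (d : Dis N L) (σ : Cube N) :
    0 ≤ yVar f d σ ∧ yVar f d σ ≤ A ^ 2 * ((d.1 : ℝ) / N) := by
  refine ⟨Finset.sum_nonneg fun a _ => sq_nonneg _, ?_⟩
  refine (Finset.sum_le_sum (g := fun _ => A ^ 2 / N) fun a _ => ?_).trans_eq ?_
  · rw [div_pow, Real.sq_sqrt (Nat.cast_nonneg N), ← sq_abs (deriv f _)]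
    exact div_le_div_of_nonneg_right (pow_le_pow_left₀ (abs_nonneg _) (hf.b1 _) 2) (Nat.cast_nonneg N)
  · rw [Finset.sum_const, Finset.card_range, nsmul_eq_mul]; ring

lemma integral_cavY (d : Dis N L) (σ : Cube N) {h : ℝ → ℝ} (hm : Measurable h) :
    ∫ z, h (cavY f z d σ) ∂zLaw = spread (yVar f d σ) h 0 := by
  have e : ∀ z, cavY f z d σ =
      ∑ a ∈ Finset.range d.1, z a * (deriv f (dot (d.2.1 a) (unitVec σ)) / Real.sqrt N) := fun z => by
    rw [cavY, Finset.sum_div]
    exact Finset.sum_congr rfl fun a _ => mul_div_assoc _ _ _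
  simp only [e]
  exact integral_form_zLaw _ _ hm

lemma integrable_cavY_le (hf : Smooth f A) (hN : 0 < N) (d : Dis N L) (σ : Cube N) {h : ℝ → ℝ}
    (hm : Measurable h) {B : ℝ} (hb : ∀ y, |h y| ≤ B * Real.cosh y) :
    Integrable (fun z => h (cavY f z d σ)) zLaw := by
  have hY : Measurable fun z : ℕ → ℝ => cavY f z d σ :=
    (Site.measurable_cavY hf σ).comp (measurable_const.prodMk measurable_id)
  have hc : Integrable (fun z => Real.cosh (cavY f z d σ)) zLaw := by
    refine ⟨(Real.continuous_cosh.measurable.comp hY).aestronglyMeasurable, ?_⟩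
    have e : (fun z : ℕ → ℝ => cavY f z d σ) =
        (fun g : Fin d.1 → ℝ => (∑ i, g i * deriv f (dot (d.2.1 i) (unitVec σ))) / Real.sqrt N) ∘
          fun z i => z i.val := by
      funext z
      simp only [cavY, Function.comp_apply, Finset.sum_range]
    have hmp := Vale.Agent.P168.Limit.Cavity.measurePreserving_marginal (gaussianReal 0 1)
      (fun i : Fin d.1 => (i : ℕ)) Fin.val_injective
    have hi : Integrable (fun g : Fin d.1 → ℝ =>
        Real.cosh ((∑ i, g i * deriv f (dot (d.2.1 i) (unitVec σ))) / Real.sqrt N))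
        (Measure.pi fun _ => gaussianReal 0 1) := by
      refine (Integrable.fintype_prod (f := fun (i : Fin d.1) (x : ℝ) =>
        Real.exp (|deriv f (dot (d.2.1 i) (unitVec σ))| / Real.sqrt N * |x|))
        fun i => Site.integrable_exp_abs _).mono'
        (Real.continuous_cosh.comp (by fun_prop)).aestronglyMeasurable (ae_of_all _ fun g => ?_)
      rw [Real.norm_eq_abs, abs_of_pos (Real.cosh_pos _), ← Real.exp_sum]
      refine (Site.cosh_le_exp_abs _).trans (Real.exp_le_exp.2 ?_)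
      rw [abs_div, abs_of_nonneg (Real.sqrt_nonneg _)]
      refine (div_le_div_of_nonneg_right (Finset.abs_sum_le_sum_abs _ _) (Real.sqrt_nonneg _)).trans_eq ?_
      rw [Finset.sum_div]
      exact Finset.sum_congr rfl fun i _ => by rw [abs_mul]; ring
    have := (hmp.integrable_comp_of_integrable hi).hasFiniteIntegral
    simpa only [Function.comp_def, cavY, Finset.sum_range] using this
  refine (hc.const_mul B).mono' (hm.comp hY).aestronglyMeasurable (ae_of_all _ fun z => ?_)
  rw [Real.norm_eq_abs]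
  exact hb _

lemma abs_exp_sub_one_le (x : ℝ) : |Real.exp x - 1| ≤ |x| * Real.exp |x| := by
  have h1 := Real.add_one_le_exp x
  have h2 := Real.add_one_le_exp (-x)
  rcases le_total 0 x with h | h
  · rw [abs_of_nonneg h, abs_of_nonneg (by linarith)]
    have := mul_le_mul_of_nonneg_right h2 (Real.exp_pos x).le
    rw [← Real.exp_add, neg_add_cancel, Real.exp_zero] at this
    linarith
  · rw [abs_of_nonpos h, abs_of_nonpos (by linarith [Real.exp_le_one_iff.2 h])]
    nlinarith [Real.one_le_exp (neg_nonneg.2 h)]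

/-- Both averages in the form of `pairQ`. -/
lemma cav_eq_pairQ (s : ℝ) (x : Fin L → ℝ) (μ : ℝ) (k : ℕ) (φ ψ : ℝ → ℝ) :
    cavPair N f T s x μ k φ ψ = ∫ d, ∫ z, pairQ (gib (totalH f s x d))
      (fun σ τ => overlap σ τ ^ k) (fun σ => ψ (cavY f z d σ) * Real.exp (cavB f T d σ))
      (fun σ => φ (cavY f z d σ) * Real.exp (cavB f T d σ)) ∂zLaw ∂disLaw N L μ ∧
    cutPair N f s x μ k φ ψ = ∫ d, ∫ z, pairQ (gib (totalH f s x d))
      (fun σ τ => overlap σ τ ^ k) (fun σ => ψ (cavY f z d σ))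
      (fun σ => φ (cavY f z d σ)) ∂zLaw ∂disLaw N L μ :=
  ⟨rfl, rfl⟩

lemma measurable_pairQ (hf : Smooth f A) (s : ℝ) (x : Fin L → ℝ) (k : ℕ)
    {n a : Dis N L × (ℕ → ℝ) → Cube N → ℝ} (hn : ∀ σ, Measurable fun p => n p σ)
    (ha : ∀ σ, Measurable fun p => a p σ) :
    Measurable fun p : Dis N L × (ℕ → ℝ) =>
      pairQ (gib (totalH f s x p.1)) (fun σ τ => overlap σ τ ^ k) (n p) (a p) := by
  have hg : ∀ σ : Cube N, Measurable fun p : Dis N L × (ℕ → ℝ) => gib (totalH f s x p.1) σ :=
    fun σ => ((Site.measurable_totalH hf.continuous s x σ).comp measurable_fst).exp.div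
      (Finset.measurable_sum _ fun τ _ =>
        ((Site.measurable_totalH hf.continuous s x τ).comp measurable_fst).exp)
  unfold pairQ
  exact (Finset.measurable_sum _ fun σ _ => Finset.measurable_sum _ fun τ _ =>
    ((hg σ).mul (hg τ)).mul (((hn σ).mul (hn τ)).const_mul _)).div
      ((Finset.measurable_sum _ fun σ _ => (hg σ).mul (ha σ)).pow_const 2)

/-- The exponent in the error at one disorder. -/
def bExp (A T : ℝ) : ℝ := A ^ 2 / 2 + (A + T * A) / 2

/-- The pointwise error. -/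
lemma pointwise_le (s : ℝ) (x : Fin L → ℝ) (k : ℕ) {K : ℕ} (hK : 0 < K) {u ψ : ℝ → ℝ}
    (h : CutFun K u ψ) (κ : ℝ) (d : Dis N L) (z : ℕ → ℝ) :
    |pairQ (gib (totalH f s x d)) (fun σ τ => overlap σ τ ^ k)
        (fun σ => u (cavY f z d σ) * Real.exp (cavB f T d σ))
        (fun σ => Real.cosh (cavY f z d σ) * Real.exp (cavB f T d σ)) -
      pairQ (gib (totalH f s x d)) (fun σ τ => overlap σ τ ^ k)
        (fun σ => ψ (cavY f z d σ)) (fun σ => cut K (cavY f z d σ))| ≤
      ∑ σ, 8 * gib (totalH f s x d) σ * (cutErr K u ψ (cavY f z d σ) +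
        2 * |Real.exp (cavB f T d σ - κ) - 1| * Real.cosh (cavY f z d σ)) := by
  set w := gib (totalH f s x d)
  set R' : Cube N → Cube N → ℝ := fun σ τ => overlap σ τ ^ k
  have hR' : ∀ σ τ, |R' σ τ| ≤ 1 := fun σ τ => by
    simp only [R', abs_pow]
    exact pow_le_one₀ (abs_nonneg _) (Site.abs_overlap_le σ τ)
  have hw : ∀ σ, 0 ≤ w σ := Site.gib_nonneg _
  have hw1 : ∑ σ, w σ = 1 := Site.sum_gib _
  set e := fun σ => Real.exp (cavB f T d σ - κ)
  rw [← pairQ_smul w R' _ _ (Real.exp_pos (-κ)).ne']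
  have he : ∀ (v : ℝ) σ, v * Real.exp (cavB f T d σ) * Real.exp (-κ) = v * e σ := fun v σ => by
    rw [mul_assoc, ← Real.exp_add, ← sub_eq_add_neg]
  simp only [he]
  have hS : 0 < ∑ σ, w σ * (Real.cosh (cavY f z d σ) * e σ) := by
    obtain ⟨σ, -, hσ⟩ := Finset.exists_ne_zero_of_sum_ne_zero (hw1.symm ▸ one_ne_zero)
    exact Finset.sum_pos' (fun τ _ => mul_nonneg (hw τ)
      (mul_nonneg (Real.cosh_pos _).le (Real.exp_pos _).le)) ⟨σ, Finset.mem_univ σ,
        mul_pos (lt_of_le_of_ne (hw σ) (Ne.symm hσ)) (mul_pos (Real.cosh_pos _) (Real.exp_pos _))⟩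
  have hS' : 1 ≤ ∑ σ, w σ * cut K (cavY f z d σ) :=
    hw1.symm.le.trans (Finset.sum_le_sum fun σ _ =>
      le_mul_of_one_le_right (hw σ) (Site.one_le_cut hK _))
  refine (abs_pairQ_sub_le hw hR' (fun σ => ?_) (fun σ => h.dom' _) hS (by linarith)).trans ?_
  · rw [abs_mul, abs_of_pos (Real.exp_pos _), ← mul_assoc]
    refine mul_le_mul_of_nonneg_right ?_ (Real.exp_pos _).le
    linarith [h.dom (cavY f z d σ), Real.cosh_pos (cavY f z d σ)]
  refine (div_le_self (mul_nonneg (by norm_num) (Finset.sum_nonneg fun σ _ =>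
    mul_nonneg (hw σ) (by positivity))) hS').trans ?_
  rw [Finset.mul_sum]
  refine Finset.sum_le_sum fun σ _ => ?_
  rw [← mul_assoc]
  refine mul_le_mul_of_nonneg_left ?_ (mul_nonneg (by norm_num) (hw σ))
  set Y := cavY f z d σ
  have h1 : |u Y * e σ - ψ Y| ≤ |u Y - ψ Y| + |e σ - 1| * Real.cosh Y := by
    rw [show u Y * e σ - ψ Y = (u Y - ψ Y) + u Y * (e σ - 1) by ring]
    refine (abs_add_le _ _).trans (add_le_add le_rfl ?_)
    rw [abs_mul, mul_comm]
    exact mul_le_mul_of_nonneg_left (h.dom _) (abs_nonneg _)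
  have h2 : |Real.cosh Y * e σ - cut K Y| ≤ |Real.cosh Y - cut K Y| + |e σ - 1| * Real.cosh Y := by
    rw [show Real.cosh Y * e σ - cut K Y = (Real.cosh Y - cut K Y) + Real.cosh Y * (e σ - 1) by ring]
    refine (abs_add_le _ _).trans (add_le_add le_rfl ?_)
    rw [abs_mul, abs_of_pos (Real.cosh_pos _), mul_comm]
  simp only [cutErr]
  linarith

/-- The error at one configuration, averaged over the cavity coefficients. -/
lemma config_le (hf : Smooth f A) (hT : 0 ≤ T) (hN : 0 < N) {K : ℕ} (hK : 0 < K) {u ψ : ℝ → ℝ}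
    (h : CutFun K u ψ) (κ R : ℝ) (hR : 0 ≤ R) (d : Dis N L) (σ : Cube N) :
    spread (yVar f d σ) (cutErr K u ψ) 0 +
      2 * |Real.exp (cavB f T d σ - κ) - 1| * spread (yVar f d σ) Real.cosh 0 ≤
      3 * gapMean (A ^ 2 * R) K + Real.exp (-R) * ((3 + 2 * (1 + |κ|) * Real.exp |κ|) *
        Real.exp ((bExp A T + (A + T * A) / 2 + 1) * ((d.1 : ℝ) / N))) +
        2 * Real.exp |κ| * Real.exp (bExp A T * R) * |cavB f T d σ - κ| := by
  set X := (d.1 : ℝ) / N with hX
  have hX0 : 0 ≤ X := by positivity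
  have hA0 : 0 ≤ A := (abs_nonneg _).trans (hf.b0 0)
  have hc0 : 0 ≤ (A + T * A) / 2 := by have := mul_nonneg hT hA0; linarith
  have hb0 : 0 ≤ bExp A T := by unfold bExp; positivity
  set e := fun σ => Real.exp (cavB f T d σ - κ)
  obtain ⟨hv0, hv⟩ := yVar_mem hf hN d σ
  obtain ⟨hcr, hgap⟩ := spread_cutErr_le hK h (V := A ^ 2 * R) hv0
  have hc : spread (yVar f d σ) Real.cosh 0 = Real.exp (yVar f d σ / 2) := by
    rw [Site.spread_cosh hv0, Real.cosh_zero, mul_one]
  have hB' : |cavB f T d σ| ≤ (A + T * A) / 2 * X := by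
    rw [cavB, abs_div, abs_of_nonneg (show (0 : ℝ) ≤ 2 * N by positivity), hX]
    have hN' : (0 : ℝ) < N := by exact_mod_cast hN
    rw [div_le_iff₀ (by positivity)]
    refine ((Finset.abs_sum_le_sum_abs _ _).trans (Finset.sum_le_sum (g := fun _ => A + T * A)
      fun a _ => (abs_sub _ _).trans (add_le_add (hf.b2 _) ?_))).trans_eq ?_
    · rw [abs_mul]; exact mul_le_mul (Site.abs_clampT_le hT _) (hf.b1 _) (abs_nonneg _) hT
    · rw [Finset.sum_const, Finset.card_range, nsmul_eq_mul]; field_simp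
  set δB := |cavB f T d σ - κ|
  have hδB : δB ≤ (A + T * A) / 2 * X + |κ| := (abs_sub _ _).trans (by linarith)
  have hgap0 : 0 ≤ gapMean (A ^ 2 * R) K :=
    integral_nonneg fun g => Site.gapBound_nonneg (by positivity)
  have hvX : yVar f d σ / 2 ≤ A ^ 2 / 2 * X := by rw [hX]; linarith
  have ht : 2 * |e σ - 1| * spread (yVar f d σ) Real.cosh 0 ≤
      2 * Real.exp |κ| * (Real.exp (bExp A T * X) * δB) := by
    rw [hc]
    have h1 := abs_exp_sub_one_le (cavB f T d σ - κ)
    calc 2 * |e σ - 1| * Real.exp (yVar f d σ / 2)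
        ≤ 2 * (δB * Real.exp ((A + T * A) / 2 * X + |κ|)) * Real.exp (A ^ 2 / 2 * X) := by
          refine mul_le_mul (mul_le_mul_of_nonneg_left (h1.trans ?_) (by norm_num))
            (Real.exp_le_exp.2 hvX) (Real.exp_pos _).le (by positivity)
          exact mul_le_mul_of_nonneg_left (Real.exp_le_exp.2 hδB) (abs_nonneg _)
      _ = _ := by rw [bExp, add_mul, Real.exp_add, Real.exp_add]; ring
  refine (add_le_add le_rfl ht).trans ?_
  rcases le_total X R with hXR | hXR
  · have : spread (yVar f d σ) (cutErr K u ψ) 0 ≤ 3 * gapMean (A ^ 2 * R) K :=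
      hgap (hv.trans (mul_le_mul_of_nonneg_left hXR (sq_nonneg _)))
    have h1 : Real.exp (bExp A T * X) * δB ≤ Real.exp (bExp A T * R) * δB :=
      mul_le_mul_of_nonneg_right (Real.exp_le_exp.2 (mul_le_mul_of_nonneg_left hXR hb0)) (abs_nonneg _)
    have : 0 ≤ Real.exp (-R) * ((3 + 2 * (1 + |κ|) * Real.exp |κ|) *
      Real.exp ((bExp A T + (A + T * A) / 2 + 1) * X)) := by positivity
    nlinarith [Real.exp_pos |κ|]
  · have hone : 1 ≤ Real.exp (-R) * Real.exp X := by
      rw [← Real.exp_add]; exact Real.one_le_exp (by linarith)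
    have hb2 : A ^ 2 / 2 ≤ bExp A T + (A + T * A) / 2 := by unfold bExp; linarith
    set E := Real.exp ((bExp A T + (A + T * A) / 2 + 1) * X)
    have h1 : Real.exp (yVar f d σ / 2) ≤ Real.exp (-R) * E := by
      refine (le_mul_of_one_le_right (Real.exp_pos _).le hone).trans ?_
      rw [mul_left_comm, ← Real.exp_add]
      refine mul_le_mul_of_nonneg_left (Real.exp_le_exp.2 ?_) (Real.exp_pos _).le
      have := mul_le_mul_of_nonneg_right hb2 hX0
      linarith
    have h2 : Real.exp (bExp A T * X) * δB ≤ (1 + |κ|) * (Real.exp (-R) * E) := by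
      have hd : δB ≤ (1 + |κ|) * Real.exp ((A + T * A) / 2 * X) := by
        refine hδB.trans ?_
        have := Real.add_one_le_exp ((A + T * A) / 2 * X)
        nlinarith [Real.one_le_exp (mul_nonneg hc0 hX0), abs_nonneg κ]
      refine (mul_le_mul_of_nonneg_left hd (Real.exp_pos _).le).trans ?_
      rw [mul_left_comm]
      refine mul_le_mul_of_nonneg_left ?_ (by positivity)
      rw [← Real.exp_add]
      refine (le_mul_of_one_le_right (Real.exp_pos _).le hone).trans ?_
      rw [mul_left_comm, ← Real.exp_add]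
      refine mul_le_mul_of_nonneg_left (Real.exp_le_exp.2 ?_) (Real.exp_pos _).le
      linarith
    have : 0 ≤ 2 * Real.exp |κ| * Real.exp (bExp A T * R) * δB := by positivity
    nlinarith [Real.exp_pos |κ|]

/-- The error at one disorder. -/
lemma disorder_le (hf : Smooth f A) (hT : 0 ≤ T) (hN : 0 < N) (s : ℝ) (x : Fin L → ℝ) (k : ℕ)
    {K : ℕ} (hK : 0 < K) {u ψ : ℝ → ℝ} (h : CutFun K u ψ) (κ R : ℝ) (hR : 0 ≤ R) (d : Dis N L) :
    |(∫ z, pairQ (gib (totalH f s x d)) (fun σ τ => overlap σ τ ^ k)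
        (fun σ => u (cavY f z d σ) * Real.exp (cavB f T d σ))
        (fun σ => Real.cosh (cavY f z d σ) * Real.exp (cavB f T d σ)) ∂zLaw) -
      ∫ z, pairQ (gib (totalH f s x d)) (fun σ τ => overlap σ τ ^ k)
        (fun σ => ψ (cavY f z d σ)) (fun σ => cut K (cavY f z d σ)) ∂zLaw| ≤
      24 * gapMean (A ^ 2 * R) K +
        Real.exp (-R) * ((24 + 16 * (1 + |κ|) * Real.exp |κ|) *
          Real.exp ((bExp A T + (A + T * A) / 2 + 1) * ((d.1 : ℝ) / N))) +
        16 * Real.exp |κ| * Real.exp (bExp A T * R) *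
          ∑ σ : Cube N, gib (totalH f s x d) σ * |cavB f T d σ - κ| := by
  have hR' : ∀ σ τ : Cube N, |overlap σ τ ^ k| ≤ 1 := fun σ τ => by
    rw [abs_pow]; exact pow_le_one₀ (abs_nonneg _) (Site.abs_overlap_le σ τ)
  have hw : ∀ σ, 0 ≤ gib (totalH f s x d) σ := Site.gib_nonneg _
  have hm : Continuous (cutErr K u ψ) :=
    ((h.sc.sub h.ψc).abs).add (Real.continuous_cosh.sub (Site.continuous_cut K)).abs
  have hiE : ∀ σ, Integrable (fun z => cutErr K u ψ (cavY f z d σ)) zLaw := fun σ =>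
    integrable_cavY_le hf hN d σ hm.measurable (B := 3) fun y => by
      rw [abs_of_nonneg (cutErr_le hK h le_rfl).1]; exact cutErr_le_cosh hK h y
  have hiC : ∀ σ, Integrable (fun z => Real.cosh (cavY f z d σ)) zLaw := fun σ =>
    integrable_cavY_le hf hN d σ Real.continuous_cosh.measurable (B := 1) fun y => by
      rw [one_mul, abs_of_pos (Real.cosh_pos _)]
  have hY : ∀ σ, Measurable fun z : ℕ → ℝ => cavY f z d σ := fun σ =>
    (Site.measurable_cavY hf σ).comp (measurable_const.prodMk measurable_id)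
  have hQm : ∀ {n a : (ℕ → ℝ) → Cube N → ℝ}, (∀ σ, Measurable fun z => n z σ) →
      (∀ σ, Measurable fun z => a z σ) → Measurable fun z : ℕ → ℝ =>
        pairQ (gib (totalH f s x d)) (fun σ τ => overlap σ τ ^ k) (n z) (a z) := fun hn ha =>
    (Finset.measurable_sum _ fun σ _ => Finset.measurable_sum _ fun τ _ =>
      (((hn σ).mul (hn τ)).const_mul _).const_mul _).div
      ((Finset.measurable_sum _ fun σ _ => (ha σ).const_mul _).pow_const 2)
  have i1 : Integrable (fun z => pairQ (gib (totalH f s x d)) (fun σ τ => overlap σ τ ^ k)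
      (fun σ => u (cavY f z d σ) * Real.exp (cavB f T d σ))
      (fun σ => Real.cosh (cavY f z d σ) * Real.exp (cavB f T d σ))) zLaw :=
    Vale.Agent.P157.integrable_of_abs_le (hQm (fun σ => (h.sc.measurable.comp (hY σ)).mul_const _)
      fun σ => (Real.continuous_cosh.measurable.comp (hY σ)).mul_const _) fun z =>
        abs_pairQ_le hw hR' fun σ => by
          rw [abs_mul, abs_of_pos (Real.exp_pos _), ← mul_assoc]
          refine mul_le_mul_of_nonneg_right ?_ (Real.exp_pos _).le
          linarith [h.dom (cavY f z d σ), Real.cosh_pos (cavY f z d σ)]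
  have i2 : Integrable (fun z => pairQ (gib (totalH f s x d)) (fun σ τ => overlap σ τ ^ k)
      (fun σ => ψ (cavY f z d σ)) (fun σ => cut K (cavY f z d σ))) zLaw :=
    Vale.Agent.P157.integrable_of_abs_le (hQm (fun σ => h.ψc.measurable.comp (hY σ))
      fun σ => (Site.continuous_cut K).measurable.comp (hY σ)) fun z =>
        abs_pairQ_le hw hR' fun σ => h.dom' _
  have iσ : ∀ σ, Integrable (fun z => 8 * gib (totalH f s x d) σ *
      (cutErr K u ψ (cavY f z d σ) +
        2 * |Real.exp (cavB f T d σ - κ) - 1| * Real.cosh (cavY f z d σ))) zLaw := fun σ =>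
    ((hiE σ).add ((hiC σ).const_mul _)).const_mul _
  rw [← integral_sub i1 i2]
  refine abs_integral_le_integral_abs.trans ((integral_mono (i1.sub i2).abs
    (integrable_finsetSum _ fun σ _ => iσ σ)
    (pointwise_le (f := f) (T := T) s x k hK h κ d)).trans ?_)
  rw [integral_finsetSum _ fun σ _ => iσ σ]
  refine (Finset.sum_le_sum (g := fun σ => gib (totalH f s x d) σ *
    (24 * gapMean (A ^ 2 * R) K + Real.exp (-R) * ((24 + 16 * (1 + |κ|) * Real.exp |κ|) *
      Real.exp ((bExp A T + (A + T * A) / 2 + 1) * ((d.1 : ℝ) / N)))) +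
    16 * Real.exp |κ| * Real.exp (bExp A T * R) *
      (gib (totalH f s x d) σ * |cavB f T d σ - κ|)) fun σ _ => ?_).trans_eq ?_
  · rw [integral_const_mul, integral_add (hiE σ) ((hiC σ).const_mul _), integral_const_mul,
      integral_cavY d σ hm.measurable, integral_cavY d σ Real.continuous_cosh.measurable]
    refine (mul_le_mul_of_nonneg_left (config_le hf hT hN hK h κ R hR d σ)
      (mul_nonneg (by norm_num) (hw σ))).trans_eq ?_
    ring
  · rw [Finset.sum_add_distrib, ← Finset.sum_mul, Site.sum_gib, one_mul, ← Finset.mul_sum]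

/-- The error on average. -/
lemma cavPair_sub_le (hf : Smooth f A) (hT : 0 ≤ T) (hN : 0 < N) (s : ℝ) (x : Fin L → ℝ) {μ : ℝ}
    (hμ : 0 ≤ μ) (k : ℕ) {K : ℕ} (hK : 0 < K) {u ψ : ℝ → ℝ} (h : CutFun K u ψ) (κ R : ℝ)
    (hR : 0 ≤ R) :
    |cavPair N f T s x μ k Real.cosh u - cutPair N f s x μ k (cut K) ψ| ≤
      24 * gapMean (A ^ 2 * R) K + Real.exp (-R) * ((24 + 16 * (1 + |κ|) * Real.exp |κ|) *
        Real.exp (μ * (Real.exp ((bExp A T + (A + T * A) / 2 + 1) / N) - 1))) +
        16 * Real.exp |κ| * Real.exp (bExp A T * R) * Site.devB f T s x N μ κ := by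
  rw [(cav_eq_pairQ s x μ k Real.cosh u).1, (cav_eq_pairQ (T := T) s x μ k (cut K) ψ).2]
  set b := bExp A T + (A + T * A) / 2 + 1
  have hgn : ∀ d : Dis N L, ∀ σ, 0 ≤ gib (totalH f s x d) σ := fun d => Site.gib_nonneg _
  have hRb : ∀ σ τ : Cube N, |overlap σ τ ^ k| ≤ 1 := fun σ τ => by
    rw [abs_pow]; exact pow_le_one₀ (abs_nonneg _) (Site.abs_overlap_le σ τ)
  have hY : ∀ σ, Measurable fun p : Dis N L × (ℕ → ℝ) => cavY f p.2 p.1 σ := Site.measurable_cavY hf
  have hB : ∀ σ, Measurable fun p : Dis N L × (ℕ → ℝ) => Real.exp (cavB f T p.1 σ) := fun σ =>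
    ((Site.measurable_cavB hf T σ).comp measurable_fst).exp
  set F : Dis N L → ℝ := fun d => ∫ z, pairQ (gib (totalH f s x d)) (fun σ τ => overlap σ τ ^ k)
        (fun σ => u (cavY f z d σ) * Real.exp (cavB f T d σ))
        (fun σ => Real.cosh (cavY f z d σ) * Real.exp (cavB f T d σ)) ∂zLaw
  set G : Dis N L → ℝ := fun d => ∫ z, pairQ (gib (totalH f s x d)) (fun σ τ => overlap σ τ ^ k)
        (fun σ => ψ (cavY f z d σ)) (fun σ => cut K (cavY f z d σ)) ∂zLaw
  have iF : Integrable F (disLaw N L μ) := by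
    refine Vale.Agent.P157.integrable_of_abs_le (StronglyMeasurable.integral_prod_right' (ν := zLaw)
      (measurable_pairQ hf s x k (fun σ => (h.sc.measurable.comp (hY σ)).mul (hB σ))
        fun σ => (Real.continuous_cosh.measurable.comp (hY σ)).mul (hB σ)).stronglyMeasurable).measurable
      fun d => Site.abs_integral_le fun z => abs_pairQ_le (hgn d) hRb fun σ => ?_
    rw [abs_mul, abs_of_pos (Real.exp_pos _), ← mul_assoc]
    refine mul_le_mul_of_nonneg_right ?_ (Real.exp_pos _).le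
    linarith [h.dom (cavY f z d σ), Real.cosh_pos (cavY f z d σ)]
  have iG : Integrable G (disLaw N L μ) :=
    Vale.Agent.P157.integrable_of_abs_le (StronglyMeasurable.integral_prod_right' (ν := zLaw)
      (measurable_pairQ hf s x k (fun σ => h.ψc.measurable.comp (hY σ))
        fun σ => (Site.continuous_cut K).measurable.comp (hY σ)).stronglyMeasurable).measurable
      fun d => Site.abs_integral_le fun z => abs_pairQ_le (hgn d) hRb fun σ => h.dom' _
  obtain ⟨iE, eE⟩ := integral_exp_count μ.toNNReal (b / N)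
  have iE' : Integrable (fun d : Dis N L => Real.exp (b / N * d.1)) (disLaw N L μ) := by
    rw [disLaw]; exact iE.comp_fst _
  have eE' : ∫ d : Dis N L, Real.exp (b / N * d.1) ∂disLaw N L μ =
      Real.exp (μ * (Real.exp (b / N) - 1)) := by
    rw [disLaw, integral_fun_fst (fun m : ℕ => Real.exp (b / N * m)), probReal_univ, one_smul, eE,
      Real.coe_toNNReal _ hμ]
  set D : Dis N L → ℝ := fun d => ∑ σ : Cube N, gib (totalH f s x d) σ * |cavB f T d σ - κ|
  have iD : Integrable D (disLaw N L μ) := Site.integrable_dev hf hT hN s x μ κ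
  rw [← integral_sub iF iG]
  refine abs_integral_le_integral_abs.trans ((integral_mono (iF.sub iG).abs
    (g := fun d => (24 * gapMean (A ^ 2 * R) K + Real.exp (-R) * ((24 + 16 * (1 + |κ|) * Real.exp |κ|) *
      Real.exp (b / N * d.1))) + 16 * Real.exp |κ| * Real.exp (bExp A T * R) * D d)
    (((integrable_const _).add ((iE'.const_mul _).const_mul _)).add (iD.const_mul _)) fun d => ?_).trans_eq ?_)
  · refine (disorder_le hf hT hN s x k hK h κ R hR d).trans_eq ?_
    simp only [D, b, div_mul_eq_mul_div, mul_div_assoc]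
  · have j1 : Integrable (fun d : Dis N L => Real.exp (-R) *
        ((24 + 16 * (1 + |κ|) * Real.exp |κ|) * Real.exp (b / N * d.1))) (disLaw N L μ) :=
      (iE'.const_mul _).const_mul _
    rw [integral_add ((integrable_const _).fun_add j1) (iD.const_mul _),
      integral_add (integrable_const _) j1, integral_const, probReal_univ, one_smul,
      integral_const_mul, integral_const_mul, integral_const_mul, eE']
    rfl

/-- The mean exponent is bounded. -/
lemma abs_kappa_le (hf : Smooth f A) (hT : 0 ≤ T) (hN : 0 < N) (s : ℝ) (x : Fin L → ℝ) {μ : ℝ}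
    (hμ : 0 ≤ μ) (κ : ℝ) :
    |κ| ≤ Site.devB f T s x N μ κ + (A + T * A) * (μ / N) := by
  have hA0 : 0 ≤ A := (abs_nonneg _).trans (hf.b0 0)
  have hN' : (1 : ℝ) ≤ N := by exact_mod_cast hN
  have hi : Integrable (fun d : Dis N L => (d.1 : ℝ) * ((A + T * A) / N)) (disLaw N L μ) :=
    Site.integrable_count_fst μ _
  have e : ∫ d : Dis N L, (d.1 : ℝ) * ((A + T * A) / N) ∂disLaw N L μ = (A + T * A) * (μ / N) := by
    rw [disLaw, integral_fun_fst (fun m : ℕ => (m : ℝ) * _), probReal_univ, one_smul,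
      integral_mul_const, Vale.Agent.P168.Toolkit.integral_count, Real.coe_toNNReal _ hμ]
    ring
  have hd := Site.integrable_dev hf hT hN s x μ κ
  calc |κ| = ∫ _d : Dis N L, |κ| ∂disLaw N L μ := by simp
    _ ≤ ∫ d : Dis N L, ((∑ σ : Cube N, gib (totalH f s x d) σ * |cavB f T d σ - κ|) +
          (d.1 : ℝ) * ((A + T * A) / N)) ∂disLaw N L μ := by
      refine integral_mono (integrable_const _) (hd.add hi) fun d => ?_
      calc |κ| = ∑ σ : Cube N, gib (totalH f s x d) σ * |κ| := by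
            rw [← Finset.sum_mul, Site.sum_gib, one_mul]
        _ ≤ ∑ σ : Cube N, gib (totalH f s x d) σ *
              (|cavB f T d σ - κ| + (d.1 : ℝ) * ((A + T * A) / N)) := by
          refine Finset.sum_le_sum fun σ _ => mul_le_mul_of_nonneg_left ?_ (Site.gib_nonneg _ _)
          have h1 : |κ| ≤ |cavB f T d σ - κ| + |cavB f T d σ| := by
            have := abs_sub (cavB f T d σ) (cavB f T d σ - κ)
            rw [sub_sub_cancel] at this
            linarith
          refine h1.trans (add_le_add le_rfl ?_)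
          rw [cavB, abs_div, abs_of_pos (show (0 : ℝ) < 2 * N by linarith), mul_div_assoc']
          refine div_le_div₀ (by positivity) ?_ (by linarith) (by linarith)
          refine ((Finset.abs_sum_le_sum_abs _ _).trans (Finset.sum_le_sum fun a _ =>
            (abs_sub _ _).trans (add_le_add (hf.b2 _) ?_))).trans_eq
              (by rw [Finset.sum_const, Finset.card_range, nsmul_eq_mul])
          rw [abs_mul]
          exact mul_le_mul (Site.abs_clampT_le hT _) (hf.b1 _) (abs_nonneg _) hT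
        _ = _ := by simp only [mul_add, Finset.sum_add_distrib, ← Finset.sum_mul, Site.sum_gib, one_mul]
    _ = _ := by rw [integral_add hd hi, e]; rfl

/-- Module L2b. -/
theorem cutSwap : CutSwapStmt := by
  intro α A C f hα hf k T hT ε hε
  have hA0 : 0 ≤ A := (abs_nonneg _).trans (hf.b0 0)
  set b := bExp A T + (A + T * A) / 2 + 1
  have hTA : 0 ≤ A + T * A := add_nonneg hA0 (mul_nonneg hT hA0)
  have hb : 0 ≤ b := by simp only [b, bExp]; positivity
  set Kk := 1 + (A + T * A) * (α + |C|)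
  have hKk : 0 ≤ Kk := by positivity
  set M₁ := (24 + 16 * (1 + Kk) * Real.exp Kk) * Real.exp ((α + |C|) * (b * Real.exp b))
  have hM : 0 < M₁ := by positivity
  obtain ⟨R₀, hR₀⟩ := Filter.eventually_atTop.1
    ((Real.tendsto_exp_atBot.comp tendsto_neg_atTop_atBot).eventually
      (gt_mem_nhds (show (0 : ℝ) < ε / 3 / M₁ by positivity)))
  set R := max R₀ 0
  have hR : Real.exp (-R) * M₁ ≤ ε / 3 := by
    have := hR₀ R (le_max_left _ _)
    simp only [Function.comp_apply] at this
    exact ((lt_div_iff₀ hM).1 this).le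
  obtain ⟨K₁, hK₁⟩ := Filter.eventually_atTop.1
    ((Site.tendsto_gapMean (A ^ 2 * R)).eventually (gt_mem_nhds (show (0 : ℝ) < ε / 72 by positivity)))
  refine ⟨max K₁ 1, fun K hK Nj xj μj ξ hS => ?_⟩
  have hK0 : 0 < K := lt_of_lt_of_le one_pos ((le_max_right _ _).trans hK)
  have hgap := (hK₁ K ((le_max_left _ _).trans hK)).le
  set η := min 1 (ε / (3 * (16 * Real.exp Kk * Real.exp (bExp A T * R))))
  have hη : 0 < η := lt_min one_pos (by positivity)
  filter_upwards [Site.eventually_devB (Cont.contStmt tilt_factor tree_shape) hS hT hη] with j hj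
  have hN : (1 : ℝ) ≤ Nj j := by exact_mod_cast hS.pos j
  have hμN : μj j / Nj j ≤ α + |C| := by
    rw [div_le_iff₀ (by linarith)]
    have := (abs_le.1 (hS.mu_near j)).2
    have := le_mul_of_one_le_right (abs_nonneg C) hN
    linarith [le_abs_self C]
  set κ := Site.kappaOf α f T (ξ j)
  have hκ : |κ| ≤ Kk := (abs_kappa_le hf hT (hS.pos j) _ _ (hS.mu_nonneg j) κ).trans
    (add_le_add (hj.trans (min_le_left _ _)) (mul_le_mul_of_nonneg_left hμN hTA))
  have hexp : μj j * (Real.exp (b / Nj j) - 1) ≤ (α + |C|) * (b * Real.exp b) := by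
    have hbN : b / Nj j ≤ b := div_le_self hb hN
    have hb0 : 0 ≤ b / Nj j := by positivity
    have h1 : Real.exp (b / Nj j) - 1 ≤ b / Nj j * Real.exp b := by
      refine (le_abs_self _).trans ((abs_exp_sub_one_le _).trans ?_)
      rw [abs_of_nonneg hb0]
      exact mul_le_mul_of_nonneg_left (Real.exp_le_exp.2 hbN) hb0
    refine (mul_le_mul_of_nonneg_left h1 (hS.mu_nonneg j)).trans ?_
    rw [show μj j * (b / Nj j * Real.exp b) = μj j / Nj j * (b * Real.exp b) by ring]
    exact mul_le_mul_of_nonneg_right hμN (by positivity)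
  have hdev0 : 0 ≤ Site.devB f T (scale (Nj j)) (xj j) (Nj j) (μj j) κ :=
    integral_nonneg fun d => Finset.sum_nonneg fun σ _ => mul_nonneg (Site.gib_nonneg _ _) (abs_nonneg _)
  have main : ∀ {u ψ : ℝ → ℝ}, CutFun K u ψ →
      |cavPair (Nj j) f T (scale (Nj j)) (xj j) (μj j) k Real.cosh u -
        cutPair (Nj j) f (scale (Nj j)) (xj j) (μj j) k (cut K) ψ| ≤ ε := fun {u ψ} h => by
    refine (cavPair_sub_le hf hT (hS.pos j) _ _ (hS.mu_nonneg j) k hK0 h κ R (le_max_right _ _)).trans ?_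
    have h1 : Real.exp (-R) * ((24 + 16 * (1 + |κ|) * Real.exp |κ|) *
        Real.exp (μj j * (Real.exp (b / Nj j) - 1))) ≤ ε / 3 := by
      refine le_trans (mul_le_mul_of_nonneg_left (mul_le_mul ?_ (Real.exp_le_exp.2 hexp)
        (Real.exp_pos _).le (by positivity)) (Real.exp_pos _).le) hR
      gcongr
    have h2 : 16 * Real.exp |κ| * Real.exp (bExp A T * R) *
        Site.devB f T (scale (Nj j)) (xj j) (Nj j) (μj j) κ ≤ ε / 3 := by
      have hη' := hj.trans (min_le_right _ _)
      rw [le_div_iff₀ (by positivity)] at hη'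
      have : Real.exp |κ| ≤ Real.exp Kk := Real.exp_le_exp.2 hκ
      have h3 : 16 * Real.exp |κ| * Real.exp (bExp A T * R) ≤
          16 * Real.exp Kk * Real.exp (bExp A T * R) := by gcongr
      nlinarith [mul_le_mul_of_nonneg_right h3 hdev0]
    linarith
  exact ⟨main (cutFun_sinh hK0), main (cutFun_cosh hK0)⟩

end Vale.Agent.P157.Parisi.Full
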