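import Vale.Agent.P157.Full.Statements
import Vale.Agent.P157.Parisi.ModA.Slope

/-!
A path larger in the increasing convex order has the smaller pattern part.
-/

noncomputable section

open MeasureTheory ProbabilityTheory
open Vale.Agent.P157.Parisi

namespace Vale.Agent.P157.Parisi.Full.Dom

lemma layer_zero {m : ℝ} (hm : m ≠ 0) (F : ℝ → ℝ) : layer m 0 F = F := by
  funext x
  simp [layer, Real.log_exp, inv_mul_cancel_left₀ hm]

lemma level_insert {φ : ℝ → ℝ} {x : ℝ} (hx : x ≠ 0) : ∀ {r : ℕ} (p : Fin (r + 1)) (m : Fin r → ℝ)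
    (q : Fin (r + 1) → ℝ),
    level (Fin.insertNth p x m) (fun i => q (p.predAbove i)) φ 0 = level m q φ 0 := by
  intro r
  induction r with
  | zero =>
    intro p m q
    obtain rfl : p = 0 := Fin.ext (by omega)
    show layer _ (q _ - q _) φ = φ
    rw [Fin.insertNth_zero', Fin.cons_zero,
      show q (Fin.predAbove (0 : Fin 1) 1) - q (Fin.predAbove (0 : Fin 1) 0) = 0 by simp,
      layer_zero hx]
  | succ r ih =>
    intro p m q
    cases p using Fin.cases with
    | zero =>
      rw [Fin.insertNth_zero', level_cons_zero]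
      have hT : Fin.tail (fun i => q ((0 : Fin (r + 2)).predAbove i)) = q := funext fun i => by
        simp [Fin.tail]
      have hd : q ((0 : Fin (r + 2)).predAbove 1) - q ((0 : Fin (r + 2)).predAbove 0) = 0 := by
        simp
      rw [Fin.cons_zero, Fin.tail_cons, hT, hd, layer_zero hx]
    | succ p =>
      rw [level_cons_zero, level_cons_zero m q]
      have hm0 : (Fin.insertNth p.succ x m : Fin (r + 2) → ℝ) 0 = m 0 := by
        conv_lhs => rw [← Fin.cons_self_tail m, Fin.insertNth_succ_cons, Fin.cons_zero]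
      have hmt : Fin.tail (Fin.insertNth p.succ x m : Fin (r + 2) → ℝ) =
          Fin.insertNth p x (Fin.tail m) := by
        conv_lhs => rw [← Fin.cons_self_tail m, Fin.insertNth_succ_cons, Fin.tail_cons]
      have hT : Fin.tail (fun i => q (p.succ.predAbove i)) =
          fun i => Fin.tail q (p.predAbove i) := funext fun i => by
        simp [Fin.tail, Fin.succ_predAbove_succ]
      have h0 : p.succ.predAbove 0 = 0 := Fin.predAbove_right_zero
      have h1 : p.succ.predAbove 1 = 1 := by
        rw [← Fin.succ_zero_eq_one, Fin.succ_predAbove_succ, Fin.predAbove_right_zero,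
          Fin.succ_zero_eq_one]
      simp only [hm0, hmt, hT, h0, h1, ih p (Fin.tail m) (Fin.tail q)]

lemma wsum_eq {r : ℕ} (m : Fin r → ℝ) (h : Fin (r + 1) → ℝ) :
    ∑ p, weight m p * h p = h (Fin.last r) - ∑ i, m i * (h i.succ - h i.castSucc) := by
  simp only [weight, sub_mul, Finset.sum_sub_distrib, mul_sub]
  rw [Fin.sum_univ_castSucc (fun p => (Fin.snoc m 1 : Fin (r + 1) → ℝ) p * h p),
    Fin.sum_univ_succ (fun p => (Fin.cons 0 m : Fin (r + 1) → ℝ) p * h p)]
  simp only [Fin.snoc_castSucc, Fin.snoc_last, Fin.cons_zero, Fin.cons_succ]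
  ring

lemma wsum_insert {r : ℕ} (p : Fin (r + 1)) (x : ℝ) (m : Fin r → ℝ) (h : Fin (r + 1) → ℝ) :
    ∑ i, weight (Fin.insertNth p x m) i * h (p.predAbove i) = ∑ i, weight m i * h i := by
  rw [wsum_eq, wsum_eq, Fin.sum_univ_succAbove _ p]
  have hl : p.predAbove (Fin.last (r + 1)) = Fin.last r := Fin.predAbove_right_last
  have h1 : ∀ i : Fin r, p.predAbove (p.succAbove i).succ = i.succ := fun i => by
    rcases lt_or_ge i.castSucc p with h | h
    · have h' := Fin.lt_def.1 h
      rw [Fin.val_castSucc] at h'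
      rw [Fin.succAbove_of_castSucc_lt _ _ h, Fin.predAbove_of_le_castSucc _ _
        (by rw [Fin.le_def]; simp; omega)]
      exact Fin.ext (by simp)
    · have h' := Fin.le_def.1 h
      rw [Fin.val_castSucc] at h'
      rw [Fin.succAbove_of_le_castSucc _ _ h, Fin.predAbove_of_castSucc_lt _ _
        (by rw [Fin.lt_def]; simp; omega)]
      exact Fin.ext (by simp)
  have h2 : ∀ i : Fin r, p.predAbove (p.succAbove i).castSucc = i.castSucc := fun i => by
    rcases lt_or_ge i.castSucc p with h | h
    · have h' := Fin.lt_def.1 h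
      rw [Fin.val_castSucc] at h'
      rw [Fin.succAbove_of_castSucc_lt _ _ h, Fin.predAbove_of_le_castSucc _ _
        (by rw [Fin.le_def]; simp; omega)]
      exact Fin.ext (by simp)
    · have h' := Fin.le_def.1 h
      rw [Fin.val_castSucc] at h'
      rw [Fin.succAbove_of_le_castSucc _ _ h, Fin.predAbove_of_castSucc_lt _ _
        (by rw [Fin.lt_def]; simp; omega)]
      exact Fin.ext (by simp)
  simp only [Fin.insertNth_apply_same, Fin.insertNth_apply_succAbove, h1, h2, hl,
    Fin.predAbove_succ_self, Fin.predAbove_castSucc_self, sub_self, mul_zero, zero_add]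

/-- One more exponent. -/
lemma exists_insert (f : ℝ → ℝ) (ξ : Path) {x : ℝ} (hx : 0 < x) (hx1 : x < 1) :
    ∃ ξ' : Path, Set.range ξ'.m = insert x (Set.range ξ.m) ∧
      patValue f ξ'.m ξ'.q = patValue f ξ.m ξ.q ∧
      ∀ a, excess ξ'.m ξ'.q a = excess ξ.m ξ.q a := by
  by_cases hxm : x ∈ Set.range ξ.m
  · exact ⟨ξ, (Set.insert_eq_self.2 hxm).symm, rfl, fun a => rfl⟩
  obtain ⟨r, m, q, hP⟩ := ξ
  classical
  obtain ⟨k, hk⟩ : ∃ k, k = (Finset.univ.filter fun i => m i < x).card := ⟨_, rfl⟩
  have hkr : k < r + 1 := by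
    have : k ≤ r := hk ▸ (Finset.card_filter_le _ _).trans_eq (Finset.card_fin r)
    omega
  have hiff : ∀ i : Fin r, m i < x ↔ i.val < k := by
    intro i
    constructor
    · intro h
      have : Finset.Iic i ⊆ Finset.univ.filter fun j => m j < x := fun j hj =>
        Finset.mem_filter.2 ⟨Finset.mem_univ j,
          (hP.strictMono.monotone (Finset.mem_Iic.1 hj)).trans_lt h⟩
      have := Finset.card_le_card this
      rw [Fin.card_Iic, ← hk] at this
      omega
    · intro h
      by_contra hc
      have : (Finset.univ.filter fun j => m j < x) ⊆ Finset.Iio i := fun j hj =>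
        Finset.mem_Iio.2 (not_le.1 fun hij =>
          hc ((hP.strictMono.monotone hij).trans_lt (Finset.mem_filter.1 hj).2))
      have := Finset.card_le_card this
      rw [Fin.card_Iio, ← hk] at this
      omega
  obtain ⟨p, hp⟩ : ∃ p : Fin (r + 1), p.val = k := ⟨⟨k, hkr⟩, rfl⟩
  have hP' : IsPath (Fin.insertNth p x m) fun i => q (p.predAbove i) := by
    refine ⟨fun i => ?_, fun i => ?_, fun i j hij => ?_, fun i j hij =>
      hP.mono (Fin.predAbove_right_monotone p hij), ?_, ?_⟩
    · cases i using Fin.succAboveCases p with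
      | x => simpa using hx
      | p i => simpa using hP.pos i
    · cases i using Fin.succAboveCases p with
      | x => simpa using hx1
      | p i => simpa using hP.lt_one i
    · cases i using Fin.succAboveCases p with
      | x =>
        cases j using Fin.succAboveCases p with
        | x => exact absurd hij (lt_irrefl _)
        | p j =>
          rw [Fin.insertNth_apply_same, Fin.insertNth_apply_succAbove]
          have h1 := (Fin.lt_succAbove_iff_le_castSucc p j).1 hij
          rw [Fin.le_def, Fin.val_castSucc, hp] at h1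
          exact lt_of_le_of_ne (not_lt.1 fun h => by have := (hiff j).1 h; omega)
            fun h => hxm ⟨j, h.symm⟩
      | p i =>
        cases j using Fin.succAboveCases p with
        | x =>
          rw [Fin.insertNth_apply_same, Fin.insertNth_apply_succAbove]
          have h1 := (Fin.succAbove_lt_iff_castSucc_lt p i).1 hij
          rw [Fin.lt_def, Fin.val_castSucc, hp] at h1
          exact (hiff i).2 h1
        | p j =>
          rw [Fin.insertNth_apply_succAbove, Fin.insertNth_apply_succAbove]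
          exact hP.strictMono ((Fin.strictMono_succAbove p).lt_iff_lt.1 hij)
    · show 0 ≤ q (p.predAbove 0)
      rw [Fin.predAbove_right_zero]; exact hP.nonneg
    · show q (p.predAbove (Fin.last (r + 1))) ≤ 1
      rw [Fin.predAbove_right_last]; exact hP.le_one
  refine ⟨⟨r + 1, _, _, hP'⟩, ?_, ?_, fun a => ?_⟩
  · ext y
    simp only [Set.mem_range, Set.mem_insert_iff]
    constructor
    · rintro ⟨i, rfl⟩
      cases i using Fin.succAboveCases p with
      | x => exact Or.inl (by simp)
      | p i => exact Or.inr ⟨i, by simp⟩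
    · rintro (rfl | ⟨i, rfl⟩)
      · exact ⟨p, by simp⟩
      · exact ⟨p.succAbove i, by simp⟩
  · simp only [patValue, Fin.predAbove_right_zero, Fin.predAbove_right_last, level_insert hx.ne']
  · exact wsum_insert p x m fun i => max (q i - a) 0

/-- All exponents of a finite set. -/
lemma exists_refine (f : ℝ → ℝ) (ξ : Path) : ∀ X : Finset ℝ, (∀ x ∈ X, 0 < x ∧ x < 1) →
    ∃ ξ' : Path, Set.range ξ'.m = ↑X ∪ Set.range ξ.m ∧
      patValue f ξ'.m ξ'.q = patValue f ξ.m ξ.q ∧
      ∀ a, excess ξ'.m ξ'.q a = excess ξ.m ξ.q a := by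
  classical
  intro X
  induction X using Finset.induction_on with
  | empty => exact fun _ => ⟨ξ, by simp, rfl, fun a => rfl⟩
  | insert x X hxX ih =>
    intro h
    obtain ⟨ξ1, e1, e2, e3⟩ := ih fun y hy => h y (Finset.mem_insert_of_mem hy)
    obtain ⟨hx, hx1⟩ := h x (Finset.mem_insert_self x X)
    obtain ⟨ξ2, d1, d2, d3⟩ := exists_insert f ξ1 hx hx1
    exact ⟨ξ2, by rw [d1, e1, Finset.coe_insert, Set.insert_union], d2.trans e2,
      fun a => (d3 a).trans (e3 a)⟩

/-- Abel: a monotone weight against small tails. -/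
lemma abel : ∀ {n : ℕ} {s d : Fin n → ℝ} {M e : ℝ}, Monotone s → (∀ p, 0 ≤ s p) →
    (∀ p, s p ≤ M) → 0 ≤ M → 0 ≤ e → (∀ k, (∑ p, if k ≤ p then d p else 0) ≤ e) →
    ∑ p, s p * d p ≤ M * e
  | 0, _, _, M, e, _, _, _, hM, he, _ => by simpa using mul_nonneg hM he
  | n + 1, s, d, M, e, hs, h0, hM, _, he, hT => by
    have h := abel (s := fun p => s p.succ - s 0) (d := fun p => d p.succ) (M := M - s 0) (e := e)
      (fun i j hij => sub_le_sub_right (hs (Fin.succ_le_succ_iff.2 hij)) _)
      (fun p => sub_nonneg.2 (hs (Fin.zero_le _))) (fun p => sub_le_sub_right (hM _) _)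
      (sub_nonneg.2 (hM 0)) he fun k => by
        have := hT k.succ
        rw [Fin.sum_univ_succ, if_neg (by simp), zero_add] at this
        simpa [Fin.succ_le_succ_iff] using this
    have hT0 := hT 0
    simp only [Fin.zero_le, if_true, Fin.sum_univ_succ] at hT0
    rw [Fin.sum_univ_succ]
    simp only [sub_mul, Finset.sum_sub_distrib, ← Finset.mul_sum] at h
    linarith [mul_le_mul_of_nonneg_left hT0 (h0 0)]

/-- The case of common exponents. -/
lemma same_exponents (hD : PatDerivStmt) (hS : SlopeStmt) {f : ℝ → ℝ} {A : ℝ} (hf : Smooth f A)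
    {r : ℕ} {m : Fin r → ℝ} {q q' : Fin (r + 1) → ℝ} (hq : IsPath m q) (hq' : IsPath m q') {e : ℝ}
    (he : 0 ≤ e) (h : ∀ a ∈ Set.Icc (0 : ℝ) 1, excess m q a ≤ excess m q' a + e) :
    patValue f m q' - patValue f m q ≤ A ^ 2 * e / 2 := by
  refine hD f A hf r m q q' hq hq' _ fun t ht => ?_
  have hseg : IsPath m (seg q q' t) := by
    have h1 : 0 ≤ 1 - t := by linarith [ht.2]
    refine ⟨hq.pos, hq.lt_one, hq.strictMono, fun i j hij => ?_, ?_, ?_⟩
    · exact add_le_add (mul_le_mul_of_nonneg_left (hq.mono hij) h1)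
        (mul_le_mul_of_nonneg_left (hq'.mono hij) ht.1.le)
    · exact add_nonneg (mul_nonneg h1 hq.nonneg) (mul_nonneg ht.1.le hq'.nonneg)
    · show (1 - t) * q (Fin.last r) + t * q' (Fin.last r) ≤ 1
      linarith [mul_le_mul_of_nonneg_left hq.le_one h1,
        mul_le_mul_of_nonneg_left hq'.le_one ht.1.le]
  obtain ⟨hmono, hb⟩ := hS f A hf ⟨r, m, seg q q' t, hseg⟩
  have hw : ∀ p, 0 ≤ weight m p := fun p =>
    Up.weight_nonneg ⟨hq.pos, hq.lt_one, hq.strictMono⟩ p
  have key := abel (s := slope f m (seg q q' t)) (d := fun p => weight m p * (q p - q' p))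
    (M := A ^ 2) (e := e) hmono (fun p => (hb p).1)
    (fun p => (hb p).2.2.1.trans (hb p).2.2.2) (sq_nonneg A) he fun k => by
      have ha : q' k ∈ Set.Icc (0 : ℝ) 1 :=
        ⟨hq'.nonneg.trans (hq'.mono (Fin.zero_le _)), (hq'.mono (Fin.le_last _)).trans hq'.le_one⟩
      refine le_trans ?_ (sub_le_iff_le_add'.2 (h _ ha))
      rw [excess, excess, ← Finset.sum_sub_distrib]
      refine Finset.sum_le_sum fun p _ => ?_
      split_ifs with hkp
      · rw [max_eq_left (sub_nonneg.2 (hq'.mono hkp))]
        have := mul_le_mul_of_nonneg_left (le_max_left (q p - q' k) 0) (hw p)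
        linarith
      · rw [max_eq_right (sub_nonpos.2 (hq'.mono (not_le.1 hkp).le)), mul_zero, sub_zero]
        exact mul_nonneg (hw p) (le_max_right _ _)
  have e1 : ∑ p, weight m p * slope f m (seg q q' t) p * (q' p - q p) =
      -∑ p, slope f m (seg q q' t) p * (weight m p * (q p - q' p)) := by
    rw [← Finset.sum_neg_distrib]
    exact Finset.sum_congr rfl fun p _ => by ring
  rw [e1]
  linarith

end Vale.Agent.P157.Parisi.Full.Dom

namespace Vale.Agent.P157.Parisi.Full

open Dom

/-- Module U5. -/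
theorem dom_of (hD : PatDerivStmt) (hS : SlopeStmt) : DomStmt := by
  classical
  intro f A hf ε hε
  refine ⟨2 * ε / (A ^ 2 + 1), by positivity, fun ξ ξ' h => ?_⟩
  obtain ⟨a, ea, va, xa⟩ := exists_refine f ξ (Finset.univ.image ξ'.m) fun x hx => by
    obtain ⟨i, -, rfl⟩ := Finset.mem_image.1 hx
    exact ⟨ξ'.isPath.pos i, ξ'.isPath.lt_one i⟩
  obtain ⟨b, eb, vb, xb⟩ := exists_refine f ξ' (Finset.univ.image ξ.m) fun x hx => by
    obtain ⟨i, -, rfl⟩ := Finset.mem_image.1 hx
    exact ⟨ξ.isPath.pos i, ξ.isPath.lt_one i⟩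
  simp only [Finset.coe_image, Finset.coe_univ, Set.image_univ] at ea eb
  rw [Set.union_comm] at eb
  have hab : Set.range a.m = Set.range b.m := ea.trans eb.symm
  obtain ⟨ra, ma, qa, hPa⟩ := a
  obtain ⟨rb, mb, qb, hPb⟩ := b
  simp only at va xa vb xb hab
  have hr : ra = rb := by
    rw [← Fintype.card_fin ra, ← Fintype.card_fin rb, ← Nat.card_eq_fintype_card,
      ← Nat.card_eq_fintype_card, ← Nat.card_range_of_injective hPa.strictMono.injective,
      ← Nat.card_range_of_injective hPb.strictMono.injective, hab]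
  subst hr
  obtain rfl : ma = mb := (StrictMono.range_inj hPa.strictMono hPb.strictMono).1 hab
  have := same_exponents hD hS hf hPa hPb (e := 2 * ε / (A ^ 2 + 1)) (by positivity) fun c hc => by
    rw [xa, xb]; exact h c hc
  rw [← va, ← vb]
  have hle : A ^ 2 * (2 * ε / (A ^ 2 + 1)) / 2 ≤ ε := by
    rw [show A ^ 2 * (2 * ε / (A ^ 2 + 1)) / 2 = A ^ 2 / (A ^ 2 + 1) * ε by ring]
    exact mul_le_of_le_one_left hε.le ((div_le_one (by positivity)).2 (by linarith))
  linarith

/-- Module U5, from the derivative alone. -/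
theorem dom (hD : PatDerivStmt) : DomStmt := dom_of hD slope_spec

end Vale.Agent.P157.Parisi.Full

end
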