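import Vale.Agent.P157.Full.Statements
import Vale.Agent.P157.Full.Lip.Calc

/-!
The conjugate paths of the two recursions move at most like their paths, uniformly in the number of
levels.
-/

noncomputable section

open MeasureTheory ProbabilityTheory Filter Topology
open Vale.Agent.P157.Parisi

namespace Vale.Agent.P157.Parisi.Full.Lip

/-- The bound on a tilted second moment. -/
def momentBound (c : ℝ) : ℝ :=
  2 * (∫ g, Real.exp ((c + 1) * |g|) ∂gaussianReal 0 1) /
    ∫ g, Real.exp (-c * |g|) ∂gaussianReal 0 1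

lemma momentBound_nonneg (c : ℝ) : 0 ≤ momentBound c :=
  div_nonneg (mul_nonneg zero_le_two (integral_nonneg fun g => (Real.exp_pos _).le))
    (integral_nonneg fun g => (Real.exp_pos _).le)

variable {D L m δ S K a b : ℝ} {F h φ : ℝ → ℝ}

/-- The tilted variance of a Lipschitz function is of the order of the increment. -/
lemma tilt_var_le_mul (hF : IsLip D F) (hm : 0 ≤ m) (hm1 : m ≤ 1) (hh : Bm K h) (hhL : IsLip L h)
    (hδ : 0 ≤ δ) (hδS : δ ≤ S) (x : ℝ) :
    tilt m δ F (fun y => h y ^ 2) x - tilt m δ F h x ^ 2 ≤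
      L ^ 2 * momentBound (D * Real.sqrt S) * δ := by
  refine (tilt_var_le hF hm hm1 hh (h x) x).2.1.trans ?_
  set c := D * Real.sqrt S with hc
  have hs : D * Real.sqrt δ ≤ c :=
    mul_le_mul_of_nonneg_left (Real.sqrt_le_sqrt hδS) hF.nonneg
  have hZ : 0 < ∫ g, Real.exp (-c * |g|) ∂gaussianReal 0 1 :=
    integral_exp_pos (Site.integrable_exp_abs _)
  have hlo : Real.exp (m * F x) * ∫ g, Real.exp (-c * |g|) ∂gaussianReal 0 1 ≤
      ∫ g, wgt m δ F x g ∂gaussianReal 0 1 := by
    rw [← integral_const_mul]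
    refine integral_mono ((Site.integrable_exp_abs _).const_mul _) (integrable_wgt hF hm hm1 x)
      fun g => ?_
    refine le_trans (mul_le_mul_of_nonneg_left (Real.exp_le_exp.2 ?_) (Real.exp_pos _).le)
      (wgt_mem hF hm hm1 x g).1
    exact mul_le_mul_of_nonneg_right (neg_le_neg hs) (abs_nonneg g)
  have hhi : ∫ g, wgt m δ F x g * (h (x + Real.sqrt δ * g) - h x) ^ 2 ∂gaussianReal 0 1 ≤
      L ^ 2 * δ * Real.exp (m * F x) *
        (2 * ∫ g, Real.exp ((c + 1) * |g|) ∂gaussianReal 0 1) := by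
    rw [← integral_const_mul, ← integral_const_mul]
    have hb : Bm ((K + |h x|) ^ 2) fun y => (h y - h x) ^ 2 :=
      Bm.sq ⟨hh.meas.sub_const _, fun y => (abs_sub _ _).trans (add_le_add (hh.bound y) le_rfl)⟩
    refine integral_mono (integrable_mul hF hm hm1 hb x)
      (((Site.integrable_exp_abs _).const_mul 2).const_mul _) fun g => ?_
    have h1 : (h (x + Real.sqrt δ * g) - h x) ^ 2 ≤ L ^ 2 * δ * |g| ^ 2 := by
      have h2 := hhL.dist_le x (x + Real.sqrt δ * g)
      rw [add_sub_cancel_left, abs_mul, abs_of_nonneg (Real.sqrt_nonneg δ), ← mul_assoc] at h2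
      calc (h (x + Real.sqrt δ * g) - h x) ^ 2
          = |h (x + Real.sqrt δ * g) - h x| ^ 2 := (sq_abs _).symm
        _ ≤ (L * Real.sqrt δ * |g|) ^ 2 := pow_le_pow_left₀ (abs_nonneg _) h2 2
        _ = _ := by rw [mul_pow, mul_pow, Real.sq_sqrt hδ]
    have h3 : |g| ^ 2 ≤ 2 * Real.exp |g| := by
      linarith [Real.quadratic_le_exp_of_nonneg (abs_nonneg g), abs_nonneg g]
    have h4 : wgt m δ F x g ≤ Real.exp (m * F x) * Real.exp (c * |g|) :=
      (wgt_mem hF hm hm1 x g).2.trans (mul_le_mul_of_nonneg_left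
        (Real.exp_le_exp.2 (mul_le_mul_of_nonneg_right hs (abs_nonneg g))) (Real.exp_pos _).le)
    calc wgt m δ F x g * (h (x + Real.sqrt δ * g) - h x) ^ 2
        ≤ Real.exp (m * F x) * Real.exp (c * |g|) * (L ^ 2 * δ * (2 * Real.exp |g|)) :=
          mul_le_mul h4 (h1.trans (mul_le_mul_of_nonneg_left h3 (by positivity))) (sq_nonneg _)
            (by positivity)
      _ = _ := by rw [add_mul, one_mul, Real.exp_add]; ring
  rw [tilt_eq]
  refine (div_le_div₀ (mul_nonneg (mul_nonneg (mul_nonneg (sq_nonneg _) hδ) (Real.exp_pos _).le)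
    (mul_nonneg zero_le_two (integral_nonneg fun g => (Real.exp_pos _).le))) hhi
      (mul_pos (Real.exp_pos _) hZ) hlo).trans (le_of_eq ?_)
  rw [momentBound]
  field_simp

lemma Curv.level (hφ : Curv D a b φ) : ∀ {r : ℕ} {m : Fin r → ℝ}, (∀ i, 0 < m i) →
    (∀ i, m i < 1) → ∀ (q : Fin (r + 1) → ℝ) (p : Fin (r + 1)), Curv D a b (level m q φ p) := by
  intro r
  induction r with
  | zero => exact fun _ _ _ _ => hφ
  | succ r ih =>
    intro m hm hm1 q p
    cases p using Fin.cases with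
    | zero =>
      exact (ih (fun i => hm i.succ) (fun i => hm1 i.succ) _ 0).layer (hm 0) (hm1 0).le
    | succ p => exact ih (fun i => hm i.succ) (fun i => hm1 i.succ) _ p

/-- Order and shifts pass through the downward means. -/
lemma down_facts (hφ : Curv D a b φ) : ∀ {r : ℕ} {m : Fin r → ℝ}, (∀ i, 0 < m i) →
    (∀ i, m i < 1) → ∀ (q : Fin (r + 1) → ℝ) (p : Fin (r + 1)) {h h' : ℝ → ℝ} {K K' : ℝ} (c : ℝ),
    Bm K h → Bm K' h' → (∀ y, h y ≤ h' y + c) →
    Bm K (down m q φ p h) ∧ ∀ x, down m q φ p h x ≤ down m q φ p h' x + c := by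
  intro r
  induction r with
  | zero => exact fun _ _ _ _ _ _ _ _ _ hh _ hle => ⟨hh, hle⟩
  | succ r ih =>
    intro m hm hm1 q p h h' K K' c hh hh' hle
    cases p using Fin.cases with
    | zero => exact ⟨hh, hle⟩
    | succ p =>
      have hF := (hφ.level (fun i => hm i.succ) (fun i => hm1 i.succ) (Fin.tail q) 0).toIsLip
      obtain ⟨i1, i2⟩ := ih (fun i => hm i.succ) (fun i => hm1 i.succ) (Fin.tail q) p c hh hh' hle
      have i1' : Bm K' (down (Fin.tail m) (Fin.tail q) φ p h') :=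
        (ih (fun i => hm i.succ) (fun i => hm1 i.succ) (Fin.tail q) p (K' := K') (h' := h') 0 hh'
          hh' fun y => (add_zero _).ge).1
      refine ⟨bm_tilt hF (hm 0).le (hm1 0).le i1, fun x => ?_⟩
      refine (tilt_le hF (hm 0).le (hm1 0).le i1 (i1'.add (bm_const c)) i2 x).trans (le_of_eq ?_)
      rw [tilt_add hF (hm 0).le (hm1 0).le i1' (bm_const c), tilt_const hF (hm 0).le (hm1 0).le]
      rfl

/-- The mean squared derivative along a path. -/
def sqPath {r : ℕ} (φ : ℝ → ℝ) (m : Fin r → ℝ) (q : Fin (r + 1) → ℝ) (p : Fin (r + 1)) : ℝ :=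
  ∫ g, down m q φ p (fun x => deriv (level m q φ p) x ^ 2) (Real.sqrt (q 0) * g) ∂gaussianReal 0 1

lemma diff_le_of_step {n : ℕ} {c q : Fin (n + 1) → ℝ} {C : ℝ}
    (h : ∀ i : Fin n, c i.castSucc ≤ c i.succ ∧
      c i.succ - c i.castSucc ≤ C * (q i.succ - q i.castSucc)) (hq : Monotone q)
    (p p' : Fin (n + 1)) : |c p - c p'| ≤ C * |q p - q p'| := by
  have hc : Monotone c := Fin.monotone_iff_le_succ.2 fun i => (h i).1
  have ha : Antitone fun p => c p - C * q p := Fin.antitone_iff_succ_le.2 fun i => by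
    have := (h i).2
    linarith [mul_sub C (q i.succ) (q i.castSucc)]
  rcases le_total p p' with hp | hp
  · have h0 : c p' - C * q p' ≤ c p - C * q p := ha hp
    rw [abs_sub_comm (c p), abs_sub_comm (q p), abs_of_nonneg (sub_nonneg.2 (hc hp)),
      abs_of_nonneg (sub_nonneg.2 (hq hp))]
    linarith
  · have h0 : c p - C * q p ≤ c p' - C * q p' := ha hp
    rw [abs_of_nonneg (sub_nonneg.2 (hc hp)), abs_of_nonneg (sub_nonneg.2 (hq hp))]
    linarith

/-- The uniform bound. -/
theorem sqPath_lip (hφ : Curv D a b φ) {r : ℕ} {m : Fin r → ℝ} {q : Fin (r + 1) → ℝ}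
    (hm : ∀ i, 0 < m i) (hm1 : ∀ i, m i < 1) (hq : Monotone q)
    (hS : q (Fin.last r) - q 0 ≤ S) (p p' : Fin (r + 1)) :
    |sqPath φ m q p - sqPath φ m q p'| ≤
      (|a| + |b|) ^ 2 * momentBound (D * Real.sqrt S) * |q p - q p'| := by
  refine diff_le_of_step (fun i => ?_) hq p p'
  have hF := hφ.level hm hm1 q i.succ
  have hu := hF.toIsLip.bm
  have hG := bm_tilt (δ := q i.succ - q i.castSucc) hF.toIsLip (hm i).le (hm1 i).le hu
  have hv := bm_tilt (δ := q i.succ - q i.castSucc) hF.toIsLip (hm i).le (hm1 i).le hu.sq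
  have hδ : 0 ≤ q i.succ - q i.castSucc := sub_nonneg.2 (hq i.castSucc_le_succ)
  have hδS : q i.succ - q i.castSucc ≤ S :=
    le_trans (sub_le_sub (hq (Fin.le_last _)) (hq (Fin.zero_le _))) hS
  have huL : IsLip (|a| + |b|) (deriv (Parisi.level m q φ i.succ)) := ⟨hF.hd2, hF.bm2.bound⟩
  set C := (|a| + |b|) ^ 2 * momentBound (D * Real.sqrt S)
  have e1 : sqPath φ m q i.succ = ∫ g, down m q φ i.castSucc
      (tilt (m i) (q i.succ - q i.castSucc) (level m q φ i.succ)
        fun x => deriv (level m q φ i.succ) x ^ 2) (Real.sqrt (q 0) * g) ∂gaussianReal 0 1 := by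
    simp only [sqPath, down_succ m q i]
  have e2 : sqPath φ m q i.castSucc = ∫ g, down m q φ i.castSucc
      (fun x => tilt (m i) (q i.succ - q i.castSucc) (level m q φ i.succ)
        (deriv (level m q φ i.succ)) x ^ 2) (Real.sqrt (q 0) * g) ∂gaussianReal 0 1 := by
    simp only [sqPath, level_castSucc m q i, deriv_layer hF.toIsLip (hm i) (hm1 i).le]
  have up := down_facts hφ hm hm1 q i.castSucc (C * (q i.succ - q i.castSucc)) hv hG.sq fun y => by
    have := tilt_var_le_mul hF.toIsLip (hm i).le (hm1 i).le hu huL hδ hδS y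
    linarith
  have dn := down_facts hφ hm hm1 q i.castSucc 0 hG.sq hv fun y => by
    have := (tilt_var_le (δ := q i.succ - q i.castSucc) hF.toIsLip (hm i).le (hm1 i).le hu 0 y).2.2
    linarith
  have hint : ∀ {K : ℝ} {h : ℝ → ℝ}, Bm K h →
      Integrable (fun g => h (Real.sqrt (q 0) * g)) (gaussianReal 0 1) := fun hh =>
    (integrable_const _).mono' (hh.meas.comp (by fun_prop)).aestronglyMeasurable
      (Eventually.of_forall fun g => hh.bound _)
  rw [e1, e2]
  constructor
  · exact integral_mono (hint dn.1) (hint up.1) fun g => (dn.2 _).trans (le_of_eq (add_zero _))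
  · rw [← integral_sub (hint up.1) (hint dn.1)]
    refine (integral_mono ((hint up.1).sub (hint dn.1)) (integrable_const _) fun g =>
      sub_le_iff_le_add'.2 (up.2 _)).trans (le_of_eq ?_)
    simp

lemma curv_of_smooth {f : ℝ → ℝ} {A : ℝ} (hf : Smooth f A) : Curv A A (A + A ^ 2) f where
  hd := hf.d0
  bound := hf.b1
  hd2 := hf.d1
  lo y := (abs_le.1 (hf.b2 y)).1
  hi y := add_le_add (abs_le.1 (hf.b2 y)).2
    (by rw [← sq_abs]; exact pow_le_pow_left₀ (abs_nonneg _) (hf.b1 y) 2)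

lemma hasDerivAt_logCosh (x : ℝ) : HasDerivAt logCosh (Real.sinh x / Real.cosh x) x :=
  (Real.hasDerivAt_cosh x).log (Real.cosh_pos x).ne'

lemma curv_logCosh : Curv 1 0 1 logCosh := by
  have hd : deriv logCosh = fun x => Real.sinh x / Real.cosh x :=
    funext fun x => (hasDerivAt_logCosh x).deriv
  have hd2 : ∀ x, HasDerivAt (deriv logCosh) (1 / Real.cosh x ^ 2) x := fun x => by
    rw [hd]
    refine ((Real.hasDerivAt_sinh x).div (Real.hasDerivAt_cosh x)
      (Real.cosh_pos x).ne').congr_deriv ?_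
    rw [← Real.cosh_sq_sub_sinh_sq x]
    ring
  refine ⟨⟨fun x => (hasDerivAt_logCosh x).differentiableAt, fun x => ?_⟩,
    fun x => (hd2 x).differentiableAt, fun x => ?_, fun x => ?_⟩
  · rw [hd, abs_div, abs_of_pos (Real.cosh_pos x), div_le_one (Real.cosh_pos x), abs_le]
    have h1 : Real.sinh x < Real.cosh x := Real.sinh_lt_cosh x
    have h2 : Real.sinh (-x) < Real.cosh (-x) := Real.sinh_lt_cosh (-x)
    rw [Real.sinh_neg, Real.cosh_neg] at h2
    constructor <;> linarith
  · rw [(hd2 x).deriv, neg_zero]; positivity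
  · rw [(hd2 x).deriv, hd, div_pow, ← add_div, div_le_one (pow_pos (Real.cosh_pos x) 2)]
    linarith [Real.cosh_sq_sub_sinh_sq x]

end Vale.Agent.P157.Parisi.Full.Lip

namespace Vale.Agent.P157.Parisi.Full

open Lip

/-- Module P1. -/
theorem slopeLip : SlopeLipStmt := by
  intro f A hf
  refine ⟨(|A| + |A + A ^ 2|) ^ 2 * momentBound (A * Real.sqrt 1),
    mul_nonneg (sq_nonneg _) (momentBound_nonneg _), fun ξ p p' => ?_⟩
  have hφ : Curv A A (A + A ^ 2) (topMean f (1 - ξ.q (Fin.last ξ.r))) := by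
    rw [topMean_eq]
    exact (curv_of_smooth hf).layer one_pos le_rfl
  exact sqPath_lip hφ ξ.isPath.pos ξ.isPath.lt_one ξ.isPath.mono
    (by linarith [ξ.isPath.le_one, ξ.isPath.nonneg]) p p'

/-- Module P2. -/
theorem siteLip : SiteLipStmt := by
  intro S
  refine ⟨(|(0 : ℝ)| + |(1 : ℝ)|) ^ 2 * momentBound (1 * Real.sqrt S),
    mul_nonneg (sq_nonneg _) (momentBound_nonneg _), fun r m ρ hρ hS p p' => ?_⟩
  exact sqPath_lip curv_logCosh hρ.pos hρ.lt_one hρ.mono (by linarith [hρ.nonneg]) p p'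

end Vale.Agent.P157.Parisi.Full

end
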