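import Vale.Agent.P157.Full.Bernstein
import Vale.Agent.P157.Full.Lip
import Vale.Agent.P157.Full.CutLimit.Main
import Vale.Agent.P157.Full.CutSwap
import Vale.Agent.P157.Full.Concave.Main

/-!
Asymptotic cascades of the system are stationary: the conjugate of the field path of a limit
cascade is its overlap path.
-/

noncomputable section

open MeasureTheory ProbabilityTheory Filter Polynomial
open scoped BigOperators NNReal ENNReal Topology

namespace Vale.Agent.P157.Parisi.Full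

open Vale.Agent.P168.Cascade (Exps)
open Site (rhoOf deltaOf cut)

variable {α A C : ℝ} {f : ℝ → ℝ} {Nj : ℕ → ℕ} {xj : ∀ j, Fin (Nj j) → ℝ} {μj : ℕ → ℝ}
  {ξ : ℕ → Path}

/-- The field path of a path is a field path. -/
lemma isFieldPath_rhoOf (hα : 0 ≤ α) (hf : Smooth f A) (η : Path) :
    IsFieldPath η.m (rhoOf α f η) :=
  let h := Site.slope_facts slope_spec hf hα η
  ⟨η.isPath.pos, η.isPath.lt_one, η.isPath.strictMono, h.1, h.2.1⟩

/-- A Lipschitz extension of values given at finitely many points. -/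
lemma exists_lip_extend {ι : Type} [Fintype ι] [Nonempty ι] (q φ : ι → ℝ) {L : ℝ} (hL : 0 ≤ L)
    (h : ∀ p p', |φ p - φ p'| ≤ L * |q p - q p'|) :
    ∃ Φ : ℝ → ℝ, (∀ p, Φ (q p) = φ p) ∧ ∀ s t, |Φ s - Φ t| ≤ L * |s - t| := by
  refine ⟨fun t => Finset.univ.inf' Finset.univ_nonempty fun p => φ p + L * |t - q p|,
    fun p => le_antisymm ?_ ?_, fun s t => ?_⟩
  · exact (Finset.inf'_le (s := Finset.univ) (fun p' => φ p' + L * |q p - q p'|)
      (Finset.mem_univ p)).trans_eq (by simp)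
  · exact Finset.le_inf' _ _ fun p' _ => by linarith [(abs_le.1 (h p p')).2]
  · have key : ∀ s t, (Finset.univ.inf' Finset.univ_nonempty fun p => φ p + L * |s - q p|) ≤
        (Finset.univ.inf' Finset.univ_nonempty fun p => φ p + L * |t - q p|) + L * |s - t| :=
      fun s t => by
        rw [← sub_le_iff_le_add]
        refine Finset.le_inf' _ _ fun p _ => ?_
        rw [sub_le_iff_le_add]
        refine (Finset.inf'_le (fun p => φ p + L * |s - q p|) (Finset.mem_univ p)).trans ?_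
        have := mul_le_mul_of_nonneg_left (abs_sub_le s t (q p)) hL
        linarith
    have k1 := key t s
    rw [abs_sub_comm t s] at k1
    rw [abs_le]
    dsimp only
    constructor <;> linarith [key s t]

/-- The moments of the defect vanish. -/
lemma moment_defect (hP : CavPairStmt) (hT : TargetStmt)
    (h : Site.Setup α A C f Nj xj μj ξ) (hx : ∀ j i, xj j i ∈ Set.Icc (1 : ℝ) 2) (k : ℕ) :
    Tendsto (fun j => ∑ p, weight (ξ j).m p * ((ξ j).q p ^ k *
      (siteSlope (ξ j).m (rhoOf α f (ξ j)) p - (ξ j).q p))) atTop (𝓝 0) := by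
  rw [Metric.tendsto_nhds]
  intro ε hε
  have he : 0 < ε / 8 := by linarith
  obtain ⟨T₀, hT₀⟩ := hP α A C f h.alpha h.smooth k (ε / 8) he
  obtain ⟨K₁, hK₁⟩ := cutSwap α A C f h.alpha h.smooth k (max T₀ 0) (le_max_right _ _) (ε / 8) he
  obtain ⟨K₂, hK₂⟩ := cutSwap α A C f h.alpha h.smooth (k + 1) (max T₀ 0) (le_max_right _ _)
    (ε / 8) he
  obtain ⟨K₃, hK₃⟩ := hT (α * A ^ 2) k (ε / 8) he
  obtain ⟨K₄, hK₄⟩ := hT (α * A ^ 2) (k + 1) (ε / 8) he
  set K := K₁ + K₂ + K₃ + K₄ + 1 with hKdef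
  have hK : 0 < K := Nat.succ_pos _
  have hc : ∀ y, 1 ≤ cut K y ∧ cut K y ≤ 2 * Real.cosh K := fun y =>
    ⟨Site.one_le_cut hK y, (Site.cut_le K y).trans (by linarith [Real.cosh_pos (K : ℝ)])⟩
  have hs : ∀ y, |sinCut K y| ≤ 2 * Real.cosh K := fun y =>
    (abs_sinCut_le hK y).trans (mul_le_mul_of_nonneg_left (Site.cut_le K y) zero_le_two)
  have hc' : ∀ y, |cut K y| ≤ 2 * Real.cosh K := fun y => by
    rw [abs_of_nonneg (zero_le_one.trans (hc y).1)]; exact (hc y).2
  filter_upwards [h.large.eventually (hT₀ _ (le_max_left T₀ 0)),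
    hK₁ K (by omega) Nj xj μj ξ h, hK₂ K (by omega) Nj xj μj ξ h,
    Metric.tendsto_nhds.1 (CutLimit.cut_limit_stmt α A C f Nj xj μj ξ h k (2 * Real.cosh K)
      (cut K) (sinCut K) (Site.isTrig_cut K) hc (Or.inr (isSinTrig_sinCut K)) hs) (ε / 8) he,
    Metric.tendsto_nhds.1 (CutLimit.cut_limit_stmt α A C f Nj xj μj ξ h (k + 1) (2 * Real.cosh K)
      (cut K) (cut K) (Site.isTrig_cut K) hc (Or.inl (Site.isTrig_cut K)) hc') (ε / 8) he]
    with j h1 h2 h3 h4 h5
  obtain ⟨hρm, hρ0, hδ, hS⟩ := Site.slope_facts slope_spec h.smooth h.alpha.le (ξ j)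
  have h6 := (hK₃ K (by omega) _ (ξ j).m (ξ j).q _ _ (ξ j).isPath
    (isFieldPath_rhoOf h.alpha.le h.smooth (ξ j)) hδ hS).1
  have h7 := (hK₄ K (by omega) _ (ξ j).m (ξ j).q _ _ (ξ j).isPath
    (isFieldPath_rhoOf h.alpha.le h.smooth (ξ j)) hδ hS).2
  have h8 := h1 (μj j) (h.mu_nonneg j) (h.mu_near j) (xj j) (hx j)
  rw [Real.dist_eq] at h4 h5 ⊢
  have e : ∑ p, weight (ξ j).m p * ((ξ j).q p ^ k *
      (siteSlope (ξ j).m (rhoOf α f (ξ j)) p - (ξ j).q p)) =
      ∑ p, weight (ξ j).m p * ((ξ j).q p ^ k * siteSlope (ξ j).m (rhoOf α f (ξ j)) p) -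
        ∑ p, weight (ξ j).m p * (ξ j).q p ^ (k + 1) := by
    rw [← Finset.sum_sub_distrib]
    exact Finset.sum_congr rfl fun p _ => by ring
  rw [sub_zero, e]
  have g2 := abs_le.1 h2.1
  have g3 := abs_le.1 h3.2
  have g4 := abs_lt.1 h4
  have g5 := abs_lt.1 h5
  have g6 := abs_le.1 h6
  have g7 := abs_le.1 h7
  have g8 := abs_le.1 h8
  rw [abs_lt]
  constructor <;> linarith

/-- Asymptotic cascades of the system are stationary. -/
theorem fixed (hP : CavPairStmt) (hT : TargetStmt) : FixedStmt := by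
  intro α A C f Nj xj μj ξ h hx
  obtain ⟨C₁, hC₁0, hC₁⟩ := slopeLip f A h.smooth
  obtain ⟨C₂, hC₂0, hC₂⟩ := siteLip (α * A ^ 2)
  set L := C₂ * (α * C₁) + 1 with hLdef
  have hα := h.alpha.le
  have hL : 0 ≤ L := by positivity
  set c : ∀ j, Fin ((ξ j).r + 1) → ℝ := fun j => siteSlope (ξ j).m (rhoOf α f (ξ j)) with hc
  set φ : ∀ j, Fin ((ξ j).r + 1) → ℝ := fun j p => c j p - (ξ j).q p with hφ
  have hw : ∀ j p, 0 ≤ weight (ξ j).m p := fun j p => Up.weight_nonneg ⟨(ξ j).isPath.pos, (ξ j).isPath.lt_one, (ξ j).isPath.strictMono⟩ p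
  have hq : ∀ j p, (ξ j).q p ∈ Set.Icc (0 : ℝ) 1 := fun j p => CutLimit.path_mem (ξ j) p
  have hφ1 : ∀ j p, |φ j p| ≤ 1 := fun j p => by
    have h1 := (Concave.siteSlope_spec _ _ _ (isFieldPath_rhoOf hα h.smooth (ξ j))).2 p
    have h2 := hq j p
    rw [Set.mem_Icc] at h2
    rw [abs_le]
    simp only [hφ, hc]
    constructor <;> linarith
  have hlip : ∀ j p p', |φ j p - φ j p'| ≤ L * |(ξ j).q p - (ξ j).q p'| := by
    intro j p p'
    obtain ⟨hρm, hρ0, hδ, hS⟩ := Site.slope_facts slope_spec h.smooth hα (ξ j)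
    have h1 := hC₂ _ _ _ (isFieldPath_rhoOf hα h.smooth (ξ j)) (by linarith) p p'
    have h2 := hC₁ (ξ j) p p'
    have e : φ j p - φ j p' = (c j p - c j p') - ((ξ j).q p - (ξ j).q p') := by
      simp only [hφ]; ring
    rw [e, hLdef, add_mul, one_mul]
    refine (abs_sub _ _).trans (add_le_add (h1.trans ?_) le_rfl)
    rw [mul_assoc, mul_assoc]
    refine mul_le_mul_of_nonneg_left ?_ hC₂0
    rw [Site.rhoOf, Site.rhoOf, ← mul_sub, abs_mul, abs_of_nonneg hα]
    exact mul_le_mul_of_nonneg_left h2 hα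
  choose Φ hΦq hΦl using fun j => exists_lip_extend (ξ j).q (φ j) hL (hlip j)
  have hΦb : ∀ j, ∀ t ∈ Set.Icc (0 : ℝ) 1, |Φ j t| ≤ 1 + L := by
    intro j t ht
    have h1 := hΦl j t ((ξ j).q 0)
    rw [hΦq] at h1
    have h2 : |t - (ξ j).q 0| ≤ 1 := by
      have := hq j 0
      rw [Set.mem_Icc] at this ht
      rw [abs_le]; constructor <;> linarith
    have h3 : |Φ j t| ≤ |φ j 0| + |Φ j t - φ j 0| := by
      linarith [abs_sub_abs_le_abs_sub (Φ j t) (φ j 0)]
    linarith [hφ1 j 0, mul_le_mul_of_nonneg_left h2 hL]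
  -- the second moment of the defect
  have hsq : Tendsto (fun j => ∑ p, weight (ξ j).m p * φ j p ^ 2) atTop (𝓝 0) := by
    rw [Metric.tendsto_nhds]
    intro ε hε
    obtain ⟨n, hn0, hn⟩ : ∃ n : ℕ, 0 < n ∧ L / Real.sqrt n ≤ ε / 4 := by
      have h1 := (tendsto_const_nhds (x := L)).div_atTop
        (Real.tendsto_sqrt_atTop.comp (tendsto_natCast_atTop_atTop (R := ℝ)))
      exact ((eventually_gt_atTop 0).and (h1.eventually (eventually_le_nhds (by linarith)))).exists
    set S : ℕ → ℕ → ℝ := fun j i =>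
      ∑ p, weight (ξ j).m p * ((bernsteinPolynomial ℝ n i).eval ((ξ j).q p) * φ j p) with hS
    have hSlim : ∀ i, Tendsto (fun j => S j i) atTop (𝓝 0) := by
      intro i
      set B := bernsteinPolynomial ℝ n i
      have h1 := tendsto_finsetSum (Finset.range (B.natDegree + 1)) fun d _ =>
        (moment_defect hP hT h hx d).const_mul (B.coeff d)
      simp only [mul_zero, Finset.sum_const_zero] at h1
      refine h1.congr fun j => ?_
      simp only [hS, Finset.mul_sum]
      rw [Finset.sum_comm]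
      refine Finset.sum_congr rfl fun p _ => ?_
      rw [eval_eq_sum_range, Finset.sum_mul, Finset.mul_sum]
      exact Finset.sum_congr rfl fun d _ => by simp only [hφ, hc]; ring
    have hS' : Tendsto (fun j => (1 + L) * ∑ i ∈ Finset.range (n + 1), |S j i|) atTop (𝓝 0) := by
      simpa using (tendsto_finsetSum (Finset.range (n + 1)) fun i _ => (hSlim i).abs).const_mul
        (1 + L)
    filter_upwards [hS'.eventually (eventually_le_nhds (show 0 < ε / 4 by linarith))] with j hj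
    rw [Real.dist_eq, sub_zero, abs_of_nonneg
      (Finset.sum_nonneg fun p _ => mul_nonneg (hw j p) (sq_nonneg _))]
    set D : Fin ((ξ j).r + 1) → ℝ := fun p => Φ j ((ξ j).q p) -
      ∑ i ∈ Finset.range (n + 1), Φ j (i / n) * (bernsteinPolynomial ℝ n i).eval ((ξ j).q p)
    have hD : ∀ p, |D p| ≤ ε / 4 := fun p => (bern_approx hL (hΦl j) hn0 (hq j p)).trans hn
    have e : ∑ p, weight (ξ j).m p * φ j p ^ 2 = ∑ p, weight (ξ j).m p * (φ j p * D p) +
        ∑ i ∈ Finset.range (n + 1), Φ j (i / n) * S j i := by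
      simp only [hS, Finset.mul_sum]
      rw [Finset.sum_comm (s := Finset.range (n + 1)), ← Finset.sum_add_distrib]
      refine Finset.sum_congr rfl fun p _ => ?_
      simp only [D, hΦq, mul_sub, Finset.mul_sum]
      rw [sub_add, ← Finset.sum_sub_distrib]
      rw [Finset.sum_eq_zero fun i _ => by ring]
      ring
    rw [e]
    have g1 : ∑ p, weight (ξ j).m p * (φ j p * D p) ≤ ε / 4 := by
      calc _ ≤ ∑ p, weight (ξ j).m p * (ε / 4) := Finset.sum_le_sum fun p _ => by
              refine mul_le_mul_of_nonneg_left ((le_abs_self _).trans ?_) (hw j p)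
              rw [abs_mul]
              exact (mul_le_of_le_one_left (abs_nonneg _) (hφ1 j p)).trans (hD p)
        _ = _ := by rw [← Finset.sum_mul, Up.sum_weight, one_mul]
    have g2 : ∑ i ∈ Finset.range (n + 1), Φ j (i / n) * S j i ≤ ε / 4 := by
      refine le_trans ?_ hj
      rw [Finset.mul_sum]
      refine Finset.sum_le_sum fun i hi => (le_abs_self _).trans ?_
      rw [abs_mul]
      refine mul_le_mul_of_nonneg_right (hΦb j _ ⟨by positivity, ?_⟩) (abs_nonneg _)
      rw [div_le_one (Nat.cast_pos.2 hn0)]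
      exact_mod_cast Nat.lt_succ_iff.1 (Finset.mem_range.1 hi)
    linarith
  rw [Metric.tendsto_nhds]
  intro ε hε
  filter_upwards [hsq.eventually (eventually_lt_nhds (show 0 < ε ^ 2 / 4 by positivity))] with j hj
  rw [Real.dist_eq, sub_zero, abs_of_nonneg
    (Finset.sum_nonneg fun p _ => mul_nonneg (hw j p) (abs_nonneg _))]
  have h1 : ∑ p, weight (ξ j).m p * |φ j p| ≤
      ∑ p, weight (ξ j).m p * (φ j p ^ 2 / ε + ε / 4) := Finset.sum_le_sum fun p _ => by
    refine mul_le_mul_of_nonneg_left ?_ (hw j p)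
    rw [div_add' _ _ _ hε.ne', le_div_iff₀ hε]
    nlinarith [sq_nonneg (|φ j p| - ε / 2), sq_abs (φ j p)]
  simp only [mul_add, mul_div_assoc', Finset.sum_add_distrib, ← Finset.sum_div, ← Finset.sum_mul,
    Up.sum_weight, one_mul] at h1
  have h2 : (∑ p, weight (ξ j).m p * φ j p ^ 2) / ε < ε / 4 := by
    rw [div_lt_iff₀ hε]; nlinarith
  simp only [hφ, hc] at h1 h2 ⊢
  linarith

end Vale.Agent.P157.Parisi.Full
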