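import Vale.Agent.P157.Full.BaseFacts

/-! Integration by parts in the perturbation, over a random base. -/

noncomputable section

open MeasureTheory ProbabilityTheory
open scoped BigOperators NNReal ENNReal

namespace Vale.Agent.P157.Parisi.Full.BaseU

open Vale.Agent.P157.Parisi.Perturb (absJ gauss_rav_ibp abs_le_absSum rav_first)
open Vale.Agent.P157.Parisi.Sphere (Conf)
open Vale.Agent.P157.Parisi.Sphere.Perturb ( gObs abs_gObs_le abs_overlap_pow_le sum_feat_mul
  overlap_self measurable_gObs)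
open Vale.Agent.P168.Limit.SelfAvg (field)
open Vale.Agent.P168.Limit (gw gav rav gw_nonneg gw_le_one sum_gw abs_rav_le rav_const
  rav_const_mul rav_sum)

variable {N L : ℕ} {P : Sphere.Pts N} (B : Base P) {f : ℝ → ℝ} {s μ : ℝ} {x : Fin L → ℝ}

/-- The mean of a function of replicas over a base. -/
def bExp (f : ℝ → ℝ) (s μ : ℝ) (x : Fin L → ℝ) (m : ℕ) (F : (Fin m → Conf P) → ℝ) : ℝ :=
  ∫ z, rav m (baseH B f s x z) F ∂baseLaw B L μ

lemma repMean_bExp (m : ℕ) (F : (Fin m → Conf P) → ℝ) :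
    (baseState B f s x μ).repMean m F = bExp B f s μ x m F := by
  refine integral_congr_ae (ae_of_all _ fun z => ?_)
  refine Finset.sum_congr rfl fun σ _ => ?_
  rw [Finset.prod_congr rfl fun l _ => baseW_eq B f s x μ z (σ l)]

lemma measurable_rav (hf : Continuous f) (m : ℕ) (F : (Fin m → Conf P) → ℝ) :
    Measurable fun z : Dis N L × B.Ω => rav m (baseH B f s x z) F :=
  Finset.measurable_sum _ fun _ _ =>
    (Finset.measurable_prod _ fun _ _ => measurable_gw B hf s x _).mul_const _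

lemma integrable_rav (hf : Continuous f) (m : ℕ) (F : (Fin m → Conf P) → ℝ) :
    Integrable (fun z => rav m (baseH B f s x z) F) (baseLaw B L μ) :=
  Integrable.of_bound (measurable_rav B hf m F).aestronglyMeasurable
    (∑ σ, |F σ|) (ae_of_all _ fun _ => abs_rav_le m _ F (abs_le_absSum F))

lemma abs_bExp_le (m : ℕ) {F : (Fin m → Conf P) → ℝ} {C : ℝ} (h : ∀ σ, |F σ| ≤ C) :
    |bExp B f s μ x m F| ≤ C := by
  rw [← Real.norm_eq_abs]
  exact (norm_integral_le_of_norm_le_const (C := C)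
    (ae_of_all _ fun d => abs_rav_le m _ F h)).trans (le_of_eq (by simp))

lemma bExp_sum (hf : Continuous f) {ι : Type*} (S : Finset ι) (m : ℕ)
    (F : ι → (Fin m → Conf P) → ℝ) :
    bExp B f s μ x m (fun σ => ∑ a ∈ S, F a σ) = ∑ a ∈ S, bExp B f s μ x m (F a) := by
  simp only [bExp, rav_sum]
  exact integral_finsetSum _ fun a _ => integrable_rav B hf m (F a)

lemma bExp_const_mul (m : ℕ) (c : ℝ) (F : (Fin m → Conf P) → ℝ) :
    bExp B f s μ x m (fun σ => c * F σ) = c * bExp B f s μ x m F := by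
  simp only [bExp, rav_const_mul, integral_const_mul]

lemma integrable_coord_rav (hf : Continuous f) (c : PertIdx N L) (m : ℕ)
    (G : (Fin m → Conf P) → ℝ) :
    Integrable (fun z : Dis N L × B.Ω => z.1.2.2 c * rav m (baseH B f s x z) G) (baseLaw B L μ) :=
  (((Vale.Agent.P157.Parisi.Perturb.integrable_coord c).comp_fst B.law).abs.mul_const
      (∑ σ, |G σ|)).mono'
    (((measurable_pi_apply c).comp (measurable_snd.comp (measurable_snd.comp measurable_fst))).mul
      (measurable_rav B hf m G)).aestronglyMeasurable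
    (ae_of_all _ fun z => by
      rw [Real.norm_eq_abs, abs_mul]
      exact mul_le_mul_of_nonneg_left (abs_rav_le m _ G (abs_le_absSum G)) (abs_nonneg _))

/-- Integration by parts in one coordinate. -/
theorem ibp_coord (hf : Continuous f) (c : PertIdx N L) (m : ℕ) (G : (Fin m → Conf P) → ℝ) :
    ∫ z, z.1.2.2 c * rav m (baseH B f s x z) G ∂baseLaw B L μ =
      s * x c.1 * ((∑ q : Fin m, bExp B f s μ x m fun σ => G σ * Sphere.Perturb.feat c (σ q)) -
        (m : ℝ) * bExp B f s μ x (m + 1)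
          fun σ => G (fun l => σ l.castSucc) * Sphere.Perturb.feat c (σ (Fin.last m))) := by
  have i1 := fun q : Fin m =>
    integrable_rav B (s := s) (μ := μ) (x := x) hf m fun σ => G σ * Sphere.Perturb.feat c (σ q)
  have i2 := integrable_rav B (s := s) (μ := μ) (x := x) hf (m + 1)
    fun σ => G (fun l => σ l.castSucc) * Sphere.Perturb.feat c (σ (Fin.last m))
  simp only [bExp]
  rw [← integral_finsetSum _ fun q _ => i1 q, ← integral_const_mul (m : ℝ),
    ← integral_sub (integrable_finsetSum _ fun q _ => i1 q) (i2.const_mul _),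
    ← integral_const_mul (s * x c.1)]
  refine integral_eq B (integrable_coord_rav B hf c m G)
    (((integrable_finsetSum _ fun q _ => i1 q).sub (i2.const_mul _)).const_mul _) fun n g ω => ?_
  have e : ∀ J, baseH B f s x ((n, g, J), ω) = fun σ =>
      (logV B ω σ + ∑ a ∈ Finset.range n, f (dot (g a) (Sphere.unitVec σ))) +
        field (fun (τ : Conf P) (c : PertIdx N L) => s * x c.1 * Sphere.Perturb.feat c τ) J σ := fun J => funext fun σ => by
    simp only [baseH, Sphere.totalH, Sphere.Perturb.pertH_eq_field, add_assoc]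
  simp only [e]
  rw [gauss_rav_ibp]
  refine integral_congr_ae (ae_of_all _ fun J => ?_)
  simp only [mul_left_comm _ (s * x c.1), rav_const_mul, ← Finset.mul_sum]
  ring

/-- The mean of a bounded function of replicas times the observable of replica `0`. -/
theorem ibp_obs [NeZero N] (hf : Continuous f) (p : Fin L) (n : ℕ)
    (F : (Fin (n + 1) → Conf P) → ℝ) :
    ∫ z, rav (n + 1) (baseH B f s x z) (fun σ => F σ * Sphere.Perturb.gObs p z.1.2.2 (σ 0)) ∂baseLaw B L μ =
      s * x p * (1 / 4) ^ (p.val + 1) *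
        ((bExp B f s μ x (n + 1) F + ∑ l : Fin n,
            bExp B f s μ x (n + 1) fun σ => F σ * Sphere.overlap (σ 0) (σ l.succ) ^ (p.val + 1)) -
          ((n : ℝ) + 1) * bExp B f s μ x (n + 2) fun σ =>
            F (fun l => σ l.castSucc) * Sphere.overlap (σ 0) (σ (Fin.last (n + 1))) ^ (p.val + 1)) := by
  have e : ∀ z : Dis N L × B.Ω,
      rav (n + 1) (baseH B f s x z) (fun σ => F σ * Sphere.Perturb.gObs p z.1.2.2 (σ 0)) =
        ∑ v : Fin (p.val + 1) → Fin N,
          z.1.2.2 ⟨p, v⟩ * rav (n + 1) (baseH B f s x z) (fun σ => F σ * Sphere.Perturb.feat ⟨p, v⟩ (σ 0)) := by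
    intro z
    simp only [← rav_const_mul, ← rav_sum]
    refine congrArg _ (funext fun σ => ?_)
    simp only [Sphere.Perturb.gObs, Finset.mul_sum]
    exact Finset.sum_congr rfl fun v _ => by ring
  simp only [e]
  rw [integral_finsetSum _ fun v _ => integrable_coord_rav B hf _ _ _]
  simp only [ibp_coord B hf]
  have hS : ∀ (k : ℕ) (G : (Fin k → Conf P) → ℝ) (a b : (Fin k → Conf P) → Conf P),
      ∑ v : Fin (p.val + 1) → Fin N,
          bExp B f s μ x k (fun σ => G σ * Sphere.Perturb.feat ⟨p, v⟩ (a σ) * Sphere.Perturb.feat ⟨p, v⟩ (b σ)) =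
        (1 / 4) ^ (p.val + 1) *
          bExp B f s μ x k (fun σ => G σ * Sphere.overlap (a σ) (b σ) ^ (p.val + 1)) := by
    intro k G a b
    rw [← bExp_sum B hf, ← bExp_const_mul]
    refine congrArg _ (funext fun σ => ?_)
    simp only [mul_assoc (G σ), ← Finset.mul_sum, sum_feat_mul]
    ring
  rw [← Finset.mul_sum, Finset.sum_sub_distrib, ← Finset.mul_sum, Finset.sum_comm,
    Fin.sum_univ_succ, hS (n + 1) F (fun σ => σ 0) fun σ => σ 0,
    Finset.sum_congr rfl fun l _ => hS (n + 1) F (fun σ => σ 0) fun σ => σ (Fin.succ l),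
    hS (n + 1 + 1) (fun σ => F fun l => σ l.castSucc) (fun σ => σ (Fin.castSucc 0))
      fun σ => σ (Fin.last (n + 1)), ← Finset.mul_sum]
  simp only [overlap_self, one_pow, mul_one, Fin.castSucc_zero, Nat.cast_add, Nat.cast_one]
  ring

/-- The mean of the observable. -/
def obsMean (f : ℝ → ℝ) (s μ : ℝ) (p : Fin L) (x : Fin L → ℝ) : ℝ :=
  ∫ z, gav (baseH B f s x z) (Sphere.Perturb.gObs p z.1.2.2) ∂baseLaw B L μ

/-- The fluctuation of the observable. -/
def fluct (f : ℝ → ℝ) (s μ : ℝ) (p : Fin L) (x : Fin L → ℝ) : ℝ :=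
  ∫ z, gav (baseH B f s x z) (fun σ => |Sphere.Perturb.gObs p z.1.2.2 σ - obsMean B f s μ p x|) ∂baseLaw B L μ

theorem mean_obs [NeZero N] (hf : Continuous f) (p : Fin L) :
    obsMean B f s μ p x = s * x p * (1 / 4) ^ (p.val + 1) *
        (1 - bExp B f s μ x 2 fun σ : Fin 2 → Conf P => Sphere.overlap (σ 0) (σ 1) ^ (p.val + 1)) := by
  have h := ibp_obs B (s := s) (μ := μ) (x := x) hf p 0 (fun _ : Fin 1 → Conf P => (1 : ℝ))
  have e1 : bExp B f s μ x 1 (fun _ : Fin 1 → Conf P => (1 : ℝ)) = 1 := by simp [bExp, rav_const]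
  simp only [one_mul, rav_first] at h
  rw [obsMean, h, e1, show (Fin.last (0 + 1) : Fin 2) = 1 from rfl]
  simp

lemma integrable_obs [NeZero N] (μ : ℝ) (p : Fin L) (σ : Conf P) :
    Integrable (fun z : Dis N L × B.Ω => Sphere.Perturb.gObs p z.1.2.2 σ) (baseLaw B L μ) :=
  (integrable_absJ' B μ).mono' ((measurable_gObs p σ).comp
    (measurable_snd.comp (measurable_snd.comp measurable_fst))).aestronglyMeasurable
    (ae_of_all _ fun z => abs_gObs_le p _ σ)

/-- The identity up to the fluctuation. -/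
theorem identity_le [NeZero N] (hf : Continuous f) (hs : 0 < s) (p : Fin L) (hx : 1 ≤ x p) (n : ℕ)
    {F : (Fin (n + 1) → Conf P) → ℝ} (hF : ∀ σ, |F σ| ≤ 1) :
    |((n : ℝ) + 1) * bExp B f s μ x (n + 2)
        (fun σ => F (fun l => σ l.castSucc) *
          Sphere.overlap (σ 0) (σ (Fin.last (n + 1))) ^ (p.val + 1)) -
      (bExp B f s μ x (n + 1) F *
          bExp B f s μ x 2 (fun σ : Fin 2 → Conf P => Sphere.overlap (σ 0) (σ 1) ^ (p.val + 1)) +
        ∑ l : Fin n,
          bExp B f s μ x (n + 1) fun σ => F σ * Sphere.overlap (σ 0) (σ l.succ) ^ (p.val + 1))| ≤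
      4 ^ (p.val + 1) / s * fluct B f s μ p x := by
  set κ := s * x p * (1 / 4 : ℝ) ^ (p.val + 1) with hκ
  set m := obsMean B f s μ p x with hm
  have hκpos : 0 < κ := mul_pos (mul_pos hs (by linarith)) (pow_pos (by norm_num) _)
  have hgi := fun σ => integrable_obs B μ p σ
  have hgw : ∀ σ : Conf P, Measurable fun z : Dis N L × B.Ω => gw (baseH B f s x z) σ :=
    measurable_gw B hf s x
  have iR : Integrable (fun z : Dis N L × B.Ω =>
      gav (baseH B f s x z) fun σ => |Sphere.Perturb.gObs p z.1.2.2 σ - m|) (baseLaw B L μ) :=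
    integrable_finsetSum _ fun σ _ =>
      ((hgi σ).sub (integrable_const m)).abs.bdd_mul (c := 1) (hgw σ).aestronglyMeasurable
        (ae_of_all _ fun z => by
          rw [Real.norm_eq_abs, abs_of_nonneg (gw_nonneg _ _)]; exact gw_le_one _ _)
  have iL : Integrable (fun z : Dis N L × B.Ω => rav (n + 1) (baseH B f s x z)
      fun σ => F σ * Sphere.Perturb.gObs p z.1.2.2 (σ 0)) (baseLaw B L μ) := by
    refine integrable_finsetSum _ fun σ _ => ?_
    simp only [← mul_assoc]
    refine (hgi _).bdd_mul (c := 1)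
      ((Finset.measurable_prod _ fun l _ => hgw (σ l)).mul_const _).aestronglyMeasurable
      (ae_of_all _ fun z => ?_)
    rw [Real.norm_eq_abs, abs_mul, Finset.abs_prod]
    exact mul_le_one₀ (Finset.prod_le_one (fun l _ => abs_nonneg _) fun l _ => by
      rw [abs_of_nonneg (gw_nonneg _ _)]; exact gw_le_one _ _) (abs_nonneg _) (hF _)
  have key : |∫ z, rav (n + 1) (baseH B f s x z) (fun σ => F σ * Sphere.Perturb.gObs p z.1.2.2 (σ 0))
      ∂baseLaw B L μ - m * bExp B f s μ x (n + 1) F| ≤ fluct B f s μ p x := by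
    rw [bExp, ← integral_const_mul, ← integral_sub iL ((integrable_rav B hf _ F).const_mul m)]
    refine abs_integral_le_integral_abs.trans (integral_mono_of_nonneg
      (ae_of_all _ fun z => abs_nonneg _) iR (ae_of_all _ fun z => ?_))
    simp only [← hm]
    rw [← rav_first n (baseH B f s x z) fun σ => |Sphere.Perturb.gObs p z.1.2.2 σ - m|, ← rav_const_mul]
    simp only [rav, ← Finset.sum_sub_distrib]
    refine (Finset.abs_sum_le_sum_abs _ _).trans (Finset.sum_le_sum fun σ _ => ?_)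
    rw [← mul_sub, abs_mul, abs_of_nonneg (Finset.prod_nonneg fun l _ => gw_nonneg _ _)]
    refine mul_le_mul_of_nonneg_left ?_ (Finset.prod_nonneg fun l _ => gw_nonneg _ _)
    rw [show F σ * Sphere.Perturb.gObs p z.1.2.2 (σ 0) - m * F σ = F σ * (Sphere.Perturb.gObs p z.1.2.2 (σ 0) - m) by ring,
      abs_mul]
    exact mul_le_of_le_one_left (abs_nonneg _) (hF _)
  rw [ibp_obs B hf p n F, hm, mean_obs B hf p, ← hκ] at key
  have hle : 1 / κ ≤ 4 ^ (p.val + 1) / s := by
    rw [div_le_div_iff₀ hκpos hs, hκ]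
    have e : (4 : ℝ) ^ (p.val + 1) * (1 / 4) ^ (p.val + 1) = 1 := by rw [← mul_pow]; norm_num
    calc 1 * s ≤ s * x p := by nlinarith
      _ = s * x p * ((4 : ℝ) ^ (p.val + 1) * (1 / 4) ^ (p.val + 1)) := by rw [e, mul_one]
      _ = _ := by ring
  have h0 : 0 ≤ fluct B f s μ p x := (abs_nonneg _).trans key
  refine le_trans ?_ (mul_le_mul_of_nonneg_right hle h0)
  rw [one_div_mul_eq_div, le_div_iff₀' hκpos]
  refine le_trans (le_of_eq ?_) key
  rw [← abs_of_pos hκpos, ← abs_mul, ← abs_neg, abs_of_pos hκpos]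
  ring_nf

/-- The trivial bound on the identity. -/
theorem identity_trivial (p : Fin L) (n : ℕ) {F : (Fin (n + 1) → Conf P) → ℝ}
    (hF : ∀ σ, |F σ| ≤ 1) :
    |((n : ℝ) + 1) * bExp B f s μ x (n + 2)
        (fun σ => F (fun l => σ l.castSucc) *
          Sphere.overlap (σ 0) (σ (Fin.last (n + 1))) ^ (p.val + 1)) -
      (bExp B f s μ x (n + 1) F *
          bExp B f s μ x 2 (fun σ : Fin 2 → Conf P => Sphere.overlap (σ 0) (σ 1) ^ (p.val + 1)) +
        ∑ l : Fin n,
          bExp B f s μ x (n + 1) fun σ => F σ * Sphere.overlap (σ 0) (σ l.succ) ^ (p.val + 1))| ≤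
      ((n : ℝ) + 1) * 2 := by
  have b : ∀ (m : ℕ) (G : (Fin m → Conf P) → ℝ), (∀ σ, |G σ| ≤ 1) →
      |bExp B f s μ x m G| ≤ 1 := fun m G h => abs_bExp_le B m h
  have hp : ∀ {ι : Type} (u : ι → ℝ) (a : ι) (σ τ : Conf P), |u a| ≤ 1 →
      |u a * Sphere.overlap σ τ ^ (p.val + 1)| ≤ 1 := fun u a σ τ h => by
    rw [abs_mul]
    exact mul_le_one₀ h (abs_nonneg _) (abs_overlap_pow_le _ _ _)
  refine (abs_sub _ _).trans ?_
  rw [show ((n : ℝ) + 1) * 2 = ((n : ℝ) + 1) * 1 + (1 * 1 + ∑ _l : Fin n, (1 : ℝ)) by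
    simp; ring]
  refine add_le_add ?_ ((abs_add_le _ _).trans (add_le_add ?_ ?_))
  · rw [abs_mul, abs_of_nonneg (by positivity : (0 : ℝ) ≤ (n : ℝ) + 1)]
    exact mul_le_mul_of_nonneg_left (b _ _ fun σ => hp _ _ _ _ (hF _)) (by positivity)
  · rw [abs_mul]
    exact mul_le_mul (b _ _ hF) (b _ _ fun σ => abs_overlap_pow_le _ _ _) (abs_nonneg _)
      zero_le_one
  · exact (Finset.abs_sum_le_sum_abs _ _).trans
      (Finset.sum_le_sum fun l _ => b _ _ fun σ => hp _ _ _ _ (hF _))

end Vale.Agent.P157.Parisi.Full.BaseU
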