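import Vale.Agent.P157.Full.Statements
import Vale.Agent.P157.Full.GGIbp
import Vale.Agent.P157.Parisi.Sphere.Perturb.Variance

/-! At a point where the free energy over a base has a quadratic cap and concentrates, the
Ghirlanda–Guerra identity holds. -/

noncomputable section

open MeasureTheory ProbabilityTheory
open scoped BigOperators NNReal ENNReal

namespace Vale.Agent.P157.Parisi.Full.BaseU

open Vale.Agent.P157.Parisi.Perturb (absJ)
open Vale.Agent.P157.Parisi.Sphere (Conf)
open Vale.Agent.P157.Parisi.Sphere.Perturb (gObs abs_gObs_le measurable_gObs totalH_update)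
open Vale.Agent.P168.Limit (gw logZ gav gw_nonneg)
open Vale.Agent.P168.Limit.SelfAvg (tangent_le gw_sum gw_nonneg' gav_add' gav_const' gav_const_mul'
  gav_mono' gav_sq_sub abs_gav_le_sum logZ_tilt')

section Gibbs

variable {X : Type*} [Fintype X] [Nonempty X]

/-- The second difference of `log Z` dominates the thermal variance. -/
lemma var_le_second_diff (H O : X → ℝ) (h : ℝ) {M : ℝ} (hM : ∀ σ, |O σ| ≤ M) :
    h ^ 2 * gav H (fun σ => (O σ - gav H O) ^ 2) ≤
      logZ (fun σ => H σ + h * O σ) + logZ (fun σ => H σ + (-h) * O σ) - 2 * logZ H +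
        h ^ 4 * M ^ 4 / 2 := by
  set w := gw H with hw
  have w0 : ∀ σ, 0 ≤ w σ := gw_nonneg' H
  have w1 : ∑ σ, w σ = 1 := gw_sum H
  set V := gav H (fun σ => (O σ - gav H O) ^ 2) with hV
  have hV0 : 0 ≤ V := Finset.sum_nonneg fun σ _ => mul_nonneg (w0 σ) (sq_nonneg _)
  set Ep := gav H (fun σ => Real.exp (h * O σ)) with hEp
  set Em := gav H (fun σ => Real.exp ((-h) * O σ)) with hEm
  have hpos : ∀ F : X → ℝ, 0 < gav H (fun σ => Real.exp (F σ)) := fun F => by
    obtain ⟨σ⟩ := ‹Nonempty X›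
    refine Finset.sum_pos' (fun τ _ => mul_nonneg (w0 τ) (Real.exp_pos _).le)
      ⟨σ, Finset.mem_univ σ, mul_pos ?_ (Real.exp_pos _)⟩
    exact div_pos (Real.exp_pos _) (Vale.Agent.P168.Limit.SelfAvg.partition_pos H)
  -- the product of the two tilts
  have hsym : ∀ F : X → X → ℝ, ∑ a, ∑ b, w a * w b * F a b = ∑ a, ∑ b, w a * w b * F b a := fun F => by
    rw [Finset.sum_comm]
    exact Finset.sum_congr rfl fun a _ => Finset.sum_congr rfl fun b _ => by ring
  have hprod : Ep * Em = ∑ a, ∑ b, w a * w b * Real.cosh (h * (O a - O b)) := by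
    have e : Ep * Em = ∑ a, ∑ b, w a * w b * Real.exp (h * (O a - O b)) := by
      simp only [hEp, hEm, gav, Finset.sum_mul_sum, ← hw]
      refine Finset.sum_congr rfl fun a _ => Finset.sum_congr rfl fun b _ => ?_
      rw [show h * (O a - O b) = h * O a + -h * O b by ring, Real.exp_add]
      ring
    have e' := e.trans (hsym fun a b => Real.exp (h * (O a - O b)))
    have : ∑ a, ∑ b, w a * w b * Real.cosh (h * (O a - O b)) =
        ((∑ a, ∑ b, w a * w b * Real.exp (h * (O a - O b))) +
          ∑ a, ∑ b, w a * w b * Real.exp (h * (O b - O a))) / 2 := by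
      simp only [Real.cosh_eq, ← Finset.sum_add_distrib, Finset.sum_div]
      refine Finset.sum_congr rfl fun a _ => Finset.sum_congr rfl fun b _ => ?_
      rw [show -(h * (O a - O b)) = h * (O b - O a) by ring]
      ring
    rw [this, ← e, ← e']
    ring
  have hcosh : ∀ d : ℝ, 1 + d ^ 2 / 2 ≤ Real.cosh d := by
    intro d
    have h1 : Real.cosh d = 1 + 2 * Real.sinh (d / 2) ^ 2 := by
      have := Real.cosh_two_mul (d / 2)
      rw [show 2 * (d / 2) = d by ring, Real.cosh_sq] at this
      linarith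
    have h2 : (d / 2) ^ 2 ≤ Real.sinh (d / 2) ^ 2 := by
      rcases le_total 0 (d / 2) with h' | h'
      · exact pow_le_pow_left₀ h' (Real.self_le_sinh_iff.2 h') 2
      · have := Real.sinh_le_self_iff.2 h'
        nlinarith
    rw [h1]
    nlinarith
  have hvar : ∑ a, ∑ b, w a * w b * (1 + (h * (O a - O b)) ^ 2 / 2) = 1 + h ^ 2 * V := by
    have e : ∀ a b, w a * w b * (1 + (h * (O a - O b)) ^ 2 / 2) =
        w a * w b + h ^ 2 / 2 * ((w a * O a ^ 2) * w b) + h ^ 2 / 2 * (w a * (w b * O b ^ 2)) -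
          h ^ 2 * ((w a * O a) * (w b * O b)) := fun a b => by ring
    simp only [e, Finset.sum_add_distrib, Finset.sum_sub_distrib, ← Finset.mul_sum, ← Finset.sum_mul,
      w1]
    rw [hV, gav_sq_sub]
    simp only [gav, ← hw]
    ring
  have hlow : 1 + h ^ 2 * V ≤ Ep * Em := by
    rw [hprod, ← hvar]
    exact Finset.sum_le_sum fun a _ => Finset.sum_le_sum fun b _ =>
      mul_le_mul_of_nonneg_left (hcosh _) (mul_nonneg (w0 a) (w0 b))
  have hlog : Real.log (1 + h ^ 2 * V) ≤ Real.log Ep + Real.log Em := by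
    rw [← Real.log_mul (hpos _).ne' (hpos _).ne']
    exact Real.log_le_log (add_pos_of_pos_of_nonneg one_pos (mul_nonneg (sq_nonneg h) hV0)) hlow
  rw [← logZ_tilt', ← logZ_tilt'] at hlog
  have hM0 : 0 ≤ M := (abs_nonneg _).trans (hM (Classical.arbitrary X))
  have hVM : V ≤ M ^ 2 := by
    rw [hV, gav_sq_sub]
    have h2 : gav H (fun σ => O σ ^ 2) ≤ M ^ 2 := by
      refine (gav_mono' H (g := fun _ => M ^ 2) fun σ => ?_).trans_eq (gav_const' H _)
      rw [← sq_abs]; exact pow_le_pow_left₀ (abs_nonneg _) (hM σ) 2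
    nlinarith [sq_nonneg (gav H O)]
  set u := h ^ 2 * V with hu
  have hu0 : 0 ≤ u := mul_nonneg (sq_nonneg h) hV0
  have h3 : u - u ^ 2 / 2 ≤ Real.log (1 + u) := by
    refine le_trans ?_ (Real.le_log_one_add_of_nonneg hu0)
    rw [le_div_iff₀ (by linarith)]
    nlinarith [pow_nonneg hu0 3]
  have h4 : u ^ 2 ≤ h ^ 4 * M ^ 4 := by
    rw [hu, mul_pow, show h ^ 4 * M ^ 4 = (h ^ 2) ^ 2 * (M ^ 2) ^ 2 by ring]
    exact mul_le_mul_of_nonneg_left (pow_le_pow_left₀ hV0 hVM 2) (sq_nonneg _)
  linarith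

/-- A derivative is pinned by a quadratic cap of the mean. -/
lemma slope_pinned {p g0 gp gm a0 ap am ℓ c ε y : ℝ} (hy : 0 < y) (h1 : y * p ≤ ap - a0)
    (h2 : -y * p ≤ am - a0) (hp : gp ≤ g0 + ℓ * y + c * y ^ 2 + ε)
    (hm : gm ≤ g0 - ℓ * y + c * y ^ 2 + ε) :
    |p - ℓ| ≤ c * y + (ε + (|ap - gp| + |a0 - g0| + |am - gm|)) / y := by
  have e : c * y + (ε + (|ap - gp| + |a0 - g0| + |am - gm|)) / y =
      (c * y ^ 2 + ε + (|ap - gp| + |a0 - g0| + |am - gm|)) / y := by field_simp; ring
  have := le_abs_self (ap - gp)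
  have := le_abs_self (am - gm)
  have := neg_abs_le (a0 - g0)
  have := abs_nonneg (ap - gp)
  have := abs_nonneg (am - gm)
  rw [e, le_div_iff₀ hy, show |p - ℓ| * y = |(p - ℓ) * y| by rw [abs_mul, abs_of_pos hy], abs_le]
  constructor <;> nlinarith

end Gibbs

variable {N L : ℕ} {P : Sphere.Pts N} (B : Base P) {f : ℝ → ℝ} {A s μ : ℝ} {x : Fin L → ℝ}

/-- The fourth moment of the sum of the absolute values of the perturbation. -/
def fourth (N L : ℕ) (μ : ℝ) : ℝ := ∫ d : Dis N L, absJ d.2.2 ^ 4 ∂disLaw N L μ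

lemma integrable_fourth (μ : ℝ) :
    Integrable (fun d : Dis N L => absJ d.2.2 ^ 4) (disLaw N L μ) := by
  have h : MemLp (absJ (N := N) (L := L)) 4 (gam (PertIdx N L)) :=
    memLp_finsetSum _ fun c _ => (memLp_id_gaussianReal 4).abs.comp_measurePreserving
      (measurePreserving_eval (fun _ : PertIdx N L => gaussianReal 0 1) c)
  have h' := (h.integrable_norm_pow (p := 4) (by norm_num))
  have h4 : Integrable (fun J => absJ (N := N) (L := L) J ^ 4) (gam (PertIdx N L)) :=
    h'.congr (ae_of_all _ fun J => by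
      simp only [Real.norm_eq_abs]; exact (show Even 4 by decide).pow_abs _)
  exact (h4.comp_snd (Measure.infinitePi fun _ : ℕ => gam (Fin N))).comp_snd
    (poissonMeasure μ.toNNReal)

/-- The fluctuation is small at a capped point. -/
theorem fluct_le [NeZero N] (hf : Continuous f) (hb : ∀ y, |f y| ≤ A) (hs : 0 < s) (p : Fin L)
    {ℓ φ ε y h q : ℝ} (hq : 0 ≤ q) (hy : 0 < y) (hh : 0 < h) (hε0 : 0 ≤ ε) (hε1 : ε ≤ 1)
    (hεh : ε ≤ h ^ 2 * s ^ 2) (hh4 : h ^ 2 * (s ^ 2 * fourth N L μ) ≤ 1)
    (hcap : ∀ d ∈ ({h, -h, y, -y} : Set ℝ),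
      baseFree B f s (Function.update x p (x p + d)) μ ≤
        baseFree B f s x μ + ℓ * d + 100 * s ^ 2 * q * d ^ 2 + ε)
    (hdev : ∀ d ∈ ({0, y, -y} : Set ℝ), baseDev B f s (Function.update x p (x p + d)) μ ≤ φ) :
    fluct B f s μ p x ≤
      100 * q + 2 + 2 * (100 * q * (s * y) + (1 + 3 * φ) / (s * y)) := by
  set G : ℝ → Dis N L × B.Ω → ℝ := fun d z =>
    logZ (baseH B f s (Function.update x p (x p + d)) z) with hG
  set O : Dis N L × B.Ω → Conf P → ℝ := fun z σ => s * Sphere.Perturb.gObs p z.1.2.2 σ with hO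
  set H : Dis N L × B.Ω → Conf P → ℝ := fun z => baseH B f s x z with hH
  have hGe : ∀ d z, G d z = logZ (fun σ => H z σ + d * O z σ) := by
    intro d z
    simp only [hG, hH, hO]
    refine congrArg logZ (funext fun σ => ?_)
    have h1 := totalH_update f s x p (x p + d) z.1 σ
    have h2 := totalH_update f s x p (x p) z.1 σ
    rw [Function.update_eq_self] at h2
    simp only [baseH]
    rw [h1, h2]
    ring
  have iG : ∀ d, Integrable (G d) (baseLaw B L μ) := fun d =>
    integrable_logZ B hf hb s μ _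
  set g : ℝ → ℝ := fun d => baseFree B f s (Function.update x p (x p + d)) μ with hg
  have gG : ∀ d, g d = ∫ z, G d z ∂baseLaw B L μ := fun d => baseFree_eq B hf hb s μ _
  have g0 : g 0 = baseFree B f s x μ := by simp [hg]
  set D : ℝ → Dis N L × B.Ω → ℝ := fun d z => |G d z - g d| with hD
  have iD : ∀ d, Integrable (D d) (baseLaw B L μ) := fun d =>
    ((iG d).sub (integrable_const _)).abs
  have hDφ : ∀ d ∈ ({0, y, -y} : Set ℝ), ∫ z, D d z ∂baseLaw B L μ ≤ φ := fun d hd =>
    le_trans (le_of_eq (baseDev_eq B hf hb s μ _).symm) (hdev d hd)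
  set p1 : Dis N L × B.Ω → ℝ := fun z => gav (H z) (O z) with hp1
  set V : Dis N L × B.Ω → ℝ := fun z => gav (H z) fun σ => (O z σ - p1 z) ^ 2 with hVd
  have hgw := measurable_gw B hf s x
  have hOm : ∀ σ, Measurable fun z : Dis N L × B.Ω => O z σ := fun σ =>
    (((measurable_gObs p σ).comp (measurable_snd.comp (measurable_snd.comp measurable_fst))).const_mul s)
  have hp1m : Measurable p1 := Finset.measurable_sum _ fun σ _ => (hgw σ).mul (hOm σ)
  have hVm : Measurable V :=
    Finset.measurable_sum _ fun σ _ => (hgw σ).mul (((hOm σ).sub hp1m).pow_const 2)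
  have hM : ∀ z σ, |O z σ| ≤ s * absJ z.1.2.2 := fun z σ => by
    simp only [hO, abs_mul, abs_of_pos hs]
    exact mul_le_mul_of_nonneg_left (abs_gObs_le p _ σ) hs.le
  have i4 : Integrable (fun z : Dis N L × B.Ω => absJ z.1.2.2 ^ 4) (baseLaw B L μ) :=
    (integrable_fourth μ).comp_fst B.law
  have hpb : ∀ z, |p1 z| ≤ s * absJ z.1.2.2 := fun z => by
    rw [abs_le]
    exact ⟨le_trans (le_of_eq (gav_const' (H z) _).symm) (gav_mono' _ fun σ => (abs_le.1 (hM z σ)).1),
      le_trans (gav_mono' _ fun σ => (abs_le.1 (hM z σ)).2) (gav_const' (H z) _).le⟩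
  have ip1 : Integrable p1 (baseLaw B L μ) :=
    ((integrable_absJ' B μ).const_mul s).mono' hp1m.aestronglyMeasurable
      (ae_of_all _ fun z => hpb z)
  have hV0 : ∀ z, 0 ≤ V z := fun z =>
    Finset.sum_nonneg fun σ _ => mul_nonneg (gw_nonneg' _ _) (sq_nonneg _)
  -- thermal part
  have hth : ∀ z, h ^ 2 * V z ≤ G h z + G (-h) z - 2 * G 0 z + h ^ 4 * (s * absJ z.1.2.2) ^ 4 / 2 := by
    intro z
    simp only [hGe, zero_mul, add_zero]
    exact var_le_second_diff (H z) (O z) h (hM z)
  have iM : Integrable (fun z : Dis N L × B.Ω => h ^ 4 * (s * absJ z.1.2.2) ^ 4 / 2)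
      (baseLaw B L μ) :=
    (((i4.const_mul (s ^ 4)).const_mul (h ^ 4)).div_const 2).congr
      (ae_of_all _ fun z => by simp only [mul_pow])
  have iR : Integrable (fun z => G h z + G (-h) z - 2 * G 0 z +
      h ^ 4 * (s * absJ z.1.2.2) ^ 4 / 2) (baseLaw B L μ) :=
    (((iG h).add (iG (-h))).sub ((iG 0).const_mul 2)).add iM
  have iV : Integrable V (baseLaw B L μ) := by
    refine (iR.div_const (h ^ 2)).mono' hVm.aestronglyMeasurable (ae_of_all _ fun z => ?_)
    rw [Real.norm_eq_abs, abs_of_nonneg (hV0 z), le_div_iff₀' (by positivity)]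
    exact hth z
  have hVint : ∫ z, V z ∂baseLaw B L μ ≤ (200 * q + 3) * s ^ 2 := by
    have h1 := integral_mono (iV.const_mul (h ^ 2)) iR hth
    rw [integral_const_mul] at h1
    have e : ∫ z, (G h z + G (-h) z - 2 * G 0 z + h ^ 4 * (s * absJ z.1.2.2) ^ 4 / 2)
        ∂baseLaw B L μ = g h + g (-h) - 2 * g 0 + h ^ 4 * (s ^ 4 * fourth N L μ) / 2 := by
      have i12 : Integrable (fun z => G h z + G (-h) z) (baseLaw B L μ) := (iG h).add (iG (-h))
      have i123 : Integrable (fun z => G h z + G (-h) z - 2 * G 0 z) (baseLaw B L μ) :=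
        i12.sub ((iG 0).const_mul 2)
      rw [integral_add i123 iM, integral_sub i12 ((iG 0).const_mul 2),
        integral_add (iG h) (iG (-h)), integral_const_mul, ← gG, ← gG, ← gG, integral_div]
      simp only [mul_pow, integral_const_mul]
      rw [integral_fun_fst (fun d : Dis N L => absJ d.2.2 ^ 4), fourth]
      simp
    rw [e] at h1
    have c1 := hcap h (by simp)
    have c2 := hcap (-h) (by simp)
    rw [← g0] at c1 c2
    change g h ≤ _ at c1
    change g (-h) ≤ _ at c2
    refine le_of_mul_le_mul_left ?_ (show (0 : ℝ) < h ^ 2 by positivity)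
    have h5 : h ^ 4 * (s ^ 4 * fourth N L μ) / 2 ≤ h ^ 2 * s ^ 2 * 1 := by
      rw [show h ^ 4 * (s ^ 4 * fourth N L μ) / 2 =
        h ^ 2 * s ^ 2 * ((h ^ 2 * (s ^ 2 * fourth N L μ)) / 2) by ring]
      exact mul_le_mul_of_nonneg_left (by linarith) (by positivity)
    nlinarith
  -- disorder part
  have hpin : ∀ z, |p1 z - ℓ| ≤
      100 * s ^ 2 * q * y + (ε + (D y z + D 0 z + D (-y) z)) / y := by
    intro z
    refine slope_pinned hy (a0 := G 0 z) (ap := G y z) (am := G (-y) z) (g0 := g 0) (gp := g y)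
      (gm := g (-y)) ?_ ?_ ?_ ?_
    · simp only [hGe, zero_mul, add_zero]
      exact tangent_le (H z) (O z) y
    · simp only [hGe, zero_mul, add_zero]
      exact tangent_le (H z) (O z) (-y)
    · have := hcap y (by simp)
      rw [← g0] at this
      exact this
    · have := hcap (-y) (by simp)
      rw [← g0] at this
      calc g (-y) ≤ _ := this
        _ = _ := by ring
  set R : Dis N L × B.Ω → ℝ := fun z =>
    100 * s ^ 2 * q * y + (ε + (D y z + D 0 z + D (-y) z)) / y
  have i3 : Integrable (fun z => D y z + D 0 z + D (-y) z) (baseLaw B L μ) :=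
    ((iD y).add (iD 0)).add (iD (-y))
  have iRz : Integrable R (baseLaw B L μ) :=
    (integrable_const _).add (((integrable_const ε).add i3).div_const y)
  set K := 100 * s ^ 2 * q * y + (ε + 3 * φ) / y with hK
  have hRint : ∫ z, R z ∂baseLaw B L μ ≤ K := by
    have i5 : Integrable (fun z => (ε + (D y z + D 0 z + D (-y) z)) / y) (baseLaw B L μ) :=
      ((integrable_const ε).add i3).div_const y
    have i6 : Integrable (fun z => D y z + D 0 z) (baseLaw B L μ) := (iD y).add (iD 0)
    simp only [R]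
    rw [integral_add (integrable_const _) i5, integral_div,
      integral_add (integrable_const _) i3, integral_add i6 (iD (-y)), integral_add (iD y) (iD 0)]
    simp only [integral_const, probReal_univ, one_smul, hK]
    have := hDφ y (by simp)
    have := hDφ 0 (by simp)
    have := hDφ (-y) (by simp)
    gcongr
    linarith
  have habs : Integrable (fun z => |p1 z - ℓ|) (baseLaw B L μ) :=
    (ip1.sub (integrable_const _)).abs
  have hpl : ∫ z, |p1 z - ℓ| ∂baseLaw B L μ ≤ K := (integral_mono habs iRz hpin).trans hRint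
  set P1 := ∫ z, p1 z ∂baseLaw B L μ with hP1
  have hP1l : |P1 - ℓ| ≤ K := by
    refine le_trans ?_ hpl
    rw [show P1 - ℓ = ∫ z, (p1 z - ℓ) ∂baseLaw B L μ by
      rw [integral_sub ip1 (integrable_const _)]; simp [hP1]]
    exact abs_integral_le_integral_abs
  have hm : P1 = s * obsMean B f s μ p x := by
    simp only [hP1, hp1, hO, gav_const_mul', hH, integral_const_mul, obsMean]
  -- assembly
  have hpt : ∀ z, s * gav (H z) (fun σ => |Sphere.Perturb.gObs p z.1.2.2 σ - obsMean B f s μ p x|) ≤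
      (2 * s)⁻¹ * V z + s / 2 + (|p1 z - ℓ| + |P1 - ℓ|) := by
    intro z
    rw [← gav_const_mul']
    have h1 : ∀ σ, s * |Sphere.Perturb.gObs p z.1.2.2 σ - obsMean B f s μ p x| ≤
        (2 * s)⁻¹ * (O z σ - p1 z) ^ 2 + (s / 2 + (|p1 z - ℓ| + |P1 - ℓ|)) := by
      intro σ
      have e1 : s * |Sphere.Perturb.gObs p z.1.2.2 σ - obsMean B f s μ p x| = |O z σ - P1| := by
        rw [hm, ← mul_sub, abs_mul, abs_of_pos hs]
      have h2 : |O z σ - p1 z| ≤ (2 * s)⁻¹ * (O z σ - p1 z) ^ 2 + s / 2 := by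
        rw [← sub_nonneg]
        have e : (2 * s)⁻¹ * (O z σ - p1 z) ^ 2 + s / 2 - |O z σ - p1 z| =
            (|O z σ - p1 z| - s) ^ 2 / (2 * s) := by
          rw [← sq_abs (O z σ - p1 z)]; field_simp; ring
        rw [e]; positivity
      rw [e1]
      have := abs_sub_le (O z σ) (p1 z) P1
      have := abs_sub_le (p1 z) ℓ P1
      rw [abs_sub_comm ℓ P1] at this
      linarith
    refine (gav_mono' _ h1).trans_eq ?_
    rw [gav_add', gav_const_mul', gav_const']
    simp only [hVd]
    ring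
  have iU : Integrable (fun z => (2 * s)⁻¹ * V z + s / 2) (baseLaw B L μ) :=
    (iV.const_mul _).add (integrable_const _)
  have iW : Integrable (fun z => |p1 z - ℓ| + |P1 - ℓ|) (baseLaw B L μ) :=
    habs.add (integrable_const _)
  have hfl : s * fluct B f s μ p x ≤ (2 * s)⁻¹ * ((200 * q + 3) * s ^ 2) + s / 2 + (K + K) := by
    rw [fluct, ← integral_const_mul]
    refine (integral_mono_of_nonneg (ae_of_all _ fun z => mul_nonneg hs.le (Finset.sum_nonneg
      fun σ _ => mul_nonneg (gw_nonneg' _ _) (abs_nonneg _))) (iU.add iW)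
      (ae_of_all _ fun z => hpt z)).trans ?_
    simp only [Pi.add_apply]
    rw [integral_add iU iW, integral_add (iV.const_mul _) (integrable_const _),
      integral_add habs (integrable_const _), integral_const_mul]
    simp only [integral_const, probReal_univ, one_smul]
    gcongr
  refine le_of_mul_le_mul_left (hfl.trans ?_) hs
  have e1 : (2 * s)⁻¹ * ((200 * q + 3) * s ^ 2) = s * (100 * q + 3 / 2) := by
    field_simp; ring
  have e2 : s * ((1 + 3 * φ) / (s * y)) = (1 + 3 * φ) / y := by field_simp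
  have hεy : (ε + 3 * φ) / y ≤ (1 + 3 * φ) / y := by gcongr
  rw [e1, hK]
  linarith

end Vale.Agent.P157.Parisi.Full.BaseU

namespace Vale.Agent.P157.Parisi.Full

open BaseU

/-- Module U2c. -/
theorem ggStmt : GGStmt := by
  intro p₀
  set C : ℝ := 300 + 8 * 4 ^ (p₀ + 1) with hC
  have h4p : (0 : ℝ) ≤ 4 ^ (p₀ + 1) := by positivity
  refine ⟨C, ?_⟩
  intro N L P f A hN hf s μ hs _ x p hp _ hx ℓ φ hφ η hη
  have : NeZero N := ⟨hN⟩
  have hc := hf.d0.continuous
  subst hp
  have hC2 : 2 ≤ C := by rw [hC]; linarith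
  have hsq := Real.sqrt_nonneg φ
  set y := (1 + Real.sqrt φ) / s with hy
  have hy0 : 0 < y := by positivity
  rcases le_or_gt 1 y with hy1 | hy1
  · refine ⟨1, one_pos, ∅, by simp, fun B _ _ n F hF => ?_⟩
    simp only [repMean_bExp]
    refine (identity_trivial B p n hF).trans (mul_le_mul_of_nonneg_left ?_ (by positivity))
    have : C * (1 + Real.sqrt φ) / s = C * y := by rw [hy, mul_div_assoc]
    nlinarith
  · set K4 := fourth N L μ with hK4d
    have hK4 : 0 ≤ K4 := integral_nonneg fun d => by positivity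
    set h := min (1 / 2 : ℝ) (1 / (1 + s ^ 2 * K4)) with hh
    have hh0 : 0 < h := lt_min (by norm_num) (by positivity)
    have hh2 : h ≤ 1 / 2 := min_le_left _ _
    have hh3 : h ≤ 1 / (1 + s ^ 2 * K4) := min_le_right _ _
    have hh4 : h ^ 2 * (s ^ 2 * K4) ≤ 1 := by
      rw [le_div_iff₀ (by positivity)] at hh3
      have : h ^ 2 ≤ h := by nlinarith
      nlinarith [mul_nonneg (sq_nonneg s) hK4]
    classical
    set Y : Finset ℝ := {x p + h, x p + -h, x p + y, x p + -y, x p + 0} with hY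
    refine ⟨min 1 (h ^ 2 * s ^ 2), lt_min one_pos (by positivity), Y, ?_, fun B hcap hdev n F hF => ?_⟩
    · intro v hv
      simp only [hY, Finset.coe_insert, Finset.coe_singleton, Set.mem_insert_iff,
        Set.mem_singleton_iff] at hv
      obtain ⟨h1, h2⟩ := hx
      rw [Set.mem_Icc]
      rcases hv with rfl | rfl | rfl | rfl | rfl <;> constructor <;> linarith
    have hfl := fluct_le B hc hf.b0 hs p (μ := μ) (x := x) (ℓ := ℓ) (φ := φ)
      (ε := min 1 (h ^ 2 * s ^ 2)) (y := y) (h := h) (q := (1 / 4 : ℝ) ^ (p.val + 1))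
      (by positivity) hy0 hh0 (le_min zero_le_one (by positivity)) (min_le_left _ _)
      (min_le_right _ _) hh4 (fun d hd => ?_) (fun d hd => ?_)
    · simp only [repMean_bExp]
      refine ((identity_le B hc hs p hx.1 n hF).trans ?_).trans
        (le_mul_of_one_le_left (by positivity) (le_add_of_nonneg_left (Nat.cast_nonneg n)))
      have e4 : (4 : ℝ) ^ (p.val + 1) * (1 / 4) ^ (p.val + 1) = 1 := by
        rw [← mul_pow]; norm_num
      set q := (1 / 4 : ℝ) ^ (p.val + 1)
      have hq : 0 ≤ q := by positivity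
      have e : s * y = 1 + Real.sqrt φ := by rw [hy]; field_simp
      rw [e] at hfl
      have hdiv : (1 + 3 * φ) / (1 + Real.sqrt φ) ≤ 3 * (1 + Real.sqrt φ) := by
        rw [div_le_iff₀ (by positivity)]
        nlinarith [Real.sq_sqrt hφ]
      have hfl' : fluct B f s μ p x ≤ (300 * q + 8) * (1 + Real.sqrt φ) := by
        refine hfl.trans ?_
        nlinarith [mul_nonneg hq hsq]
      calc (4 : ℝ) ^ (p.val + 1) / s * fluct B f s μ p x
          ≤ 4 ^ (p.val + 1) / s * ((300 * q + 8) * (1 + Real.sqrt φ)) := by gcongr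
        _ = C * (1 + Real.sqrt φ) / s := by
            rw [hC]; field_simp; linear_combination (300 : ℝ) * e4
        _ ≤ C * (1 + Real.sqrt φ) / s + η := by linarith
    · have hmem : x p + d ∈ Y := by
        simp only [Set.mem_insert_iff, Set.mem_singleton_iff] at hd
        rcases hd with rfl | rfl | rfl | rfl <;> simp [hY]
      refine (hcap _ hmem).trans_eq ?_
      rw [add_sub_cancel_left]
    · have hmem : x p + d ∈ Y := by
        simp only [Set.mem_insert_iff, Set.mem_singleton_iff] at hd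
        rcases hd with rfl | rfl | rfl <;> simp [hY]
      exact hdev _ hmem

end Vale.Agent.P157.Parisi.Full
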