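import Vale.Agent.P157.Full.SlotStep
import Vale.Agent.P157.Parisi.Upper.Site

/-!
Slots on the cube factor over the sites and lie below the site value of their total path.
-/

noncomputable section

open MeasureTheory ProbabilityTheory Filter
open scoped BigOperators Topology

namespace Vale.Agent.P157.Parisi.Full

open Vale.Agent.P168 (genNested)
open Vale.Agent.P168.Cascade (Exps)
open Vale.Agent.P168.Upper (integral_mp mp_flip measurable_genNested genNested_map genNested_bounds)
open Vale.Agent.P157.Parisi.Up (Growth Lip1 clipA measurable_clipA abs_clipA_le abs_clipA_le_abs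
  svar inc level_props logCosh_props)

/-! ### Sums of clipped variables with coefficients -/

lemma abs_sum_le {L : ℕ} (c : Fin L → ℝ) (φ : ℝ → ℝ) (hφ : ∀ u, |φ u| ≤ |u|) (b : Fin L → ℝ) :
    |∑ k, c k * φ (b k)| ≤ (∑ k, |c k|) * ∑ k, |b k| := by
  rw [Finset.sum_mul]
  refine (Finset.abs_sum_le_sum_abs _ _).trans (Finset.sum_le_sum fun k _ => ?_)
  rw [abs_mul]
  exact mul_le_mul_of_nonneg_left ((hφ _).trans
    (Finset.single_le_sum (f := fun k => |b k|) (fun k _ => abs_nonneg _) (Finset.mem_univ k)))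
    (abs_nonneg _)

lemma measurable_vecSum {L : ℕ} (c : Fin L → ℝ) {φ : ℝ → ℝ} (hφ : Measurable φ) :
    Measurable fun b : Fin L → ℝ => ∑ k, c k * φ (b k) :=
  Finset.measurable_sum _ fun k _ => (hφ.comp (measurable_pi_apply k)).const_mul _

lemma integrable_vecSum {G : ℝ → ℝ} {A K : ℝ} (hg : Growth G A K) {L : ℕ} (c : Fin L → ℝ)
    {φ : ℝ → ℝ} (hφ : Measurable φ) (hb : ∀ u, |φ u| ≤ |u|) (y : ℝ) :
    Integrable (fun b => G (y + ∑ k, c k * φ (b k))) (gam (Fin L)) := by
  set S := (∑ k, |c k|) + 1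
  have hS : 0 < S := add_pos_of_nonneg_of_pos (Finset.sum_nonneg fun k _ => abs_nonneg _) one_pos
  have h := hg.integrable y S (T := fun b : Fin L → ℝ => (∑ k, c k * φ (b k)) / S)
    ((measurable_vecSum c hφ).div_const _) fun b => by
      rw [abs_div, abs_of_pos hS, div_le_iff₀ hS]
      refine (abs_sum_le c φ hb b).trans ?_
      rw [mul_comm]
      exact mul_le_mul_of_nonneg_left (le_add_of_nonneg_right zero_le_one)
        (Finset.sum_nonneg fun k _ => abs_nonneg _)
  simpa only [mul_div_cancel₀ _ hS.ne'] using h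

/-- Sums of clipped Gaussians with coefficients are below those of Gaussians in convex order. -/
theorem clip_vec {G : ℝ → ℝ} {A K a : ℝ} (hG : ConvexOn ℝ Set.univ G) (hg : Growth G A K)
    (ha : 0 ≤ a) : ∀ (L : ℕ) (c : Fin L → ℝ) (y : ℝ),
    ∫ b, G (y + ∑ k, c k * clipA a (b k)) ∂gam (Fin L) ≤
      ∫ b, G (y + ∑ k, c k * b k) ∂gam (Fin L)
  | 0, c, y => by simp
  | L + 1, c, y => by
    have hsplit := measurePreserving_piFinSuccAbove (fun _ : Fin (L + 1) => gaussianReal 0 1) 0
    let F : (ℝ → ℝ) → (ℝ → ℝ) → ℝ × (Fin L → ℝ) → ℝ := fun φ ψ z =>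
      G (y + (c 0 * φ z.1 + ∑ k, c k.succ * ψ (z.2 k)))
    have hFm : ∀ φ ψ, Measurable φ → Measurable ψ → Measurable (F φ ψ) := fun φ ψ hφ hψ =>
      hg.cont.measurable.comp ((((hφ.comp measurable_fst).const_mul _).add
        ((measurable_vecSum _ hψ).comp measurable_snd)).const_add y)
    set S := |c 0| + ∑ k : Fin L, |c k.succ|
    have hi : ∀ φ ψ, Measurable φ → Measurable ψ → (∀ u, |φ u| ≤ |u|) → (∀ u, |ψ u| ≤ |u|) →
        Integrable (F φ ψ) ((gaussianReal 0 1).prod (gam (Fin L))) := fun φ ψ hφ hψ hφb hψb => by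
      refine (((Cavity.integrable_exp_abs (K * S)).mul_prod
        (Up.integrable_exp_abs_sum (ι := Fin L) (K * S))).const_mul (A * Real.exp (K * |y|))).mono'
        (hFm φ ψ hφ hψ).aestronglyMeasurable (Eventually.of_forall fun z => ?_)
      rw [Real.norm_eq_abs, mul_assoc A, ← Real.exp_add, ← Real.exp_add]
      refine (hg.bound _).trans (mul_le_mul_of_nonneg_left (Real.exp_le_exp.2 ?_) hg.nonnegA)
      calc K * |y + (c 0 * φ z.1 + ∑ k, c k.succ * ψ (z.2 k))|
          ≤ K * (|y| + S * (|z.1| + ∑ k, |z.2 k|)) := by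
            refine mul_le_mul_of_nonneg_left ((abs_add_le _ _).trans (add_le_add le_rfl ?_))
              hg.nonnegK
            refine (abs_add_le _ _).trans ?_
            have h1 : |c 0 * φ z.1| ≤ |c 0| * |z.1| := by
              rw [abs_mul]; exact mul_le_mul_of_nonneg_left (hφb _) (abs_nonneg _)
            have h2 := abs_sum_le (fun k => c k.succ) ψ hψb z.2
            have h3 : 0 ≤ ∑ k : Fin L, |z.2 k| := Finset.sum_nonneg fun k _ => abs_nonneg _
            have h4 : 0 ≤ ∑ k : Fin L, |c k.succ| := Finset.sum_nonneg fun k _ => abs_nonneg _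
            simp only [S]
            nlinarith [abs_nonneg z.1, abs_nonneg (c 0)]
        _ = _ := by ring
    have hsucc : ∀ φ, Measurable φ →
        ∫ b : Fin (L + 1) → ℝ, G (y + ∑ k, c k * φ (b k)) ∂gam (Fin (L + 1)) =
          ∫ z, F φ φ z ∂(gaussianReal 0 1).prod (gam (Fin L)) := fun φ hφ => by
      rw [← integral_mp hsplit (hFm φ φ hφ hφ)]
      refine integral_congr_ae (Eventually.of_forall fun b => ?_)
      simp only [F, Fin.sum_univ_succ]
      rfl
    have hφ : Measurable (clipA a) := measurable_clipA a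
    have hφb : ∀ u, |clipA a u| ≤ |u| := abs_clipA_le_abs ha
    have hidm : Measurable fun u : ℝ => u := measurable_id'
    have k1 := hi (clipA a) (clipA a) hφ hφ hφb hφb
    have k2 := hi (clipA a) (fun u => u) hφ hidm hφb fun u => le_rfl
    have k3 := hi (fun u => u) (fun u => u) hidm hidm (fun u => le_rfl) fun u => le_rfl
    rw [hsucc _ hφ, hsucc (fun u => u) hidm]
    calc ∫ z, F (clipA a) (clipA a) z ∂(gaussianReal 0 1).prod (gam (Fin L))
        ≤ ∫ z, F (clipA a) (fun u => u) z ∂(gaussianReal 0 1).prod (gam (Fin L)) := by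
          rw [integral_prod _ k1, integral_prod _ k2]
          refine integral_mono k1.integral_prod_left k2.integral_prod_left fun u => ?_
          simpa only [F, ← add_assoc] using
            clip_vec hG hg ha L (fun k => c k.succ) (y + c 0 * clipA a u)
      _ ≤ ∫ z, F (fun u => u) (fun u => u) z ∂(gaussianReal 0 1).prod (gam (Fin L)) := by
          rw [integral_prod_symm _ k2, integral_prod_symm _ k3]
          refine integral_mono k2.integral_prod_right k3.integral_prod_right fun b => ?_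
          have e : ∀ v, y + (c 0 * v + ∑ k, c (Fin.succ k) * b k) =
              y + (∑ k, c (Fin.succ k) * b k) + c 0 * v := fun v => by ring
          simp only [F, e]
          exact Up.clip_one hG hg ha (y + ∑ k, c k.succ * b k) (c 0)

/-- Sums of clipped Gaussians are below one Gaussian of the same variance. -/
lemma clip_vec_gauss {G : ℝ → ℝ} {A K a : ℝ} (hG : ConvexOn ℝ Set.univ G) (hg : Growth G A K)
    (ha : 0 ≤ a) {L : ℕ} (c : Fin L → ℝ) (y : ℝ) :
    ∫ b, G (y + ∑ k, c k * clipA a (b k)) ∂gam (Fin L) ≤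
      ∫ g, G (y + Real.sqrt (∑ k, c k ^ 2) * g) ∂gaussianReal 0 1 := by
  refine (clip_vec hG hg ha L c y).trans_eq ?_
  set S := ∑ k, c k ^ 2
  have hS0 : 0 ≤ S := Finset.sum_nonneg fun k _ => sq_nonneg _
  rcases hS0.eq_or_lt with h | h
  · have hc : ∀ k, c k = 0 := fun k => by
      have := (Finset.sum_eq_zero_iff_of_nonneg (s := Finset.univ) (f := fun k => c k ^ 2)
        fun k _ => sq_nonneg _).1 h.symm k (Finset.mem_univ k)
      simpa using this
    simp [hc, ← h]
  have hs : Real.sqrt S ≠ 0 := (Real.sqrt_pos.2 h).ne'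
  have hu : ∑ k, (c k / Real.sqrt S) ^ 2 = 1 := by
    simp only [div_pow, Real.sq_sqrt hS0, ← Finset.sum_div]
    exact div_self h.ne'
  rw [← Cavity.integral_dot_unit hu (φ := fun x => G (y + Real.sqrt S * x))
    (hg.cont.measurable.comp ((measurable_id'.const_mul _).const_add y))]
  refine integral_congr_ae (Eventually.of_forall fun b => ?_)
  show G _ = G _
  simp only [dot, Finset.mul_sum]
  congr 2
  exact Finset.sum_congr rfl fun k _ => by field_simp

/-- The exponent of the layers. -/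
def vecExp {r L : ℕ} (a : ℝ) (c : Fin r → Fin L → ℝ) (η : Fin r → Fin L → ℝ) : ℝ :=
  ∑ p, ∑ k, c p k * clipA a (η p k)

lemma measurable_vecExp {r L : ℕ} (a : ℝ) (c : Fin r → Fin L → ℝ) : Measurable (vecExp a c) :=
  Finset.measurable_sum _ fun p _ =>
    (measurable_vecSum (c p) (measurable_clipA a)).comp (measurable_pi_apply p)

lemma abs_vecExp_le {r L : ℕ} {a : ℝ} (ha : 0 ≤ a) (c : Fin r → Fin L → ℝ)
    (η : Fin r → Fin L → ℝ) : |vecExp a c η| ≤ (∑ p, ∑ k, |c p k|) * a := by
  simp only [vecExp, Finset.sum_mul]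
  refine (Finset.abs_sum_le_sum_abs _ _).trans (Finset.sum_le_sum fun p _ =>
    (Finset.abs_sum_le_sum_abs _ _).trans (Finset.sum_le_sum fun k _ => ?_))
  rw [abs_mul]
  exact mul_le_mul_of_nonneg_left (abs_clipA_le ha _) (abs_nonneg _)

lemma vecExp_cons {r L : ℕ} (a : ℝ) (c : Fin (r + 1) → Fin L → ℝ) (b : Fin L → ℝ)
    (η : Fin r → Fin L → ℝ) :
    vecExp a c (Fin.cons b η) = (∑ k, c 0 k * clipA a (b k)) + vecExp a (Fin.tail c) η := by
  simp [vecExp, Fin.sum_univ_succ, Fin.tail]

lemma measurable_expVec {r L : ℕ} {ψ : ℝ → ℝ} (hl : Lip1 ψ) (a x : ℝ)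
    (c : Fin r → Fin L → ℝ) : Measurable fun η => Real.exp (ψ (x + vecExp a c η)) :=
  (hl.continuous.measurable.comp ((measurable_vecExp a c).const_add x)).exp

lemma expVec_mem {r L : ℕ} {ψ : ℝ → ℝ} (hl : Lip1 ψ) {a : ℝ} (ha : 0 ≤ a) (x : ℝ)
    (c : Fin r → Fin L → ℝ) (η : Fin r → Fin L → ℝ) :
    Real.exp (ψ x - (∑ p, ∑ k, |c p k|) * a) ≤ Real.exp (ψ (x + vecExp a c η)) ∧
      Real.exp (ψ (x + vecExp a c η)) ≤ Real.exp (ψ x + (∑ p, ∑ k, |c p k|) * a) := by
  have h1 := hl x (x + vecExp a c η)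
  have h2 := hl (x + vecExp a c η) x
  rw [sub_add_cancel_left, abs_neg] at h1
  rw [add_sub_cancel_left] at h2
  have := abs_vecExp_le ha c η
  constructor <;> refine Real.exp_le_exp.2 ?_ <;> linarith

/-- Layers of clipped variables are below the Gaussian recursion. -/
theorem vec_rec {L : ℕ} {a : ℝ} (ha : 0 ≤ a) : ∀ {r : ℕ} (m : Fin r → ℝ), (∀ i, 0 < m i) →
    ∀ (ρ : Fin (r + 1) → ℝ) (c : Fin r → Fin L → ℝ), (∀ p, ∑ k, c p k ^ 2 = inc ρ p) →
    ∀ (ψ : ℝ → ℝ), ConvexOn ℝ Set.univ ψ → Lip1 ψ →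
      ∀ x, Real.log (genNested (gam (Fin L)) m fun η => Real.exp (ψ (x + vecExp a c η))) ≤
        level m ρ ψ 0 x
  | 0, _, _, ρ, c, _, ψ, _, _, x => by simp [genNested, level, vecExp, Real.log_exp]
  | r + 1, m, hm, ρ, c, hsq, ψ, hcv, hl, x => by
    obtain ⟨hFc, hFl⟩ := level_props (Fin.tail m) (Fin.tail ρ) (fun i => hm i.succ) hcv hl
    set F := level (Fin.tail m) (Fin.tail ρ) ψ 0 with hF
    set I : (Fin L → ℝ) → ℝ := fun b => genNested (gam (Fin L)) (Fin.tail m)
      fun η => Real.exp (ψ (x + vecExp a c (Fin.cons b η)))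
    have hjoint : Measurable fun z : (Fin L → ℝ) × (Fin r → Fin L → ℝ) =>
        Real.exp (ψ (x + vecExp a c (Fin.cons z.1 z.2))) :=
      (measurable_expVec hl a x c).comp Vale.Agent.P168.Cascade.measurable_cons
    have hIm : Measurable I := measurable_genNested (gam (Fin L)) (Fin.tail m) _ hjoint
    set lo := Real.exp (ψ x - (∑ p, ∑ k, |c p k|) * a)
    have hlo : ∀ b, lo ≤ I b := fun b =>
      (genNested_bounds (gam (Fin L)) (Fin.tail m) (fun i => hm i.succ)
        (fun η => Real.exp (ψ (x + vecExp a c (Fin.cons b η))))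
        (hjoint.comp (f := fun η : Fin r → Fin L → ℝ => (b, η))
          (measurable_const.prodMk measurable_id))
        (Real.exp_pos _) fun η => expVec_mem hl ha x c (Fin.cons b η)).1
    have hhi : ∀ b, I b ≤ Real.exp (F (x + ∑ k, c 0 k * clipA a (b k))) := fun b => by
      have ih := vec_rec ha (Fin.tail m) (fun i => hm i.succ) (Fin.tail ρ) (Fin.tail c)
        (fun p => by simpa [inc, Fin.tail] using hsq p.succ) ψ hcv hl
        (x + ∑ k, c 0 k * clipA a (b k))
      simp only [add_assoc, ← vecExp_cons] at ih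
      exact (Real.log_le_iff_le_exp ((Real.exp_pos _).trans_le (hlo b))).1 ih
    have hR : Integrable (fun b : Fin L → ℝ =>
        Real.exp (m 0 * F (x + ∑ k, c 0 k * clipA a (b k)))) (gam (Fin L)) :=
      integrable_vecSum (Up.growth_exp hFl (hm 0).le) (c 0) (measurable_clipA a)
        (abs_clipA_le_abs ha) x
    have hpow : ∀ b, I b ^ m 0 ≤ Real.exp (m 0 * F (x + ∑ k, c 0 k * clipA a (b k))) := fun b => by
      refine (Real.rpow_le_rpow ((Real.exp_pos _).le.trans (hlo b)) (hhi b) (hm 0).le).trans_eq ?_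
      rw [← Real.exp_mul, mul_comm]
    have hI0 : ∀ b, 0 ≤ I b ^ m 0 := fun b =>
      Real.rpow_nonneg ((Real.exp_pos _).le.trans (hlo b)) _
    have hII : Integrable (fun b => I b ^ m 0) (gam (Fin L)) :=
      hR.mono' (hIm.pow_const _).aestronglyMeasurable (Eventually.of_forall fun b => by
        rw [Real.norm_eq_abs, abs_of_nonneg (hI0 b)]; exact hpow b)
    have hpos : 0 < ∫ b, I b ^ m 0 ∂gam (Fin L) := by
      refine lt_of_lt_of_le (Real.rpow_pos_of_pos (show 0 < lo from Real.exp_pos _) (m 0)) ?_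
      simpa using integral_mono (integrable_const _) hII fun b =>
        Real.rpow_le_rpow (Real.exp_pos _).le (hlo b) (hm 0).le
    show Real.log ((∫ b, I b ^ m 0 ∂gam (Fin L)) ^ (1 / m 0)) ≤
      1 / m 0 * Real.log (∫ g, Real.exp (m 0 * F (x + Real.sqrt (ρ 1 - ρ 0) * g)) ∂gaussianReal 0 1)
    rw [Real.log_rpow hpos]
    refine mul_le_mul_of_nonneg_left (Real.log_le_log hpos ((integral_mono hII hR hpow).trans ?_))
      (one_div_pos.2 (hm 0)).le
    have h := clip_vec_gauss (Up.convex_exp hFc (hm 0).le) (Up.growth_exp hFl (hm 0).le) ha (c 0) x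
    rw [hsq 0] at h
    simpa [inc] using h

/-! ### The slots at one site -/

variable {r N T : ℕ} {δ a : ℝ} {m : Fin r → ℝ}

/-- The exponent of the slots at one site. -/
def slotArg (δ a : ℝ) (ks : Fin T → Fin (r + 1)) (e : Fin T → ℝ) (η : Fin r → Fin T → ℝ) : ℝ :=
  Real.sqrt δ * ∑ t, pathField (slotDir (ks t)) (clipA a (e t)) fun p => clipA a (η p t)

/-- The log nested mean at one site. -/
def slotSite (δ a : ℝ) (m : Fin r → ℝ) (ks : Fin T → Fin (r + 1)) (e : Fin T → ℝ) : ℝ :=
  Real.log (genNested (gam (Fin T)) m fun η => Real.exp (Real.log (Real.cosh (slotArg δ a ks e η))))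

/-- The path of all slots together. -/
def slotPath (δ : ℝ) (ks : Fin T → Fin (r + 1)) (p : Fin (r + 1)) : ℝ :=
  δ * ∑ t, slotDir (ks t) p

lemma slotArg_eq (δ a : ℝ) (ks : Fin T → Fin (r + 1)) (e : Fin T → ℝ) (η : Fin r → Fin T → ℝ) :
    slotArg δ a ks e η = (∑ t, Real.sqrt δ * Real.sqrt (slotDir (ks t) 0) * clipA a (e t)) +
      vecExp a (fun p t => Real.sqrt δ * Real.sqrt (inc (slotDir (ks t)) p)) η := by
  simp only [slotArg, pathField, vecExp, inc, Finset.sum_add_distrib, mul_add, Finset.mul_sum,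
    mul_assoc]
  rw [Finset.sum_comm (s := Finset.univ (α := Fin T))]

lemma measurable_cosh_slotArg (δ a : ℝ) (ks : Fin T → Fin (r + 1)) :
    Measurable fun z : (Fin T → ℝ) × (Fin r → Fin T → ℝ) =>
      Real.exp (Real.log (Real.cosh (slotArg δ a ks z.1 z.2))) := by
  simp only [slotArg_eq]
  exact (Real.continuous_cosh.measurable.comp
    (((Finset.measurable_sum _ fun t _ => ((measurable_clipA a).comp
        ((measurable_pi_apply t).comp measurable_fst)).const_mul _)).add
      ((measurable_vecExp a _).comp measurable_snd))).log.exp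

lemma slotSite_mem (ha : 0 ≤ a) (hm : Exps m) (ks : Fin T → Fin (r + 1)) (e : Fin T → ℝ) :
    1 ≤ genNested (gam (Fin T)) m
        (fun η => Real.exp (Real.log (Real.cosh (slotArg δ a ks e η)))) ∧
      genNested (gam (Fin T)) m (fun η => Real.exp (Real.log (Real.cosh (slotArg δ a ks e η)))) ≤
        Real.cosh (Real.sqrt δ * (T * a)) := by
  refine genNested_bounds (gam (Fin T)) m hm.pos _ ((measurable_cosh_slotArg δ a ks).comp
    (f := fun η => (e, η)) (measurable_const.prodMk measurable_id)) one_pos fun η => ?_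
  rw [Real.exp_log (Real.cosh_pos _)]
  refine ⟨Real.one_le_cosh _, Real.cosh_le_cosh.2 (le_trans ?_ (le_abs_self _))⟩
  rw [slotArg, abs_mul, abs_of_nonneg (Real.sqrt_nonneg δ)]
  refine mul_le_mul_of_nonneg_left ((Finset.abs_sum_le_sum_abs _ _).trans
    ((Finset.sum_le_sum (g := fun _ => a) fun t _ => ?_).trans_eq (by simp))) (Real.sqrt_nonneg δ)
  refine (Up.abs_pathField_le _ (abs_clipA_le ha _) fun p => abs_clipA_le ha _).trans_eq ?_
  exact (congrArg (· * a) (fieldLen_slotDir (ks t))).trans (one_mul a)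

lemma measurable_slotSite (δ a : ℝ) (m : Fin r → ℝ) (ks : Fin T → Fin (r + 1)) :
    Measurable (slotSite δ a m ks) :=
  (measurable_genNested (gam (Fin T)) m _ (measurable_cosh_slotArg δ a ks)).log

lemma integrable_slotSite (ha : 0 ≤ a) (hm : Exps m) (ks : Fin T → Fin (r + 1)) {Q : Type}
    [MeasurableSpace Q] (μ : Measure Q) [IsFiniteMeasure μ] {F : Q → Fin T → ℝ}
    (hF : Measurable F) : Integrable (fun p => slotSite δ a m ks (F p)) μ := by
  refine Up.integrable_bdd (C := Real.log (Real.cosh (Real.sqrt δ * (T * a))))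
    ((measurable_slotSite δ a m ks).comp hF) fun p => ?_
  obtain ⟨h1, h2⟩ := slotSite_mem (δ := δ) ha hm ks (F p)
  simp only [slotSite]
  rw [abs_of_nonneg (Real.log_nonneg h1)]
  exact Real.log_le_log (one_pos.trans_le h1) h2

lemma integral_slotSite_le (hδ : 0 ≤ δ) (ha : 0 ≤ a) (hm : Exps m) (ks : Fin T → Fin (r + 1)) :
    ∫ e, slotSite δ a m ks e ∂gam (Fin T) ≤
      siteValue m (slotPath δ ks) + slotPath δ ks (Fin.last r) / 2 := by
  set ρ := slotPath δ ks with hρ
  obtain ⟨hc, hl⟩ := level_props m ρ hm.pos logCosh_props.1 logCosh_props.2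
  set F := level m ρ (fun x => Real.log (Real.cosh x)) 0 with hF
  set c₀ : Fin T → ℝ := fun t => Real.sqrt δ * Real.sqrt (slotDir (ks t) 0)
  have hpt : ∀ e : Fin T → ℝ, slotSite δ a m ks e ≤ F (0 + ∑ t, c₀ t * clipA a (e t)) := fun e => by
    simp only [slotSite, slotArg_eq, zero_add]
    refine vec_rec ha m hm.pos ρ _ (fun p => ?_) _ logCosh_props.1 logCosh_props.2 _
    simp only [mul_pow, Real.sq_sqrt hδ, Real.sq_sqrt (Up.inc_nonneg (slotDir_mono _) p)]
    simp only [hρ, slotPath, inc, ← Finset.mul_sum, Finset.sum_sub_distrib, mul_sub]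
  have h := (integral_mono (integrable_slotSite ha hm ks _ measurable_id)
    (integrable_vecSum hl.growth c₀ (measurable_clipA a) (abs_clipA_le_abs ha) 0) hpt).trans
    (clip_vec_gauss hc hl.growth ha c₀ 0)
  have e : ∑ t, c₀ t ^ 2 = ρ 0 := by
    simp only [c₀, mul_pow, Real.sq_sqrt hδ, Real.sq_sqrt (slotDir_nonneg _ _), hρ, slotPath,
      Finset.mul_sum]
  rw [e] at h
  refine h.trans_eq ?_
  simp only [siteValue, zero_add, hF, hρ]
  ring

lemma slotFree_cube_le (hN : N ≠ 0) (hδ : 0 ≤ δ) (ha : 0 ≤ a) (hm : Exps m)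
    (ks : Fin T → Fin (r + 1)) :
    slotFree (cubePts N) (fun _ => 0) δ a m ks 0 (fun _ : Fin N => 0) 0 ≤
      N * (siteValue m (slotPath δ ks) + slotPath δ ks (Fin.last r) / 2) := by
  have hNr : (0 : ℝ) < N := Nat.cast_pos.2 (Nat.pos_of_ne_zero hN)
  have hH : ∀ d : Dis N N, Sphere.totalH (P := cubePts N) (fun _ => (0 : ℝ)) 0
      (fun _ : Fin N => 0) d = fun _ => 0 := fun d => funext fun σ => by
    simp [Sphere.totalH, Sphere.pertH]
  simp only [slotFree, hH]
  rw [integral_const, probReal_univ, one_smul]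
  refine le_trans (le_of_eq ?_) (mul_le_mul_of_nonneg_left (integral_slotSite_le hδ ha hm ks) hNr.le)
  set PL := slotLaw T N
  have hflip : MeasurePreserving (fun (x : Fin T → Fin N → ℝ) (i : Fin N) (k : Fin T) => x k i) PL
      (Measure.pi fun _ : Fin N => gam (Fin T)) :=
    mp_flip (ι := Fin T) (κ := Fin N) (gaussianReal 0 1)
  let Z : (Fin T → Fin N → ℝ) → Fin N → (Fin r → Fin T → ℝ) → ℝ := fun E i η =>
    Real.exp (Real.log (Real.cosh (slotArg δ a ks (fun k => E k i) η)))
  have hZm : ∀ E i, Measurable (Z E i) := fun E i => (measurable_cosh_slotArg δ a ks).comp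
    (f := fun η => (fun k => E k i, η)) (measurable_const.prodMk measurable_id)
  have e : ∀ E : Fin T → Fin N → ℝ,
      Sphere.Up.Phi PL m (slotW (P := cubePts N) δ a ks (fun _ => 0) E) =
        ∑ i, slotSite δ a m ks fun k => E k i := fun E => by
    have hY : Measurable fun η : Fin r → Fin N → Fin T → ℝ => ∏ i, Z E i fun p => η p i :=
      Finset.measurable_prod _ fun i _ => (hZm E i).comp
        (measurable_pi_lambda _ fun p => (measurable_pi_apply i).comp (measurable_pi_apply p))
    have h1 : (fun η : Fin r → Fin T → Fin N → ℝ =>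
        ∑ σ, slotW (P := cubePts N) δ a ks (fun _ => 0) E σ η) =
        fun η => (fun η' : Fin r → Fin N → Fin T → ℝ => ∏ i, Z E i fun p => η' p i)
          fun p i k => η p k i := by
      funext η
      simp only [Z, Real.exp_log (Real.cosh_pos _), slotW, zero_add]
      rw [← Up.sum_cube_exp]
      refine (Fintype.sum_equiv (Fintype.equivFin (Cube N)) _ _ fun σ => Eq.symm ?_).symm
      have hK : ((cubePts N).K : ℝ) = 2 ^ N := by simp [cubePts]
      rw [hK, div_eq_inv_mul]
      congr 2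
      simp only [slotX, Sphere.Up.fieldX, slotArg, Finset.mul_sum]
      rw [Finset.sum_comm]
      refine Finset.sum_congr rfl fun i _ => Finset.sum_congr rfl fun k _ => ?_
      have hsv : Sphere.Up.sv (P := cubePts N) (Fintype.equivFin (Cube N) σ) i = sv σ i := by
        simp only [Sphere.Up.sv, Sphere.unitVec, cubePts, Equiv.symm_apply_apply, unitVec]
        field_simp
      rw [hsv]
      ring
    have h2 : genNested PL m (fun η => ∑ σ, slotW (P := cubePts N) δ a ks (fun _ => 0) E σ η) =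
        ∏ i, genNested (gam (Fin T)) m (Z E i) := by
      rw [h1]
      refine (genNested_map PL (Measure.pi fun _ : Fin N => gam (Fin T)) hflip m _ hY).trans ?_
      exact Up.genNested_pi (gam (Fin T)) m hm.pos N (Z E) (hZm E) fun i η => (Real.exp_pos _).le
    simp only [Sphere.Up.Phi, h2]
    rw [Real.log_prod fun i _ => (one_pos.trans_le (slotSite_mem ha hm ks _).1).ne']
    rfl
  simp only [e]
  have hT : ∀ i : Fin N, Measurable fun E : Fin T → Fin N → ℝ => fun k => E k i := fun i =>
    measurable_pi_lambda _ fun k => (measurable_pi_apply i).comp (measurable_pi_apply k)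
  rw [integral_finsetSum _ fun i _ => integrable_slotSite ha hm ks PL (hT i)]
  have hi : ∀ i : Fin N, ∫ E, slotSite δ a m ks (fun k => E k i) ∂PL =
      ∫ e, slotSite δ a m ks e ∂gam (Fin T) := fun i =>
    integral_mp ((measurePreserving_eval (fun _ : Fin N => gam (Fin T)) i).comp hflip)
      (measurable_slotSite δ a m ks)
  simp only [hi]
  simp

lemma svar_mono {a b : ℝ} (ha : 0 ≤ a) (hab : a ≤ b) : svar a ≤ svar b := by
  refine integral_mono
    (Up.integrable_bdd ((measurable_clipA a).mul (measurable_clipA a)) (Up.abs_clipA_sq_le ha))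
    (Up.integrable_bdd ((measurable_clipA b).mul (measurable_clipA b))
      (Up.abs_clipA_sq_le (ha.trans hab))) fun x => ?_
  have h : |clipA a x| ≤ |clipA b x| := by
    rcases le_total |x| b with h | h
    · rw [Up.clipA_of_abs_le h]
      exact abs_clipA_le_abs ha x
    · refine (abs_clipA_le ha x).trans (hab.trans ?_)
      rcases le_abs.1 h with h1 | h1
      · rw [clipA, min_eq_left h1, max_eq_right (by linarith), abs_of_nonneg (ha.trans hab)]
      · rw [clipA, min_eq_right (by linarith), max_eq_left (by linarith), abs_neg,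
          abs_of_nonneg (ha.trans hab)]
  calc clipA a x * clipA a x = |clipA a x| * |clipA a x| := (abs_mul_abs_self _).symm
    _ ≤ |clipA b x| * |clipA b x| := mul_le_mul h h (abs_nonneg _) (abs_nonneg _)
    _ = clipA b x * clipA b x := abs_mul_abs_self _

/-- Module U6. -/
theorem init_cube : InitCubeStmt := by
  intro r m q hq S₀ hS η hη R
  have hm : Exps m := ⟨hq.pos, hq.lt_one, hq.strictMono⟩
  obtain ⟨n₀, hn₀⟩ := (Filter.eventually_atTop.1
    (Up.tendsto_svar.eventually (eventually_gt_nhds (show 1 - 2 * η / (|R| + 1) < 1 by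
      have : 0 < 2 * η / (|R| + 1) := by positivity
      linarith))))
  refine ⟨n₀, fun a ha' => ?_⟩
  have ha : 0 ≤ a := (Nat.cast_nonneg _).trans ha'
  have hsv : 1 - 2 * η / (|R| + 1) ≤ svar a :=
    (hn₀ n₀ le_rfl).le.trans (svar_mono (Nat.cast_nonneg _) ha')
  filter_upwards [Filter.eventually_gt_atTop 0] with N hN T ks δ hδ hδT
  set ρ := slotPath δ ks with hρdef
  have hρ : IsFieldPath m ρ := ⟨hq.pos, hq.lt_one, hq.strictMono,
    fun p p' hp => mul_le_mul_of_nonneg_left
      (Finset.sum_le_sum fun t _ => slotDir_mono _ hp) hδ,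
    mul_nonneg hδ (Finset.sum_nonneg fun t _ => slotDir_nonneg _ _)⟩
  have hpair : ∑ p, weight m p * ρ p * q p = δ * ∑ t, tailSum m q (ks t) := by
    simp only [tailSum, hρdef, slotPath, Finset.mul_sum, Finset.sum_mul]
    rw [Finset.sum_comm]
    exact Finset.sum_congr rfl fun t _ => Finset.sum_congr rfl fun p _ => by ring
  have hlast : ρ (Fin.last r) = δ * T := by simp [hρdef, slotPath, slotDir_last]
  have h1 := slotFree_cube_le hN.ne' hδ ha hm ks
  have h2 := hS ρ hρ
  rw [← hρdef, hlast] at h1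
  rw [hpair] at h2
  set Sq := ∑ t, tailSum m q (ks t)
  have hSq : 0 ≤ Sq := Finset.sum_nonneg fun t _ => Finset.sum_nonneg fun p _ =>
    mul_nonneg (slotDir_nonneg _ _) (mul_nonneg (Up.weight_nonneg hm p)
      (hq.nonneg.trans (hq.mono (Fin.zero_le p))))
  have hsum : ∑ t, (tailSum m q (ks t) - 1) = Sq - T := by
    simp [Finset.sum_sub_distrib, Sq]
  rw [hsum]
  have hv1 := Up.svar_le_one ha
  have hv0 : 0 ≤ svar a := integral_nonneg fun x => mul_self_nonneg _
  have hkey : (1 - svar a) * (δ * T) ≤ 2 * η := by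
    refine (mul_le_mul (sub_le_comm.1 hsv) (hδT.trans ((le_abs_self R).trans
      (le_add_of_nonneg_right zero_le_one))) (by positivity) (by positivity)).trans_eq ?_
    field_simp
  have hNr : (0 : ℝ) ≤ N := Nat.cast_nonneg N
  have h3 : 0 ≤ (1 - svar a) * (δ * Sq) := mul_nonneg (by linarith) (mul_nonneg hδ hSq)
  have key : siteValue m ρ + δ * T / 2 + svar a * δ / 2 * (Sq - T) ≤ S₀ + η := by
    linarith
  have := mul_le_mul_of_nonneg_left key hNr
  linarith

end Vale.Agent.P157.Parisi.Full
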