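import Vale.Agent.P157.Full.Statements
import Vale.Agent.P157.Full.BaseFacts
import Vale.Agent.P157.Parisi.Sphere.Perturb.Variance

/-! The perturbation moves the free energy over a base little; the free energy is convex, even and
Lipschitz in the tuning parameters. -/

noncomputable section

open MeasureTheory ProbabilityTheory
open scoped BigOperators NNReal ENNReal

namespace Vale.Agent.P157.Parisi.Full.BaseU

open Vale.Agent.P157.Parisi.Perturb (absJ sum_quarter_le)
open Vale.Agent.P157.Parisi.Sphere (Conf)
open Vale.Agent.P157.Parisi.Sphere.Perturb ( gObs sum_feat_mul overlap_self totalH_update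
  pertH_eq_field)
open Vale.Agent.P168.Limit (gw logZ gav)
open Vale.Agent.P168.Limit.SelfAvg (field field_gap field_gap_on abs_logZ_sub_le' tangent_le
  integrable_logZ_field)
open Vale.Agent.P168.Toolkit (gaussPi)

variable {N L : ℕ} {P : Sphere.Pts N} (B : Base P) {f : ℝ → ℝ} {A : ℝ}

/-- The Hamiltonian without the perturbation. -/
def coreH (f : ℝ → ℝ) (n : ℕ) (g : ℕ → Fin N → ℝ) (ω : B.Ω) (σ : Conf P) : ℝ :=
  logV B ω σ + ∑ a ∈ Finset.range n, f (dot (g a) (Sphere.unitVec σ))

lemma baseH_field (f : ℝ → ℝ) (s : ℝ) (x : Fin L → ℝ) (n : ℕ) (g : ℕ → Fin N → ℝ) (ω : B.Ω)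
    (J : PertIdx N L → ℝ) :
    baseH B f s x ((n, g, J), ω) = fun σ =>
      coreH B f n g ω σ + field (fun (τ : Conf P) (c : PertIdx N L) => s * x c.1 * Sphere.Perturb.feat c τ) J σ := by
  funext σ
  simp only [baseH, Sphere.totalH, coreH, pertH_eq_field, add_assoc]

lemma pow_sum_le [NeZero N] (s : ℝ) {x : Fin L → ℝ} (hx : ∀ p, |x p| ≤ 3) (σ : Conf P) :
    ∑ c : PertIdx N L, (s * x c.1 * Sphere.Perturb.feat c σ) ^ 2 ≤ 4 * s ^ 2 := by
  have e : ∀ p : Fin L, ∑ v : Fin (p.val + 1) → Fin N, (s * x p * Sphere.Perturb.feat ⟨p, v⟩ σ) ^ 2 ≤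
      9 * s ^ 2 * (1 / 4) ^ (p.val + 1) := by
    intro p
    simp only [mul_pow (s * x p), ← Finset.mul_sum, sq (Sphere.Perturb.feat _ σ), sum_feat_mul, overlap_self,
      one_pow, mul_one]
    refine mul_le_mul_of_nonneg_right ?_ (by positivity)
    rw [mul_pow, mul_comm]
    refine mul_le_mul_of_nonneg_right ?_ (sq_nonneg s)
    have h := pow_le_pow_left₀ (abs_nonneg _) (hx p) 2
    rw [sq_abs] at h
    linarith
  rw [Fintype.sum_sigma]
  refine (Finset.sum_le_sum fun p _ => e p).trans ?_
  rw [← Finset.mul_sum]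
  nlinarith [sum_quarter_le L, sq_nonneg s]

theorem free_bounds [NeZero N] (hf : Continuous f) (hb : ∀ y, |f y| ≤ A) (s μ : ℝ)
    {x : Fin L → ℝ} (hx : ∀ p, |x p| ≤ 3) :
    baseFree B f s (fun _ : Fin L => (0 : ℝ)) μ ≤ baseFree B f s x μ ∧
      baseFree B f s x μ ≤ baseFree B f s (fun _ : Fin L => (0 : ℝ)) μ + 2 * s ^ 2 := by
  have i0 := integrable_logZ B hf hb s μ (fun _ : Fin L => (0 : ℝ))
  have i1 := integrable_logZ B hf hb s μ x
  have e0 : ∀ (n : ℕ) (g : ℕ → Fin N → ℝ) (ω : B.Ω) (J : PertIdx N L → ℝ),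
      baseH B f s (fun _ : Fin L => (0 : ℝ)) ((n, g, J), ω) = coreH B f n g ω := by
    intro n g ω J
    rw [baseH_field]
    funext σ
    simp [field]
  rw [baseFree_eq B hf hb, baseFree_eq B hf hb]
  constructor
  · refine integral_le B i0 i1 fun n g ω => ?_
    simp only [e0]
    simp only [baseH_field, integral_const, probReal_univ, one_smul]
    exact (field_gap _ _ fun σ => pow_sum_le s hx σ).1
  · refine le_trans (integral_le B i1 (i0.add (integrable_const (2 * s ^ 2))) fun n g ω => ?_) ?_
    · simp only [Pi.add_apply, e0]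
      simp only [baseH_field, integral_const, probReal_univ, one_smul]
      refine (field_gap _ _ fun σ => pow_sum_le s hx σ).2.trans_eq ?_
      ring
    · simp only [Pi.add_apply]
      rw [integral_add i0 (integrable_const _)]
      simp

lemma baseH_update (f : ℝ → ℝ) (s : ℝ) (x : Fin L → ℝ) (p : Fin L) (t : ℝ)
    (z : Dis N L × B.Ω) (σ : Conf P) :
    baseH B f s (Function.update x p t) z σ =
      baseH B f s (Function.update x p 0) z σ + t * (s * Sphere.Perturb.gObs p z.1.2.2 σ) := by
  simp only [baseH]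
  rw [totalH_update]
  ring

/-- `log Z` is convex along a line. -/
lemma logZ_convex {X : Type*} [Fintype X] [Nonempty X] (H O : X → ℝ) {u v a b : ℝ} (ha : 0 ≤ a)
    (hb : 0 ≤ b) (hab : a + b = 1) :
    logZ (fun σ => H σ + (a * u + b * v) * O σ) ≤
      a * logZ (fun σ => H σ + u * O σ) + b * logZ (fun σ => H σ + v * O σ) := by
  set m := a * u + b * v with hm
  have h1 := tangent_le (fun σ => H σ + m * O σ) O (u - m)
  have h2 := tangent_le (fun σ => H σ + m * O σ) O (v - m)
  have e : ∀ w : ℝ, (fun σ => H σ + m * O σ + (w - m) * O σ) = fun σ => H σ + w * O σ := fun w =>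
    funext fun σ => by ring
  rw [e] at h1 h2
  have h3 := mul_le_mul_of_nonneg_left h1 ha
  have h4 := mul_le_mul_of_nonneg_left h2 hb
  have e1 : a * ((u - m) * gav (fun σ => H σ + m * O σ) O) +
      b * ((v - m) * gav (fun σ => H σ + m * O σ) O) = 0 := by
    linear_combination (-(m * gav (fun σ => H σ + m * O σ) O)) * hab -
      gav (fun σ => H σ + m * O σ) O * hm
  have e2 : a * logZ (fun σ => H σ + m * O σ) + b * logZ (fun σ => H σ + m * O σ) =
      logZ (fun σ => H σ + m * O σ) := by rw [← add_mul, hab, one_mul]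
  linarith

theorem free_convex (hf : Continuous f) (hb : ∀ y, |f y| ≤ A) (s μ : ℝ) (x : Fin L → ℝ)
    (p : Fin L) : ConvexOn ℝ Set.univ (fun y => baseFree B f s (Function.update x p y) μ) := by
  refine ⟨convex_univ, fun u _ v _ a b ha hbn hab => ?_⟩
  simp only [smul_eq_mul, baseFree_eq B hf hb]
  have iu := integrable_logZ B hf hb s μ (Function.update x p u)
  have iv := integrable_logZ B hf hb s μ (Function.update x p v)
  rw [← integral_const_mul, ← integral_const_mul, ← integral_add (iu.const_mul a) (iv.const_mul b)]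
  refine integral_mono (integrable_logZ B hf hb s μ _) ((iu.const_mul a).add (iv.const_mul b))
    fun z => ?_
  have e : ∀ t, baseH B f s (Function.update x p t) z = fun σ =>
      baseH B f s (Function.update x p 0) z σ + t * (s * Sphere.Perturb.gObs p z.1.2.2 σ) := fun t =>
    funext fun σ => baseH_update B f s x p t z σ
  rw [e (a * u + b * v), e u, e v]
  exact logZ_convex (X := Conf P) _ _ ha hbn hab

/-- Change the sign of the coordinates of one power. -/
def flipJ (p : Fin L) (J : PertIdx N L → ℝ) : PertIdx N L → ℝ :=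
  fun c => if c.1 = p then -J c else J c

lemma flipJ_preserving (p : Fin L) :
    MeasurePreserving (flipJ (N := N) p) (gam (PertIdx N L)) (gam (PertIdx N L)) := by
  have h : ∀ c : PertIdx N L, MeasurePreserving (fun t : ℝ => if c.1 = p then -t else t)
      (gaussianReal 0 1) (gaussianReal 0 1) := by
    intro c
    by_cases hc : c.1 = p
    · simp only [hc, if_true]
      exact ⟨measurable_neg, by simpa using gaussianReal_map_neg (μ := (0 : ℝ)) (v := 1)⟩
    · simp only [hc, if_false]
      exact MeasurePreserving.id _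
  exact measurePreserving_pi (fun _ : PertIdx N L => gaussianReal 0 1)
    (fun _ => gaussianReal 0 1) h

theorem free_even (hf : Continuous f) (hb : ∀ y, |f y| ≤ A) (s μ : ℝ) (x : Fin L → ℝ) (p : Fin L)
    (y : ℝ) :
    baseFree B f s (Function.update x p (-y)) μ = baseFree B f s (Function.update x p y) μ := by
  rw [baseFree_eq B hf hb, baseFree_eq B hf hb]
  refine integral_eq B (integrable_logZ B hf hb s μ _) (integrable_logZ B hf hb s μ _) fun n g ω => ?_
  simp only [baseH_field]
  have hm : Measurable fun J => logZ fun σ => coreH B f n g ω σ +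
      field (fun (τ : Conf P) (c : PertIdx N L) => s * Function.update x p y c.1 * Sphere.Perturb.feat c τ) J σ :=
    Vale.Agent.P168.Limit.SelfAvg.measurable_logZ_field _ _
  have hmp := flipJ_preserving (N := N) p
  conv_rhs => rw [← hmp.map_eq]
  rw [integral_map hmp.measurable.aemeasurable hm.aestronglyMeasurable]
  refine integral_congr_ae (ae_of_all _ fun J => congrArg logZ (funext fun σ => ?_))
  simp only [field]
  refine congrArg _ (Finset.sum_congr rfl fun c _ => ?_)
  by_cases hc : c.1 = p
  · simp only [flipJ, hc, Function.update_self, if_true]; ring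
  · simp only [flipJ, hc, Function.update_of_ne hc, if_false]

theorem free_cap [NeZero N] (hf : Continuous f) (hb : ∀ y, |f y| ≤ A) (s μ : ℝ) (x : Fin L → ℝ)
    (p : Fin L) (y : ℝ) :
    baseFree B f s (Function.update x p y) μ ≤
      baseFree B f s (Function.update x p 0) μ + s ^ 2 * (1 / 4) ^ (p.val + 1) * y ^ 2 / 2 := by
  have i1 := integrable_logZ B hf hb s μ (Function.update x p y)
  have i0 := integrable_logZ B hf hb s μ (Function.update x p 0)
  rw [baseFree_eq B hf hb, baseFree_eq B hf hb]
  refine le_trans (integral_le B i1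
    (i0.add (integrable_const (s ^ 2 * (1 / 4) ^ (p.val + 1) * y ^ 2 / 2))) fun n g ω => ?_) ?_
  · simp only [Pi.add_apply, baseH_field]
    rw [integral_add (integrable_logZ_field _ _) (integrable_const _)]
    simp only [integral_const, probReal_univ, one_smul]
    have h := (field_gap_on (coreH B f n g ω)
      (fun (τ : Conf P) (c : PertIdx N L) => s * Function.update x p y c.1 * Sphere.Perturb.feat c τ) (fun c : PertIdx N L => c.1 = p)
      (v := s ^ 2 * (1 / 4) ^ (p.val + 1) * y ^ 2) fun σ => ?_).2
    · refine h.trans_eq (congrArg (fun t : ℝ => t + _) (integral_congr_ae (ae_of_all _ fun J =>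
        congrArg logZ (funext fun σ => ?_))))
      simp only [field]
      refine congrArg _ (Finset.sum_congr rfl fun c _ => ?_)
      by_cases hc : c.1 = p
      · simp [hc]
      · simp [hc]
    · rw [Fintype.sum_sigma, Finset.sum_eq_single p ?_ (by simp)]
      · simp only [if_true, Function.update_self, mul_pow (s * y), ← Finset.mul_sum,
          sq (Sphere.Perturb.feat _ σ), sum_feat_mul, overlap_self, one_pow, mul_one]
        exact le_of_eq (by ring)
      · exact fun q _ hq => Finset.sum_eq_zero fun v _ => if_neg hq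
  · simp only [Pi.add_apply]
    rw [integral_add i0 (integrable_const _)]
    simp

theorem free_lip (hf : Continuous f) (hb : ∀ y, |f y| ≤ A) (s μ : ℝ) (x x' : Fin L → ℝ) :
    |baseFree B f s x μ - baseFree B f s x' μ| ≤
      |s| * (∫ d, absJ d.2.2 ∂disLaw N L μ) * ∑ i, |x i - x' i| := by
  have i1 := integrable_logZ B hf hb s μ x
  have i2 := integrable_logZ B hf hb s μ x'
  rw [baseFree_eq B hf hb, baseFree_eq B hf hb, ← integral_sub i1 i2]
  refine abs_integral_le_integral_abs.trans ((integral_mono (i1.sub i2).abs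
    ((integrable_absJ' B μ).const_mul (|s| * ∑ i, |x i - x' i|)) fun z => ?_).trans_eq ?_)
  · have h := abs_logZ_sub_le' (baseH B f s x' z) (fun σ => Sphere.pertH s (x - x') z.1.2.2 σ)
      fun σ => abs_pertH_le s (x - x') z.1.2.2 σ
    refine le_trans (le_of_eq ?_) h
    simp only [Pi.sub_apply]
    congr 3
    funext σ
    simp only [baseH, Sphere.totalH, Sphere.pertH, Pi.sub_apply, add_assoc, ← Finset.sum_add_distrib]
    congr 2
    exact Finset.sum_congr rfl fun c _ => by ring
  · rw [integral_const_mul, integral_fun_fst (fun d : Dis N L => absJ d.2.2)]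
    simp
    ring

end Vale.Agent.P157.Parisi.Full.BaseU

namespace Vale.Agent.P157.Parisi.Full

open BaseU

/-- Module U2b. -/
theorem pertShapeStmt : PertShapeStmt := by
  intro N L P f A hN hf s μ _
  have : NeZero N := ⟨hN⟩
  have hc := hf.d0.continuous
  refine ⟨|s| * ∫ d, Vale.Agent.P157.Parisi.Perturb.absJ d.2.2 ∂disLaw N L μ,
    fun B => ⟨fun x hx => free_bounds B hc hf.b0 s μ hx, fun x p => ⟨free_convex B hc hf.b0 s μ x p,
      fun y => free_even B hc hf.b0 s μ x p y, fun y => free_cap B hc hf.b0 s μ x p y⟩,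
      fun x x' => free_lip B hc hf.b0 s μ x x'⟩⟩

end Vale.Agent.P157.Parisi.Full
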