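import Vale.Agent.P157.Full.Statements
import Vale.Agent.P157.Parisi.Sphere.Main.Base
import Vale.Agent.P157.Parisi.Sphere.Upper.Step
import Vale.Agent.P157.Parisi.ModA.TiltFactor

/-!
Field slots attached to the levels of a cascade: bounds, and the gain of one more slot.
-/

noncomputable section

open MeasureTheory ProbabilityTheory Filter
open scoped BigOperators Topology

namespace Vale.Agent.P157.Parisi.Full

open Vale.Agent.P168 (genNested)
open Vale.Agent.P168.Cascade
open Vale.Agent.P168.Upper (integral_mp genNested_map genNested_bounds)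

variable {r N L T : ℕ} {P : Sphere.Pts N} {f : ℝ → ℝ} {A δ a : ℝ}

lemma slotDir_mono (k : Fin (r + 1)) : Monotone (slotDir k) := fun p q hpq => by
  simp only [slotDir]
  split_ifs with h1 h2 <;> first | exact le_rfl | exact zero_le_one | exact absurd (h1.trans hpq) h2

lemma slotDir_nonneg (k p : Fin (r + 1)) : 0 ≤ slotDir k p := by
  simp only [slotDir]; split_ifs <;> norm_num

lemma slotDir_le_one (k p : Fin (r + 1)) : slotDir k p ≤ 1 := by
  simp only [slotDir]; split_ifs <;> norm_num

lemma slotDir_last (k : Fin (r + 1)) : slotDir k (Fin.last r) = 1 := if_pos (Fin.le_last k)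

lemma fieldLen_slotDir (k : Fin (r + 1)) : Up.fieldLen (slotDir k) = 1 := by
  have h01 : ∀ p, slotDir k p = 0 ∨ slotDir k p = 1 := fun p => by
    simp only [slotDir]; split_ifs <;> simp
  have h0 : Real.sqrt (slotDir k 0) = slotDir k 0 := by
    rcases h01 0 with h | h <;> simp [h]
  have hi : ∀ p : Fin r, Real.sqrt (Up.inc (slotDir k) p) = Up.inc (slotDir k) p := fun p => by
    have h := Up.inc_nonneg (slotDir_mono k) p
    simp only [Up.inc] at h ⊢
    rcases h01 p.succ with h1 | h1 <;> rcases h01 p.castSucc with h2 | h2 <;> simp_all <;> linarith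
  simp only [Up.fieldLen, h0, hi, Up.sum_inc, slotDir_last]

lemma abs_slotX_le (ha : 0 ≤ a) (ks : Fin T → Fin (r + 1)) (E : Fin T → Fin N → ℝ)
    (σ : Sphere.Conf P) (η : Fin r → Fin T → Fin N → ℝ) :
    |slotX δ a ks E σ η| ≤ T * (Real.sqrt δ * (N * a)) :=
  (Finset.abs_sum_le_sum_abs _ _).trans ((Finset.sum_le_sum (g := fun _ =>
    Real.sqrt δ * (N * a)) fun t _ => (Sphere.Up.abs_fieldX_le ha _ (E t) σ _).trans_eq
      (by rw [fieldLen_slotDir, one_mul])).trans_eq (by simp))

lemma measurable_slotX (δ a : ℝ) (ks : Fin T → Fin (r + 1)) (σ : Sphere.Conf P) :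
    Measurable fun z : (Fin T → Fin N → ℝ) × (Fin r → Fin T → Fin N → ℝ) =>
      slotX δ a ks z.1 σ z.2 := by
  refine Finset.measurable_sum _ fun t _ => ?_
  have h := (Sphere.Up.measurable_fieldZ (N := N) δ a (slotDir (ks t)) σ).log
  simp only [Sphere.Up.fieldZ, Real.log_exp] at h
  exact h.comp (f := fun w : (Fin T → Fin N → ℝ) × (Fin r → Fin T → Fin N → ℝ) =>
    (w.1 t, fun p => w.2 p t)) (((measurable_pi_apply t).comp measurable_fst).prodMk
      (measurable_pi_lambda _ fun p =>
        (measurable_pi_apply t).comp ((measurable_pi_apply p).comp measurable_snd)))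

/-- A bound of the exponent of the weights. -/
def expBd (P : Sphere.Pts N) (f : ℝ → ℝ) (δ a : ℝ) (T : ℕ) (s : ℝ) (x : Fin L → ℝ)
    (d : Dis N L) : ℝ :=
  (∑ σ : Sphere.Conf P, |Sphere.totalH f s x d σ|) + T * (Real.sqrt δ * (N * |a|))

lemma measurable_totalH (hs : Smooth f A) (s : ℝ) (x : Fin L → ℝ) (σ : Sphere.Conf P) :
    Measurable fun d : Dis N L => Sphere.totalH f s x d σ :=
  Measurable.comp (g := fun p : (Fin L → ℝ) × Dis N L => Sphere.totalH f s p.1 p.2 σ)
    (f := fun d : Dis N L => (x, d)) (Sphere.Main.measurable_totalH (s := s) hs σ)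
    (measurable_const.prodMk measurable_id)

lemma integrable_totalH (hs : Smooth f A) (s μ : ℝ) (x : Fin L → ℝ) (σ : Sphere.Conf P) :
    Integrable (fun d : Dis N L => Sphere.totalH f s x d σ) (disLaw N L μ) := by
  have h1 : Integrable (fun d : Dis N L => Sphere.Main.patH f d.1 d.2.1 σ) (disLaw N L μ) :=
    (((P168.Toolkit.integrable_count μ.toNNReal).mul_const A).comp_fst _).mono'
      ((Sphere.Main.measurable_patH hs σ).comp
        (measurable_fst.prodMk measurable_snd.fst)).aestronglyMeasurable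
      (Eventually.of_forall fun d => by
        rw [Real.norm_eq_abs]; exact Sphere.Main.abs_patH_le hs _ _ σ)
  have h2 : Integrable (fun d : Dis N L => Sphere.pertH s x d.2.2 σ) (disLaw N L μ) := by
    have h : Integrable (fun J : PertIdx N L → ℝ => Sphere.pertH s x J σ) (gam (PertIdx N L)) :=
      integrable_finsetSum _ fun c _ =>
        (P168.Toolkit.integrable_eval_gaussPi c).mul_const _
    exact (h.comp_snd (Measure.infinitePi fun _ : ℕ => gam (Fin N))).comp_snd
      (poissonMeasure μ.toNNReal)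
  exact h1.add h2

lemma measurable_expBd (hs : Smooth f A) (δ a : ℝ) (T : ℕ) (s : ℝ) (x : Fin L → ℝ) :
    Measurable (expBd P f δ a T s x) :=
  (Finset.measurable_sum _ fun σ _ => (measurable_totalH hs s x σ).abs).add_const _

lemma integrable_expBd (hs : Smooth f A) (δ a : ℝ) (T : ℕ) (s μ : ℝ) (x : Fin L → ℝ) :
    Integrable (expBd P f δ a T s x) (disLaw N L μ) :=
  (integrable_finsetSum _ fun σ _ => (integrable_totalH hs s μ x σ).abs).add (integrable_const _)

variable {s μ : ℝ} {x : Fin L → ℝ} {m : Fin r → ℝ}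

lemma expBd_nonneg (d : Dis N L) : 0 ≤ expBd P f δ a T s x d := by
  unfold expBd; positivity

lemma abs_exponent_le (ha : 0 ≤ a) (ks : Fin T → Fin (r + 1)) (d : Dis N L)
    (E : Fin T → Fin N → ℝ) (σ : Sphere.Conf P) (η : Fin r → Fin T → Fin N → ℝ) :
    |Sphere.totalH f s x d σ + slotX δ a ks E σ η| ≤ expBd P f δ a T s x d := by
  refine (abs_add_le _ _).trans (add_le_add (Finset.single_le_sum
    (f := fun τ => |Sphere.totalH f s x d τ|) (fun τ _ => abs_nonneg _) (Finset.mem_univ σ)) ?_)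
  rw [abs_of_nonneg ha]
  exact abs_slotX_le ha ks E σ η

lemma wbdd_slotW (ha : 0 ≤ a) (ks : Fin T → Fin (r + 1)) (d : Dis N L)
    (E : Fin T → Fin N → ℝ) :
    Sphere.Up.WBdd (Real.exp (expBd P f δ a T s x d) * P.K)
      (slotW δ a ks (Sphere.totalH (P := P) f s x d) E) := fun σ => by
  have hK := Sphere.Main.K_pos P
  refine ⟨mul_pos (Real.exp_pos _) hK, ?_, fun η => ?_⟩
  · exact (((measurable_slotX δ a ks σ).comp measurable_prodMk_left).const_add _).exp.div_const _
  obtain ⟨h1, h2⟩ := abs_le.1 (abs_exponent_le (δ := δ) (f := f) (s := s) (x := x) ha ks d E σ η)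
  have hK1 : (1 : ℝ) ≤ P.K := by exact_mod_cast P.pos
  refine ⟨?_, ?_⟩
  · rw [mul_inv, ← Real.exp_neg, ← div_eq_mul_inv]
    exact div_le_div_of_nonneg_right (Real.exp_le_exp.2 h1) hK.le
  · exact (div_le_self (Real.exp_pos _).le hK1).trans
      ((Real.exp_le_exp.2 h2).trans (le_mul_of_one_le_right (Real.exp_pos _).le hK1))

lemma bdd_slotW_sum (ha : 0 ≤ a) (ks : Fin T → Fin (r + 1)) (d : Dis N L)
    (E : Fin T → Fin N → ℝ) :
    Bdd (Real.exp (expBd P f δ a T s x d))
      fun η => ∑ σ, slotW δ a ks (Sphere.totalH (P := P) f s x d) E σ η := by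
  have hK := Sphere.Main.K_pos P
  refine ⟨Real.exp_pos _, Finset.measurable_sum _ fun σ _ => (wbdd_slotW ha ks d E σ).meas,
    fun η => ?_⟩
  have hc : ∀ b : ℝ, (∑ _σ : Sphere.Conf P, Real.exp b / P.K) = Real.exp b := fun b => by
    rw [Finset.sum_const, Finset.card_univ, Sphere.Main.card_conf, nsmul_eq_mul]
    field_simp
  rw [← Real.exp_neg, ← hc (-_), ← hc (expBd P f δ a T s x d)]
  exact ⟨Finset.sum_le_sum fun σ _ => div_le_div_of_nonneg_right
      (Real.exp_le_exp.2 (abs_le.1 (abs_exponent_le ha ks d E σ η)).1) hK.le,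
    Finset.sum_le_sum fun σ _ => div_le_div_of_nonneg_right
      (Real.exp_le_exp.2 (abs_le.1 (abs_exponent_le ha ks d E σ η)).2) hK.le⟩

lemma measW_slotW (hs : Smooth f A) (δ a : ℝ) (ks : Fin T → Fin (r + 1)) (s : ℝ)
    (x : Fin L → ℝ) :
    Sphere.Up.MeasW fun (z : Dis N L × (Fin T → Fin N → ℝ)) =>
      slotW δ a ks (Sphere.totalH (P := P) f s x z.1) z.2 := fun σ =>
  (((measurable_totalH hs s x σ).comp (measurable_fst.comp measurable_fst)).add
    ((measurable_slotX δ a ks σ).comp
      ((measurable_snd.comp measurable_fst).prodMk measurable_snd))).exp.div_const _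

/-- The free energy at given disorder and root variables. -/
def slotPhi (P : Sphere.Pts N) (f : ℝ → ℝ) (δ a : ℝ) (m : Fin r → ℝ) (ks : Fin T → Fin (r + 1))
    (s : ℝ) (x : Fin L → ℝ) (z : Dis N L × (Fin T → Fin N → ℝ)) : ℝ :=
  Sphere.Up.Phi (slotLaw T N) m (slotW δ a ks (Sphere.totalH (P := P) f s x z.1) z.2)

lemma abs_slotPhi_le (ha : 0 ≤ a) (hm : Exps m) (ks : Fin T → Fin (r + 1))
    (z : Dis N L × (Fin T → Fin N → ℝ)) :
    |slotPhi P f δ a m ks s x z| ≤ expBd P f δ a T s x z.1 := by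
  obtain ⟨h0, h1, h2⟩ := bdd_slotW_sum (δ := δ) (P := P) (f := f) (s := s) (x := x) ha ks z.1 z.2
  have h := genNested_mem (slotLaw T N) h0 hm h1 h2
  have := abs_log_le h0 h.1 h.2
  rwa [Real.log_exp, abs_of_nonneg (expBd_nonneg _)] at this

lemma measurable_slotPhi (hs : Smooth f A) (δ a : ℝ) (m : Fin r → ℝ)
    (ks : Fin T → Fin (r + 1)) (s : ℝ) (x : Fin L → ℝ) :
    Measurable (slotPhi P f δ a m ks s x) :=
  Sphere.Up.measurable_Phi _ m (measW_slotW hs δ a ks s x)

lemma integrable_slotPhi (hs : Smooth f A) (ha : 0 ≤ a) (hm : Exps m)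
    (ks : Fin T → Fin (r + 1)) (s μ : ℝ) (x : Fin L → ℝ) :
    Integrable (slotPhi P f δ a m ks s x) ((disLaw N L μ).prod (slotLaw T N)) :=
  ((integrable_expBd hs δ a T s μ x).comp_fst _).mono'
    (measurable_slotPhi hs δ a m ks s x).aestronglyMeasurable
    (Eventually.of_forall fun z => by rw [Real.norm_eq_abs]; exact abs_slotPhi_le ha hm ks z)

lemma slotFree_eq (hs : Smooth f A) (ha : 0 ≤ a) (hm : Exps m) (ks : Fin T → Fin (r + 1))
    (s μ : ℝ) (x : Fin L → ℝ) :
    slotFree P f δ a m ks s x μ =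
      ∫ z, slotPhi P f δ a m ks s x z ∂(disLaw N L μ).prod (slotLaw T N) :=
  (integral_prod _ (integrable_slotPhi hs ha hm ks s μ x)).symm

/-- The overlap at given disorder and root variables. -/
def slotB (P : Sphere.Pts N) (f : ℝ → ℝ) (δ a : ℝ) (m : Fin r → ℝ) (ks : Fin T → Fin (r + 1))
    (s : ℝ) (x : Fin L → ℝ) (k : Fin (r + 1)) (z : Dis N L × (Fin T → Fin N → ℝ)) : ℝ :=
  tailSum m (fun p => Sphere.Up.bVal (slotLaw T N) m
    (slotW δ a ks (Sphere.totalH (P := P) f s x z.1) z.2) p) k

lemma abs_slotB_le (ha : 0 ≤ a) (hm : Exps m) (ks : Fin T → Fin (r + 1)) (k : Fin (r + 1))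
    (z : Dis N L × (Fin T → Fin N → ℝ)) : |slotB P f δ a m ks s x k z| ≤ N := by
  simp only [slotB, tailSum]
  refine (Finset.abs_sum_le_sum_abs _ _).trans ?_
  calc ∑ p, |slotDir k p * (weight m p * Sphere.Up.bVal (slotLaw T N) m
        (slotW δ a ks (Sphere.totalH (P := P) f s x z.1) z.2) p)| ≤ ∑ p : Fin (r + 1), weight m p * (N : ℝ) :=
      Finset.sum_le_sum fun p _ => by
        rw [abs_mul, abs_mul, abs_of_nonneg (slotDir_nonneg k p),
          abs_of_nonneg (Up.weight_nonneg hm p)]
        exact (mul_le_of_le_one_left (mul_nonneg (Up.weight_nonneg hm p) (abs_nonneg _))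
          (slotDir_le_one k p)).trans (mul_le_mul_of_nonneg_left
            (Sphere.Up.abs_bVal_le _ hm (wbdd_slotW ha ks _ _) p) (Up.weight_nonneg hm p))
    _ = N := by rw [← Finset.sum_mul, Up.sum_weight, one_mul]

lemma measurable_slotB (hs : Smooth f A) (δ a : ℝ) (m : Fin r → ℝ) (ks : Fin T → Fin (r + 1))
    (s : ℝ) (x : Fin L → ℝ) (k : Fin (r + 1)) :
    Measurable (slotB P f δ a m ks s x k) := by
  have hw := fun σ => (measW_slotW (P := P) hs δ a ks s x σ)
  unfold slotB tailSum
  refine Finset.measurable_sum _ fun p _ => Measurable.const_mul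
    (Measurable.const_mul ?_ (weight m p)) (slotDir k p)
  refine Finset.measurable_sum _ fun i _ => Up.measurable_pairM _ m
    (Finset.measurable_sum _ fun σ _ => hw σ) ?_ ?_ p <;>
  exact Finset.measurable_sum (f := fun σ => fun z : (Dis N L × (Fin T → Fin N → ℝ)) ×
      (Fin r → Fin T → Fin N → ℝ) =>
      slotW δ a ks (Sphere.totalH (P := P) f s x z.1.1) z.1.2 σ z.2 * Sphere.unitVec σ i)
    Finset.univ fun σ _ => (hw σ).mul_const (Sphere.unitVec σ i)

lemma integrable_slotB (hs : Smooth f A) (ha : 0 ≤ a) (hm : Exps m) (ks : Fin T → Fin (r + 1))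
    (s μ : ℝ) (x : Fin L → ℝ) (k : Fin (r + 1)) :
    Integrable (slotB P f δ a m ks s x k) ((disLaw N L μ).prod (slotLaw T N)) :=
  Integrable.of_bound (measurable_slotB hs δ a m ks s x k).aestronglyMeasurable N
    (Eventually.of_forall fun z => by rw [Real.norm_eq_abs]; exact abs_slotB_le ha hm ks k z)

lemma slotOverlap_eq (hs : Smooth f A) (ha : 0 ≤ a) (hm : Exps m) (ks : Fin T → Fin (r + 1))
    (s μ : ℝ) (x : Fin L → ℝ) (k : Fin (r + 1)) :
    slotOverlap P f δ a m ks s x μ k =
      ∫ z, slotB P f δ a m ks s x k z ∂(disLaw N L μ).prod (slotLaw T N) :=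
  (integral_prod _ (integrable_slotB hs ha hm ks s μ x k)).symm

/-- Module U1a. -/
theorem slot_step : SlotStepStmt := by
  intro N L T r P f A hN hs m hm δ a hδ ha hsmall s x μ _ ks k
  set π := (disLaw N L μ).prod (slotLaw T N)
  have hsplit : MeasurePreserving (fun E : Fin (T + 1) → Fin N → ℝ => (E 0, fun j : Fin T => E j.succ))
      (slotLaw (T + 1) N) ((gam (Fin N)).prod (slotLaw T N)) :=
    measurePreserving_piFinSuccAbove (fun _ : Fin (T + 1) => gam (Fin N)) 0
  have hmap : MeasurePreserving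
      (fun E : Fin (T + 1) → Fin N → ℝ => ((fun j : Fin T => E j.succ), E 0))
      (slotLaw (T + 1) N) ((slotLaw T N).prod (gam (Fin N))) :=
    Measure.measurePreserving_swap.comp hsplit
  set G : Dis N L × (Fin (T + 1) → Fin N → ℝ) → ℝ := slotPhi P f δ a m (Fin.cons k ks) s x
  have hG : ∀ (z : Dis N L × (Fin T → Fin N → ℝ)) (e : Fin N → ℝ),
      Sphere.Up.Phi ((slotLaw T N).prod (gam (Fin N))) m
        (Sphere.Up.tens (slotW δ a ks (Sphere.totalH (P := P) f s x z.1) z.2)
          (Sphere.Up.fieldZ δ a (slotDir k) e)) = G (z.1, Fin.cons e z.2) := fun z e => by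
    simp only [G, slotPhi, Sphere.Up.Phi]
    congr 1
    rw [← genNested_map (slotLaw (T + 1) N) ((slotLaw T N).prod (gam (Fin N))) hmap m _
      (Sphere.Up.bdd_sum (Sphere.Up.wbdd_field (δ := δ) ha (slotDir k) (wbdd_slotW ha ks z.1 z.2) e)).meas]
    congr 1
    funext η
    refine Finset.sum_congr rfl fun σ _ => ?_
    simp only [Sphere.Up.tens, slotW, slotX, Sphere.Up.fieldZ, Fin.sum_univ_succ, Fin.cons_zero,
      Fin.cons_succ, Real.exp_add]
    ring
  have hGi : Integrable G ((disLaw N L μ).prod (slotLaw (T + 1) N)) :=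
    integrable_slotPhi hs ha hm _ s μ x
  -- the split of the variables
  have hcons : MeasurePreserving
      (fun z : (Dis N L × (Fin T → Fin N → ℝ)) × (Fin N → ℝ) =>
        (z.1.1, (Fin.cons z.2 z.1.2 : Fin (T + 1) → Fin N → ℝ)))
      (π.prod (gam (Fin N))) ((disLaw N L μ).prod (slotLaw (T + 1) N)) := by
    have h := (measurePreserving_piFinSuccAbove (fun _ : Fin (T + 1) => gam (Fin N)) 0).symm
    have h2 : MeasurePreserving (fun w : (Fin T → Fin N → ℝ) × (Fin N → ℝ) =>
        (Fin.cons w.2 w.1 : Fin (T + 1) → Fin N → ℝ))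
        ((slotLaw T N).prod (gam (Fin N))) (slotLaw (T + 1) N) := by
      have he : (fun w : (Fin T → Fin N → ℝ) × (Fin N → ℝ) =>
          (Fin.cons w.2 w.1 : Fin (T + 1) → Fin N → ℝ)) =
          (MeasurableEquiv.piFinSuccAbove (fun _ : Fin (T + 1) => Fin N → ℝ) 0).symm ∘ Prod.swap := by
        funext w
        simp [MeasurableEquiv.piFinSuccAbove_symm_apply, Fin.insertNthEquiv, Fin.insertNth_zero']
      rw [he]
      exact h.comp Measure.measurePreserving_swap
    exact ((MeasurePreserving.id (disLaw N L μ)).prod h2).comp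
      (measurePreserving_prodAssoc (disLaw N L μ) (slotLaw T N) (gam (Fin N)))
  have hGc : Integrable (fun z : (Dis N L × (Fin T → Fin N → ℝ)) × (Fin N → ℝ) =>
      G (z.1.1, Fin.cons z.2 z.1.2)) (π.prod (gam (Fin N))) := hcons.integrable_comp_of_integrable hGi
  rw [slotFree_eq hs ha hm, slotFree_eq hs ha hm, slotOverlap_eq hs ha hm,
    ← integral_mp hcons (g := G) (measurable_slotPhi hs δ a m _ s x), integral_prod _ hGc]
  set c := Up.svar a * δ / 2
  set e3 := 20 * (Real.sqrt δ * (N * a)) ^ 3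
  have hiB := integrable_slotB (δ := δ) (P := P) hs ha hm ks s μ x k
  have hiP := integrable_slotPhi (δ := δ) (P := P) hs ha hm ks s μ x
  have hi1 : Integrable (fun z => c * (N * (1 - slotB P f δ a m ks s x k z))) π :=
    ((((integrable_const (1 : ℝ)).sub hiB).const_mul _).const_mul _)
  have h := integral_mono
    (f := fun z => slotPhi P f δ a m ks s x z + c * (N * (1 - slotB P f δ a m ks s x k z)) - e3)
    ((hiP.add hi1).sub (integrable_const _)) hGc.integral_prod_left fun z => by
      have h := Sphere.Up.fieldStep (slotLaw T N) tilt_factor hm (slotDir_mono k)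
        (slotDir_nonneg k 0) hδ ha
        (wbdd_slotW (δ := δ) (P := P) (f := f) (s := s) (x := x) ha ks z.1 z.2) hN
        (by rw [fieldLen_slotDir, one_mul]; exact hsmall)
      simp only [hG, fieldLen_slotDir, one_mul, slotDir_last, mul_left_comm (weight m _)] at h
      exact h
  rw [integral_sub (f := fun z => slotPhi P f δ a m ks s x z +
      c * (N * (1 - slotB P f δ a m ks s x k z))) (hiP.add hi1) (integrable_const _),
    integral_add hiP hi1, integral_const_mul, integral_const_mul,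
    integral_sub (integrable_const _) hiB] at h
  simp only [integral_const, probReal_univ, one_smul] at h
  exact h

end Vale.Agent.P157.Parisi.Full
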