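import Vale.Agent.P157.Full.TargetPair
import Vale.Agent.P157.Full.Concave.Basic

/-!
Module L2c: the limit of the truncated averages on a cascade.
-/

noncomputable section

open MeasureTheory ProbabilityTheory Filter Topology Finset
open scoped BigOperators

namespace Vale.Agent.P157.Parisi.Full

open Vale.Agent.P168.Cascade (Exps)
open Site (spread Grow cut gapBound gapMean)
open Concave (B1)

/-! ### Limits of the recursion -/

/-- Measurable and bounded by `B`. -/
structure Nice (B : ℝ) (h : ℝ → ℝ) : Prop where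
  meas : Measurable h
  bound : ∀ x, |h x| ≤ B

variable {A B : ℝ}

lemma Nice.sq {h : ℝ → ℝ} (hh : Nice B h) : Nice (B ^ 2) fun x => h x ^ 2 :=
  ⟨hh.meas.pow_const 2, fun x => by
    rw [abs_pow]; exact pow_le_pow_left₀ (abs_nonneg _) (hh.bound x) 2⟩

lemma grow_level : ∀ {r : ℕ} {m : Fin r → ℝ}, (∀ i, 0 < m i) → ∀ (ρ : Fin (r + 1) → ℝ) (A : ℝ)
    (p : Fin (r + 1)), ∃ A', ∀ ψ, Grow A ψ → Grow A' (level m ρ ψ p) := by
  intro r
  induction r with
  | zero => exact fun _ _ A _ => ⟨A, fun _ h => h⟩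
  | succ r ih =>
    intro m hm ρ A p
    cases p using Fin.cases with
    | zero =>
      obtain ⟨A', hA⟩ := ih (m := Fin.tail m) (fun i => hm i.succ) (Fin.tail ρ) A 0
      exact ⟨_, fun ψ h => (hA ψ h).layer (hm 0) _⟩
    | succ p =>
      obtain ⟨A', hA⟩ := ih (m := Fin.tail m) (fun i => hm i.succ) (Fin.tail ρ) A p
      exact ⟨A', fun ψ h => hA ψ h⟩

lemma nice_tilt {F h : ℝ → ℝ} (hF : Grow A F) {m : ℝ} (hm : 0 ≤ m) (δ : ℝ) (hh : Nice B h) :
    Nice B (tilt m δ F h) := by
  have hw : Measurable fun p : ℝ × ℝ => Real.exp (m * F (p.1 + Real.sqrt δ * p.2)) :=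
    ((hF.meas.comp (by fun_prop)).const_mul m).exp
  have hh2 : Measurable fun p : ℝ × ℝ => h (p.1 + Real.sqrt δ * p.2) :=
    hh.meas.comp (by fun_prop)
  refine ⟨((hw.mul hh2).stronglyMeasurable.integral_prod_right'
      (ν := gaussianReal 0 1)).measurable.div
    (hw.stronglyMeasurable.integral_prod_right' (ν := gaussianReal 0 1)).measurable, fun x => ?_⟩
  have hd := hF.one_le hm x (Real.sqrt δ)
  rw [tilt, abs_div, abs_of_pos (zero_lt_one.trans_le hd), div_le_iff₀ (zero_lt_one.trans_le hd),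
    ← integral_const_mul]
  refine abs_integral_le_integral_abs.trans (integral_mono_of_nonneg
    (ae_of_all _ fun g => abs_nonneg _) ((hF.integrable_exp hm x _).const_mul B)
    (ae_of_all _ fun g => ?_))
  simp only
  rw [abs_mul, abs_of_pos (Real.exp_pos _), mul_comm B]
  exact mul_le_mul_of_nonneg_left (hh.bound _) (Real.exp_pos _).le

variable {F : ℕ → ℝ → ℝ} {G : ℝ → ℝ}

lemma tendsto_weight_integral (hF : ∀ L, Grow A (F L))
    (hlim : ∀ x, Tendsto (fun L => F L x) atTop (𝓝 (G x))) {m : ℝ} (hm : 0 ≤ m)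
    {h : ℕ → ℝ → ℝ} {h' : ℝ → ℝ} (hh : ∀ L, Nice B (h L))
    (hhlim : ∀ x, Tendsto (fun L => h L x) atTop (𝓝 (h' x))) (c x : ℝ) :
    Tendsto (fun L => ∫ g, Real.exp (m * F L (x + c * g)) * h L (x + c * g) ∂gaussianReal 0 1) atTop
      (𝓝 (∫ g, Real.exp (m * G (x + c * g)) * h' (x + c * g) ∂gaussianReal 0 1)) := by
  refine tendsto_integral_of_dominated_convergence
    (fun g => Real.exp (m * (A + |x|)) * Real.exp (m * |c| * |g|) * B)
    (fun L => (((((hF L).meas.comp (by fun_prop)).const_mul m).exp).mul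
      ((hh L).meas.comp (by fun_prop))).aestronglyMeasurable)
    (((Site.integrable_exp_abs _).const_mul _).mul_const _)
    (fun L => ae_of_all _ fun g => ?_) (ae_of_all _ fun g =>
      (((Real.continuous_exp.tendsto _).comp ((hlim _).const_mul m))).mul (hhlim _))
  rw [Real.norm_eq_abs, abs_mul, abs_of_pos (Real.exp_pos _)]
  exact mul_le_mul ((hF L).exp_le hm x c g) ((hh L).bound _) (abs_nonneg _) (by positivity)

lemma nice_one : Nice 1 fun _ => 1 := ⟨measurable_const, fun _ => by simp⟩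

lemma tendsto_tilt (hF : ∀ L, Grow A (F L)) (hG : Grow A G)
    (hlim : ∀ x, Tendsto (fun L => F L x) atTop (𝓝 (G x))) {m : ℝ} (hm : 0 ≤ m) (δ : ℝ)
    {h : ℕ → ℝ → ℝ} {h' : ℝ → ℝ} (hh : ∀ L, Nice B (h L))
    (hhlim : ∀ x, Tendsto (fun L => h L x) atTop (𝓝 (h' x))) (x : ℝ) :
    Tendsto (fun L => tilt m δ (F L) (h L) x) atTop (𝓝 (tilt m δ G h' x)) := by
  have h1 := tendsto_weight_integral hF hlim hm (fun _ => nice_one)
    (fun _ => tendsto_const_nhds) (Real.sqrt δ) x
  simp only [mul_one] at h1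
  exact (tendsto_weight_integral hF hlim hm hh hhlim _ x).div h1
    (zero_lt_one.trans_le (hG.one_le hm x _)).ne'

lemma tendsto_layer (hF : ∀ L, Grow A (F L)) (hG : Grow A G)
    (hlim : ∀ x, Tendsto (fun L => F L x) atTop (𝓝 (G x))) {m : ℝ} (hm : 0 ≤ m) (δ x : ℝ) :
    Tendsto (fun L => layer m δ (F L) x) atTop (𝓝 (layer m δ G x)) := by
  have h1 := tendsto_weight_integral hF hlim hm (fun _ => nice_one)
    (fun _ => tendsto_const_nhds) (Real.sqrt δ) x
  simp only [mul_one] at h1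
  exact (h1.log (zero_lt_one.trans_le (hG.one_le hm x _)).ne').const_mul _

lemma tendsto_level (hF : ∀ L, Grow A (F L)) (hG : Grow A G)
    (hlim : ∀ x, Tendsto (fun L => F L x) atTop (𝓝 (G x))) :
    ∀ {r : ℕ} {m : Fin r → ℝ}, (∀ i, 0 < m i) → ∀ (ρ : Fin (r + 1) → ℝ) (p : Fin (r + 1)) (x : ℝ),
      Tendsto (fun L => level m ρ (F L) p x) atTop (𝓝 (level m ρ G p x)) := by
  intro r
  induction r with
  | zero => exact fun _ _ _ x => hlim x
  | succ r ih =>
    intro m hm ρ p x
    cases p using Fin.cases with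
    | zero =>
      obtain ⟨A', hA⟩ := grow_level (m := Fin.tail m) (fun i => hm i.succ) (Fin.tail ρ) A 0
      exact tendsto_layer (fun L => hA _ (hF L)) (hA _ hG) (ih (fun i => hm i.succ) _ 0) (hm 0).le _ x
    | succ p => exact ih (m := Fin.tail m) (fun i => hm i.succ) (Fin.tail ρ) p x

lemma tendsto_up (hF : ∀ L, Grow A (F L)) (hG : Grow A G)
    (hlim : ∀ x, Tendsto (fun L => F L x) atTop (𝓝 (G x))) {h : ℕ → ℝ → ℝ} {h' : ℝ → ℝ}
    (hh : ∀ L, Nice B (h L)) (hhlim : ∀ x, Tendsto (fun L => h L x) atTop (𝓝 (h' x))) :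
    ∀ {r : ℕ} {m : Fin r → ℝ}, (∀ i, 0 < m i) → ∀ (ρ : Fin (r + 1) → ℝ) (p : Fin (r + 1)),
      (∀ L, Nice B (up m ρ (F L) p (h L))) ∧
        ∀ x, Tendsto (fun L => up m ρ (F L) p (h L) x) atTop (𝓝 (up m ρ G p h' x)) := by
  intro r
  induction r with
  | zero => exact fun _ _ _ => ⟨hh, hhlim⟩
  | succ r ih =>
    intro m hm ρ p
    cases p using Fin.cases with
    | zero =>
      obtain ⟨A', hA⟩ := grow_level (m := Fin.tail m) (fun i => hm i.succ) (Fin.tail ρ) A 0
      obtain ⟨hn, ht⟩ := ih (m := Fin.tail m) (fun i => hm i.succ) (Fin.tail ρ) 0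
      exact ⟨fun L => nice_tilt (hA _ (hF L)) (hm 0).le _ (hn L), fun x =>
        tendsto_tilt (fun L => hA _ (hF L)) (hA _ hG)
          (tendsto_level hF hG hlim (fun i => hm i.succ) _ 0) (hm 0).le _ hn ht x⟩
    | succ p => exact ih (m := Fin.tail m) (fun i => hm i.succ) (Fin.tail ρ) p

lemma tendsto_down (hF : ∀ L, Grow A (F L)) (hG : Grow A G)
    (hlim : ∀ x, Tendsto (fun L => F L x) atTop (𝓝 (G x))) :
    ∀ {r : ℕ} {m : Fin r → ℝ}, (∀ i, 0 < m i) → ∀ (ρ : Fin (r + 1) → ℝ) (p : Fin (r + 1))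
      {h : ℕ → ℝ → ℝ} {h' : ℝ → ℝ}, (∀ L, Nice B (h L)) →
      (∀ x, Tendsto (fun L => h L x) atTop (𝓝 (h' x))) →
      (∀ L, Nice B (down m ρ (F L) p (h L))) ∧
        ∀ x, Tendsto (fun L => down m ρ (F L) p (h L) x) atTop (𝓝 (down m ρ G p h' x)) := by
  intro r
  induction r with
  | zero => exact fun _ _ _ _ _ hh hhlim => ⟨hh, hhlim⟩
  | succ r ih =>
    intro m hm ρ p h h' hh hhlim
    cases p using Fin.cases with
    | zero => exact ⟨hh, hhlim⟩
    | succ p =>
      obtain ⟨A', hA⟩ := grow_level (m := Fin.tail m) (fun i => hm i.succ) (Fin.tail ρ) A 0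
      obtain ⟨hn, ht⟩ := ih (m := Fin.tail m) (fun i => hm i.succ) (Fin.tail ρ) p hh hhlim
      exact ⟨fun L => nice_tilt (hA _ (hF L)) (hm 0).le _ (hn L), fun x =>
        tendsto_tilt (fun L => hA _ (hF L)) (hA _ hG)
          (tendsto_level hF hG hlim (fun i => hm i.succ) _ 0) (hm 0).le _ hn ht x⟩

/-! ### The limiting recursion -/

lemma tilt_add_const (m δ c : ℝ) (F h : ℝ → ℝ) : tilt m δ (fun y => c + F y) h = tilt m δ F h := by
  funext x
  simp only [tilt, mul_add, Real.exp_add, mul_assoc, integral_const_mul]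
  exact mul_div_mul_left _ _ (Real.exp_pos _).ne'

lemma level_shift {φ : ℝ → ℝ} (hφ : Grow A φ) (c : ℝ) :
    ∀ {r : ℕ} {m : Fin r → ℝ}, (∀ i, 0 < m i) → ∀ (ρ : Fin (r + 1) → ℝ) (p : Fin (r + 1)),
      level m ρ (fun y => c + φ y) p = fun x => c + level m ρ φ p x := by
  intro r
  induction r with
  | zero => exact fun _ _ _ => rfl
  | succ r ih =>
    intro m hm ρ p
    cases p using Fin.cases with
    | zero => exact funext fun x => Site.level_add_const hm ρ hφ c x
    | succ p => exact ih (m := Fin.tail m) (fun i => hm i.succ) (Fin.tail ρ) p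

lemma up_down_shift {φ : ℝ → ℝ} (hφ : Grow A φ) (c : ℝ) :
    ∀ {r : ℕ} {m : Fin r → ℝ}, (∀ i, 0 < m i) → ∀ (ρ : Fin (r + 1) → ℝ) (p : Fin (r + 1))
      (h : ℝ → ℝ), up m ρ (fun y => c + φ y) p h = up m ρ φ p h ∧
        down m ρ (fun y => c + φ y) p h = down m ρ φ p h := by
  intro r
  induction r with
  | zero => exact fun _ _ _ _ => ⟨rfl, rfl⟩
  | succ r ih =>
    intro m hm ρ p h
    cases p using Fin.cases with
    | zero =>
      refine ⟨?_, rfl⟩
      show tilt _ _ (level _ _ _ _) _ = tilt _ _ (level _ _ _ _) _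
      rw [level_shift hφ c (m := Fin.tail m) (fun i => hm i.succ) _ 0,
        (ih (m := Fin.tail m) (fun i => hm i.succ) (Fin.tail ρ) 0 h).1, tilt_add_const]
    | succ p =>
      refine ⟨(ih (m := Fin.tail m) (fun i => hm i.succ) (Fin.tail ρ) p h).1, ?_⟩
      show tilt _ _ (level _ _ _ _) _ = tilt _ _ (level _ _ _ _) _
      rw [level_shift hφ c (m := Fin.tail m) (fun i => hm i.succ) _ 0,
        (ih (m := Fin.tail m) (fun i => hm i.succ) (Fin.tail ρ) p h).2, tilt_add_const]

lemma level_logCosh_deriv : ∀ {r : ℕ} {m : Fin r → ℝ}, (∀ i, 0 < m i) →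
    ∀ (ρ : Fin (r + 1) → ℝ) (p : Fin (r + 1)), Differentiable ℝ (level m ρ logCosh p) ∧
      B1 (deriv (level m ρ logCosh p)) ∧
      deriv (level m ρ logCosh p) = up m ρ logCosh p (fun y => Real.sinh y / Real.cosh y) := by
  have hd : ∀ y, HasDerivAt logCosh (Real.sinh y / Real.cosh y) y := fun y =>
    (Real.hasDerivAt_cosh y).log (Real.cosh_pos y).ne'
  intro r
  induction r with
  | zero =>
    intro m hm ρ p
    show Differentiable ℝ logCosh ∧ B1 (deriv logCosh) ∧ deriv logCosh = _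
    refine ⟨fun y => (hd y).differentiableAt, ⟨measurable_deriv _, fun y => ?_⟩,
      funext fun y => (hd y).deriv⟩
    rw [(hd y).deriv, abs_div, abs_of_pos (Real.cosh_pos y), div_le_one (Real.cosh_pos y),
      Real.abs_sinh, ← Real.cosh_abs y]
    exact (Real.sinh_lt_cosh _).le
  | succ r ih =>
    intro m hm ρ p
    cases p using Fin.cases with
    | zero =>
      obtain ⟨h1, h2, h3⟩ := ih (m := Fin.tail m) (fun i => hm i.succ) (Fin.tail ρ) 0
      have hl := Concave.lip1_of_deriv h1 h2.bound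
      have hD := Concave.hasDerivAt_layer_lip (δ := ρ 1 - ρ 0) (hm 0) hl h1 h2
      show Differentiable ℝ (layer _ _ _) ∧ B1 (deriv (layer _ _ _)) ∧ deriv (layer _ _ _) = tilt _ _ _ _
      rw [← h3]
      exact ⟨fun x => (hD x).differentiableAt,
        (funext fun x => (hD x).deriv : deriv _ = _) ▸ Concave.b1_tilt (hm 0).le hl h2,
        funext fun x => (hD x).deriv⟩
    | succ p => exact ih (m := Fin.tail m) (fun i => hm i.succ) (Fin.tail ρ) p

lemma siteSlope_eq {r : ℕ} {m : Fin r → ℝ} (hm : ∀ i, 0 < m i) (ρ : Fin (r + 1) → ℝ)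
    (p : Fin (r + 1)) :
    siteSlope m ρ p = ∫ e, upSq m ρ logCosh (fun y => Real.sinh y / Real.cosh y) p
      (Real.sqrt (ρ 0) * e) ∂gaussianReal 0 1 := by
  simp only [siteSlope, upSq, (level_logCosh_deriv hm ρ p).2.2]

/-! ### The truncated functions -/

lemma integrable_sinh_mul (c x : ℝ) :
    Integrable (fun g => Real.sinh (x + c * g)) (gaussianReal 0 1) :=
  (Site.integrable_cosh_mul c x).mono' (by fun_prop) (ae_of_all _ fun g => by
    rw [Real.norm_eq_abs, Real.abs_sinh, ← Real.cosh_abs]; exact (Real.sinh_lt_cosh _).le)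

lemma spread_sinh {δ : ℝ} (hδ : 0 ≤ δ) (x : ℝ) :
    spread δ Real.sinh x = Real.exp (δ / 2) * Real.sinh x := by
  have hc := Site.spread_cosh hδ x
  have hc' := Site.spread_cosh hδ (-x)
  have e : ∀ g, Real.sinh (x + Real.sqrt δ * g) =
      Real.exp (x + Real.sqrt δ * g) - Real.cosh (x + Real.sqrt δ * g) := fun g => by
    rw [← Real.cosh_add_sinh (x + Real.sqrt δ * g)]; ring
  have hexp : ∫ g, Real.exp (x + Real.sqrt δ * g) ∂gaussianReal 0 1 =
      Real.exp (δ / 2) * Real.exp x := by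
    have h := congrFun (mgf_id_gaussianReal (μ := (0 : ℝ)) (v := (1 : NNReal))) (Real.sqrt δ)
    simp [mgf, Real.sq_sqrt hδ] at h
    simp only [Real.exp_add, integral_const_mul, h]
    ring
  have hi : Integrable (fun g => Real.exp (x + Real.sqrt δ * g)) (gaussianReal 0 1) := by
    simp only [Real.exp_add]
    exact (integrable_exp_mul_gaussianReal _).const_mul _
  simp only [spread, e] at hc ⊢
  rw [integral_sub hi (Site.integrable_cosh_mul _ _), hexp, hc, ← Real.cosh_add_sinh x]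
  ring

lemma pairable_cut {K : ℕ} (hK : 0 < K) :
    Pairable (Real.cosh K) (cut K) (sinCut K) ∧ Pairable (Real.cosh K) (cut K) (cut K) :=
  ⟨⟨Site.continuous_cut K, continuous_sinCut K, Site.one_le_cut hK, Site.cut_le K, abs_sinCut_le hK⟩,
    ⟨Site.continuous_cut K, Site.continuous_cut K, Site.one_le_cut hK, Site.cut_le K,
      (cutFun_cosh hK).dom'⟩⟩

lemma Pairable.mono {M M' : ℝ} {φ ψ : ℝ → ℝ} (h : Pairable M φ ψ) (hM : M ≤ M') :
    Pairable M' φ ψ := { h with high := fun y => (h.high y).trans hM }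

lemma abs_sinh_sub_le {K : ℕ} (hK : 0 < K) (y : ℝ) :
    |sinCut K y - Real.sinh y| ≤ 2 * gapBound K |y| := by
  rw [abs_sub_comm]; exact sinh_sub_sinCut_le hK le_rfl

lemma tendsto_cut (y : ℝ) :
    Tendsto (fun L : ℕ => cut (L + 1) y) atTop (𝓝 (Real.cosh y)) ∧
      Tendsto (fun L : ℕ => sinCut (L + 1) y) atTop (𝓝 (Real.sinh y)) := by
  have h := (Site.tendsto_gapBound (abs_nonneg y)).comp (tendsto_add_atTop_nat 1)
  refine ⟨?_, ?_⟩ <;> rw [tendsto_iff_norm_sub_tendsto_zero] <;>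
    refine squeeze_zero (fun L => norm_nonneg _) (fun L => ?_) (by simpa using h.const_mul 2)
  · rw [Real.norm_eq_abs, abs_sub_comm, abs_of_nonneg (sub_nonneg.2 (Site.cut_le_cosh _ y))]
    linarith [Site.cosh_sub_cut_le L.succ_pos (le_refl |y|),
      Site.gapBound_nonneg (K := L + 1) (abs_nonneg y)]
  · rw [Real.norm_eq_abs]; exact abs_sinh_sub_le L.succ_pos y

lemma tendsto_spread_cut {δ : ℝ} (hδ : 0 ≤ δ) (x : ℝ) :
    Tendsto (fun L : ℕ => spread δ (cut (L + 1)) x) atTop
        (𝓝 (Real.exp (δ / 2) * Real.cosh x)) ∧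
      Tendsto (fun L : ℕ => spread δ (sinCut (L + 1)) x) atTop
        (𝓝 (Real.exp (δ / 2) * Real.sinh x)) := by
  rw [← Site.spread_cosh hδ, ← spread_sinh hδ]
  refine ⟨tendsto_integral_of_dominated_convergence (fun g => Real.cosh (x + Real.sqrt δ * g))
      (fun L => ((Site.continuous_cut _).comp (by fun_prop)).aestronglyMeasurable)
      (Site.integrable_cosh_mul _ _) (fun L => ae_of_all _ fun g => ?_)
      (ae_of_all _ fun g => (tendsto_cut _).1),
    tendsto_integral_of_dominated_convergence (fun g => Real.cosh (x + Real.sqrt δ * g))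
      (fun L => ((continuous_sinCut _).comp (by fun_prop)).aestronglyMeasurable)
      (Site.integrable_cosh_mul _ _) (fun L => ae_of_all _ fun g => ?_)
      (ae_of_all _ fun g => (tendsto_cut _).2)⟩
  · rw [Real.norm_eq_abs, abs_of_nonneg (by linarith [Site.one_le_cut L.succ_pos (x + Real.sqrt δ * g)])]
    exact Site.cut_le_cosh _ _
  · rw [Real.norm_eq_abs, ← Real.cosh_abs]
    exact abs_sinCut_le_cosh le_rfl

lemma grow_log_cut {δ : ℝ} (hδ : 0 ≤ δ) {K : ℕ} (hK : 0 < K) :
    Grow (δ / 2) fun x => Real.log (spread δ (cut K) x) := by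
  have hp := (pairable_cut hK).2.spread δ
  refine ⟨hp.φc.measurable.log, fun x => Real.log_nonneg (hp.low x), fun x => ?_⟩
  rw [Real.log_le_iff_le_exp (by linarith [hp.low x]), Real.exp_add]
  refine le_trans ?_ (mul_le_mul_of_nonneg_left (Site.cosh_le_exp_abs x) (Real.exp_pos _).le)
  rw [← Site.spread_cosh hδ]
  exact integral_mono (integrable_shift (Site.continuous_cut K).measurable (B := Real.cosh K)
    (fun y => by rw [abs_of_nonneg (by linarith [Site.one_le_cut hK y])]; exact Site.cut_le K y) _ _)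
    (Site.integrable_cosh_mul _ _) fun g => Site.cut_le_cosh K _

/-- The limit of the truncated targets at a fixed path. -/
lemma tendsto_pairTarget {r : ℕ} {m : Fin r → ℝ} (hm : Exps m) (q ρ : Fin (r + 1) → ℝ) {δ : ℝ}
    (hδ : 0 ≤ δ) (k : ℕ) :
    Tendsto (fun L : ℕ => pairTarget m q ρ δ k (cut (L + 1)) (sinCut (L + 1))) atTop
      (𝓝 (∑ p, weight m p * (q p ^ k * siteSlope m ρ p))) := by
  have hl : Grow 0 logCosh := Site.grow_logCosh
  have hF : ∀ L : ℕ, Grow (δ / 2) fun x => Real.log (spread δ (cut (L + 1)) x) := fun L =>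
    grow_log_cut hδ L.succ_pos
  have hG : Grow (δ / 2) fun x => δ / 2 + logCosh x :=
    ⟨hl.meas.const_add _, fun x => by have := hl.nonneg x; linarith,
      fun x => by have := hl.le x; linarith⟩
  have hlim : ∀ x, Tendsto (fun L : ℕ => Real.log (spread δ (cut (L + 1)) x)) atTop
      (𝓝 (δ / 2 + logCosh x)) := fun x => by
    have := (tendsto_spread_cut hδ x).1.log (mul_pos (Real.exp_pos _) (Real.cosh_pos x)).ne'
    rwa [Real.log_mul (Real.exp_pos _).ne' (Real.cosh_pos x).ne', Real.log_exp] at this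
  set u : ℕ → ℝ → ℝ := fun L x => spread δ (sinCut (L + 1)) x / spread δ (cut (L + 1)) x
  have hu : ∀ L, Nice 2 (u L) := fun L =>
    have h := cb_ratio ((pairable_cut L.succ_pos).1.spread δ)
    ⟨h.cont.measurable, h.bound⟩
  have hulim : ∀ x, Tendsto (fun L => u L x) atTop (𝓝 (Real.sinh x / Real.cosh x)) := fun x => by
    have := (tendsto_spread_cut hδ x).2.div (tendsto_spread_cut hδ x).1
      (mul_pos (Real.exp_pos _) (Real.cosh_pos x)).ne'
    rwa [mul_div_mul_left _ _ (Real.exp_pos _).ne'] at this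
  simp only [fun L : ℕ => pairTarget_eq (pairable_cut L.succ_pos).1 hm q ρ δ k]
  refine tendsto_finsetSum _ fun p _ => (Tendsto.const_mul _ ?_).const_mul _
  obtain ⟨hn, ht⟩ := tendsto_up hF hG hlim hu hulim hm.pos ρ p
  obtain ⟨hn', ht'⟩ := tendsto_down hF hG hlim hm.pos ρ p (fun L => (hn L).sq)
    fun x => (ht x).pow 2
  rw [siteSlope_eq hm.pos]
  refine tendsto_integral_of_dominated_convergence (fun _ => (2 : ℝ) ^ 2)
    (fun L => ((hn' L).meas.comp (measurable_id.const_mul _)).aestronglyMeasurable)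
    (integrable_const _) (fun L => ae_of_all _ fun e => by rw [Real.norm_eq_abs]; exact (hn' L).bound _)
    (ae_of_all _ fun e => ?_)
  have := ht' (Real.sqrt (ρ 0) * e)
  rw [(up_down_shift hl (δ / 2) hm.pos ρ p _).2] at this
  simp only [(up_down_shift hl (δ / 2) hm.pos ρ p _).1] at this
  exact this

lemma pairTarget_cut_cut {K : ℕ} (hK : 0 < K) {r : ℕ} {m : Fin r → ℝ} (hm : Exps m)
    (q ρ : Fin (r + 1) → ℝ) (δ : ℝ) (k : ℕ) :
    pairTarget m q ρ δ k (cut K) (cut K) = ∑ p, weight m p * q p ^ k := by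
  refine Finset.sum_congr rfl fun p _ => ?_
  have h := (pairable_cut hK).2.spread δ
  simp only [fun e => Up.pairM_self (gaussianReal 0 1) hm (h.bdd ρ e) p]
  simp

/-- The error of two truncations at field variance at most `S`. -/
lemma spread_diff_le {K L : ℕ} (hK : 0 < K) (hL : 0 < L) {v S : ℝ} (hv : 0 ≤ v) (hvS : v ≤ S) :
    spread v (fun y => |sinCut K y - sinCut L y| + |cut K y - cut L y|) 0 ≤
      3 * gapMean S K + 3 * gapMean S L := by
  have hK' := cutFun_sinh hK
  have hL' := cutFun_sinh hL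
  have iK := integrable_cutErr hK hK' (Real.sqrt v) 0
  have iL := integrable_cutErr hL hL' (Real.sqrt v) 0
  refine le_trans ?_ (add_le_add ((spread_cutErr_le hK hK' hv).2 hvS)
    ((spread_cutErr_le hL hL' hv).2 hvS))
  rw [Site.spread, Site.spread, Site.spread, ← integral_add iK iL]
  refine integral_mono_of_nonneg (ae_of_all _ fun g => add_nonneg (abs_nonneg _) (abs_nonneg _))
    (iK.add iL) (ae_of_all _ fun g => ?_)
  simp only [cutErr]
  set y := 0 + Real.sqrt v * g
  have h1 := abs_sub_le (sinCut K y) (Real.sinh y) (sinCut L y)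
  have h2 := abs_sub_le (cut K y) (Real.cosh y) (cut L y)
  rw [abs_sub_comm (sinCut K y) (Real.sinh y)] at h1
  rw [abs_sub_comm (cut K y) (Real.cosh y)] at h2
  linarith

/-- Module L2c. -/
theorem target : TargetStmt := by
  intro S k ε hε
  obtain ⟨K₁, hK₁⟩ := Filter.eventually_atTop.1
    ((Site.tendsto_gapMean S).eventually (gt_mem_nhds (show (0 : ℝ) < ε / 24 by positivity)))
  refine ⟨max K₁ 1, fun K hK r m q ρ δ hq hρ hδ hS => ⟨?_, ?_⟩⟩
  · have hK0 : 0 < K := lt_of_lt_of_le one_pos ((le_max_right _ _).trans hK)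
    have hg := (hK₁ K ((le_max_left _ _).trans hK)).le
    have hv : 0 ≤ ρ (Fin.last r) + δ :=
      add_nonneg (hρ.nonneg.trans (hρ.mono (Fin.zero_le _))) hδ
    have hub : ∀ L : ℕ, |pairTarget m q ρ δ k (cut K) (sinCut K) -
        pairTarget m q ρ δ k (cut (L + 1)) (sinCut (L + 1))| ≤
        24 * gapMean S K + 24 * gapMean S (L + 1) := fun L => by
      refine (pairTarget_sub_le (M := max (Real.cosh K) (Real.cosh (L + 1 : ℕ)))
        ((pairable_cut hK0).1.mono (le_max_left _ _))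
        ((pairable_cut L.succ_pos).1.mono (le_max_right _ _)) hq hρ hδ k).trans ?_
      linarith [spread_diff_le hK0 L.succ_pos hv hS]
    have h1 := ((tendsto_pairTarget hq.exps q ρ hδ k).const_sub
      (pairTarget m q ρ δ k (cut K) (sinCut K))).abs
    have h2 : Tendsto (fun L : ℕ => 24 * gapMean S K + 24 * gapMean S (L + 1)) atTop
        (𝓝 (24 * gapMean S K + 24 * 0)) :=
      ((((Site.tendsto_gapMean S).comp (tendsto_add_atTop_nat 1)).const_mul 24).const_add _)
    refine (le_of_tendsto_of_tendsto h1 h2 (Eventually.of_forall hub)).trans ?_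
    linarith
  · rw [pairTarget_cut_cut (lt_of_lt_of_le one_pos ((le_max_right _ _).trans hK)) hq.exps]
    simpa using hε.le

end Vale.Agent.P157.Parisi.Full
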