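import Vale.Agent.P157.Full.SlotStep
import Vale.Agent.P168.States.IterLimit

/-!
Truncated cascades carry the slots in the limit: free energy and overlaps.
-/

noncomputable section

open MeasureTheory ProbabilityTheory Filter
open scoped BigOperators Topology

namespace Vale.Agent.P157.Parisi.Full

open Vale.Agent.P168 (genNested CascTree cascLaw cascSum cascMean cascFilter)
open Vale.Agent.P168.Cascade
open Vale.Agent.P168.Upper (integral_mp cascFilter_neBot)
open Vale.Agent.P157.Parisi.Up (Node node comp leafVec)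

variable {r N L T : ℕ} {P : Sphere.Pts N} {f : ℝ → ℝ} {A δ a s μ : ℝ} {x : Fin L → ℝ}
  {m : Fin r → ℝ} {n : Fin r → ℕ} {ks : Fin T → Fin (r + 1)}

/-- Averages of products of unit vectors and short nonnegative ones. -/
lemma pair_le {X ι κ : Type} [Fintype X] [Fintype ι] [Fintype κ] {p : X → ℝ} (hp : ∀ x, 0 ≤ p x)
    {u : X → ι → ℝ} {v : X → κ → ℝ} (hv : ∀ x c, 0 ≤ v x c) (hv1 : ∀ x, ∑ c, v x c ^ 2 ≤ 1)
    (b : ℝ) :
    ∑ i, ∑ c, (∑ x, p x * (u x i * v x c)) ^ 2 ≤
      (∑ x, ∑ y, p x * p y * max (dot (u x) (u y) - b) 0) + b * ∑ c, (∑ x, p x * v x c) ^ 2 := by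
  set R : X → X → ℝ := fun x y => dot (u x) (u y)
  set V : X → X → ℝ := fun x y => dot (v x) (v y)
  have e1 : ∑ i, ∑ c, (∑ x, p x * (u x i * v x c)) ^ 2 = ∑ x, ∑ y, p x * p y * (R x y * V x y) := by
    simp only [sq, Finset.sum_mul_sum]
    rw [Finset.sum_congr rfl fun i _ => Finset.sum_comm, Finset.sum_comm]
    refine Finset.sum_congr rfl fun z _ => ?_
    rw [Finset.sum_congr rfl fun i _ => Finset.sum_comm, Finset.sum_comm]
    refine Finset.sum_congr rfl fun w _ => ?_
    simp only [R, V, dot]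
    rw [Finset.sum_mul_sum, Finset.mul_sum]
    refine Finset.sum_congr rfl fun i _ => ?_
    rw [Finset.mul_sum]
    exact Finset.sum_congr rfl fun c _ => by ring
  have e2 : ∑ c, (∑ x, p x * v x c) ^ 2 = ∑ x, ∑ y, p x * p y * V x y := by
    simp only [sq, Finset.sum_mul_sum]
    rw [Finset.sum_comm]
    refine Finset.sum_congr rfl fun z _ => ?_
    rw [Finset.sum_comm]
    refine Finset.sum_congr rfl fun w _ => ?_
    simp only [V, dot, Finset.mul_sum]
    exact Finset.sum_congr rfl fun c _ => by ring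
  rw [e1, e2, Finset.mul_sum, ← Finset.sum_add_distrib]
  refine Finset.sum_le_sum fun x _ => ?_
  rw [Finset.mul_sum, ← Finset.sum_add_distrib]
  refine Finset.sum_le_sum fun y _ => ?_
  have hV0 : 0 ≤ V x y := Finset.sum_nonneg fun c _ => mul_nonneg (hv x c) (hv y c)
  have hV1 : V x y ≤ 1 := by
    calc V x y ≤ ∑ c, (v x c ^ 2 + v y c ^ 2) / 2 := Finset.sum_le_sum fun c _ => by
          nlinarith [sq_nonneg (v x c - v y c)]
      _ ≤ 1 := by rw [← Finset.sum_div, Finset.sum_add_distrib]; linarith [hv1 x, hv1 y]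
  have h : R x y * V x y ≤ max (R x y - b) 0 + b * V x y := by
    nlinarith [le_max_left (R x y - b) 0, le_max_right (R x y - b) 0]
  have := mul_le_mul_of_nonneg_left h (mul_nonneg (hp x) (hp y))
  linarith

/-- The sum of the squared components of the magnetisations along a slot. -/
def magSq (w : Sphere.Conf P → (Fin r → Fin T → Fin N → ℝ) → ℝ) (m : Fin r → ℝ) (n : Fin r → ℕ)
    (k : Fin (r + 1)) (t : CascTree (Fin T → Fin N → ℝ) r n) : ℝ :=
  ∑ i, ∑ c, comp m n (slotDir k) (fun η => ∑ σ, w σ η) (Sphere.Up.mag w i) t c ^ 2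

/-- The same for the total weight. -/
def massSq (w : Sphere.Conf P → (Fin r → Fin T → Fin N → ℝ) → ℝ) (m : Fin r → ℝ) (n : Fin r → ℕ)
    (k : Fin (r + 1)) (t : CascTree (Fin T → Fin N → ℝ) r n) : ℝ :=
  ∑ c, comp m n (slotDir k) (fun η => ∑ σ, w σ η) (fun η => ∑ σ, w σ η) t c ^ 2

/-- The weight of a configuration on the tree. -/
def treeW (w : Sphere.Conf P → (Fin r → Fin T → Fin N → ℝ) → ℝ) (m : Fin r → ℝ) (n : Fin r → ℕ)
    (t : CascTree (Fin T → Fin N → ℝ) r n) (σ : Sphere.Conf P) : ℝ :=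
  cascSum r m n (w σ) t / cascSum r m n (fun η => ∑ τ, w τ η) t

lemma sum_treeW {C : ℝ} {w : Sphere.Conf P → (Fin r → Fin T → Fin N → ℝ) → ℝ}
    (hw : Sphere.Up.WBdd C w) (hn : ∀ i, 0 < n i) {t : CascTree (Fin T → Fin N → ℝ) r n}
    (ht : GoodTree r n t) : ∑ σ, treeW w m n t σ = 1 := by
  have h := (cascSum_pos (Sphere.Up.bdd_sum hw) m hn ht).2
  simp only [treeW, ← Finset.sum_div]
  rw [div_eq_one_iff_eq h.ne']
  simp only [cascSum_eq_sum_leaves, Finset.mul_sum]
  exact Finset.sum_comm

lemma treeW_nonneg {C : ℝ} {w : Sphere.Conf P → (Fin r → Fin T → Fin N → ℝ) → ℝ}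
    (hw : Sphere.Up.WBdd C w) {t : CascTree (Fin T → Fin N → ℝ) r n}
    (ht : GoodTree r n t) (σ : Sphere.Conf P) : 0 ≤ treeW w m n t σ := by
  simp only [treeW, cascSum_eq_sum_leaves]
  exact div_nonneg (Finset.sum_nonneg fun l _ =>
    mul_nonneg (leafW_pos _ _ _ _ _ ht).le ((hw σ).gt_zero _).le)
    (Finset.sum_nonneg fun l _ => mul_nonneg (leafW_pos _ _ _ _ _ ht).le
      (Finset.sum_nonneg fun σ _ => ((hw σ).gt_zero _).le))

/-- Overlaps on the levels of a slot against all overlaps above a height. -/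
lemma magSq_le {C : ℝ} {w : Sphere.Conf P → (Fin r → Fin T → Fin N → ℝ) → ℝ}
    (hw : Sphere.Up.WBdd C w) (hn : ∀ i, 0 < n i) {t : CascTree (Fin T → Fin N → ℝ) r n}
    (ht : GoodTree r n t) (k : Fin (r + 1)) (b : ℝ) :
    magSq w m n k t ≤
      (∑ σ, ∑ τ, treeW w m n t σ * treeW w m n t τ * max (Sphere.overlap σ τ - b) 0) +
        b * massSq w m n k t ∧
    massSq w m n k t ≤ 1 := by
  set S := cascSum r m n (fun η => ∑ σ, w σ η) t with hS_def
  have hS : 0 < S := (cascSum_pos (Sphere.Up.bdd_sum hw) m hn ht).2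
  let p : Sphere.Conf P × Leaf r n → ℝ := fun z =>
    leafW r m n t z.2 * w z.1 (leafMarks r n t z.2) / S
  have hp : ∀ z, 0 ≤ p z := fun z =>
    div_nonneg (mul_nonneg (leafW_pos _ _ _ _ _ ht).le ((hw z.1).gt_zero _).le) hS.le
  have hv : ∀ (z : Sphere.Conf P × Leaf r n) (c : Option (Node r n)),
      0 ≤ leafVec n (slotDir k) z.2 c := fun z c => by
    cases c with
    | none => exact Real.sqrt_nonneg _
    | some c =>
      classical exact Finset.sum_nonneg fun p _ => ite_nonneg (Real.sqrt_nonneg _) le_rfl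
  have hv1 : ∀ z : Sphere.Conf P × Leaf r n, ∑ c, leafVec n (slotDir k) z.2 c ^ 2 ≤ 1 := fun z =>
    ((Up.sum_leafVec_sq n (slotDir_mono k) (slotDir_nonneg k 0) z.2).trans (slotDir_last k)).le
  have hσ : ∀ σ, ∑ l, p (σ, l) = treeW w m n t σ := fun σ => by
    simp only [p, treeW, ← Finset.sum_div, ← cascSum_eq_sum_leaves, hS_def]
  have hsum : ∀ g : Sphere.Conf P → ℝ, ∀ c : Option (Node r n),
      comp m n (slotDir k) (fun η => ∑ σ, w σ η) (fun η => ∑ σ, w σ η * g σ) t c =
        ∑ z, p z * (g z.1 * leafVec n (slotDir k) z.2 c) := fun g c => by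
    rw [comp, Fintype.sum_prod_type_right, Finset.sum_div, ← hS_def]
    refine Finset.sum_congr rfl fun l _ => ?_
    rw [Finset.sum_mul, Finset.mul_sum, Finset.sum_div]
    exact Finset.sum_congr rfl fun σ _ => by simp only [p]; ring
  have hG : massSq w m n k t = ∑ c, (∑ z, p z * leafVec n (slotDir k) z.2 c) ^ 2 := by
    have h := hsum fun _ => 1
    simp only [mul_one, one_mul] at h
    simp only [massSq, h]
  have hF : magSq w m n k t =
      ∑ i, ∑ c, (∑ z, p z * (Sphere.unitVec z.1 i * leafVec n (slotDir k) z.2 c)) ^ 2 := by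
    refine Finset.sum_congr rfl fun i _ => Finset.sum_congr rfl fun c _ => ?_
    exact congrArg (· ^ 2) (hsum (fun σ => Sphere.unitVec σ i) c)
  refine ⟨?_, ?_⟩
  · rw [hF, hG]
    refine (pair_le hp hv hv1 b).trans_eq (congrArg (· + _) ?_)
    simp only [Fintype.sum_prod_type, ← Finset.sum_mul, ← Finset.mul_sum, hσ]
    refine Finset.sum_congr rfl fun σ _ => ?_
    simp only [mul_assoc, ← Finset.mul_sum, ← Finset.sum_mul, hσ]
    rfl
  · have h1 : ∑ z, p z = 1 := by
      rw [Fintype.sum_prod_type]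
      simp only [hσ, sum_treeW hw hn ht]
    have h := pair_le (ι := Unit) hp (u := fun _ _ => (1 : ℝ)) hv hv1 0
    simp only [Finset.univ_unique, Finset.sum_singleton, one_mul, dot, sub_zero, zero_mul,
      add_zero, max_eq_left (zero_le_one' ℝ), mul_one, ← Finset.mul_sum, h1] at h
    rwa [hG]

lemma sq_bounds {C : ℝ} {w : Sphere.Conf P → (Fin r → Fin T → Fin N → ℝ) → ℝ}
    (hw : Sphere.Up.WBdd C w) (hn : ∀ i, 0 < n i) {t : CascTree (Fin T → Fin N → ℝ) r n}
    (ht : GoodTree r n t) (k : Fin (r + 1)) :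
    0 ≤ magSq w m n k t ∧ magSq w m n k t ≤ 1 ∧ 0 ≤ massSq w m n k t ∧ massSq w m n k t ≤ 1 := by
  refine ⟨by unfold magSq; positivity, ?_, by unfold massSq; positivity, (magSq_le hw hn ht k 0).2⟩
  refine (magSq_le hw hn ht k 0).1.trans ?_
  rw [zero_mul, add_zero]
  calc ∑ σ, ∑ τ, treeW w m n t σ * treeW w m n t τ * max (Sphere.overlap σ τ - 0) 0
      ≤ ∑ σ, ∑ τ, treeW w m n t σ * treeW w m n t τ := Finset.sum_le_sum fun σ _ =>
        Finset.sum_le_sum fun τ _ => mul_le_of_le_one_right
          (mul_nonneg (treeW_nonneg hw ht σ) (treeW_nonneg hw ht τ))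
          (max_le ((le_of_eq (sub_zero _)).trans ((le_abs_self _).trans
            (Sphere.Main.abs_overlap_le σ τ))) zero_le_one)
    _ = 1 := by rw [← Finset.sum_mul_sum, sum_treeW hw hn ht, one_mul]

/-- The weights at given disorder and root variables. -/
abbrev wAt (P : Sphere.Pts N) (f : ℝ → ℝ) (δ a : ℝ) (ks : Fin T → Fin (r + 1)) (s : ℝ)
    (x : Fin L → ℝ) (z : Dis N L × (Fin T → Fin N → ℝ)) :
    Sphere.Conf P → (Fin r → Fin T → Fin N → ℝ) → ℝ :=
  slotW δ a ks (Sphere.totalH (P := P) f s x z.1) z.2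

lemma measurable_sqs (hs : Smooth f A) (δ a : ℝ) (ks : Fin T → Fin (r + 1)) (s : ℝ)
    (x : Fin L → ℝ) (m : Fin r → ℝ) (n : Fin r → ℕ) (k : Fin (r + 1)) :
    Measurable (fun z : (Dis N L × (Fin T → Fin N → ℝ)) × CascTree (Fin T → Fin N → ℝ) r n =>
        magSq (wAt P f δ a ks s x z.1) m n k z.2) ∧
      Measurable fun z : (Dis N L × (Fin T → Fin N → ℝ)) × CascTree (Fin T → Fin N → ℝ) r n =>
        massSq (wAt P f δ a ks s x z.1) m n k z.2 := by
  have hw := fun σ => measW_slotW (P := P) hs δ a ks s x σ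
  have hW : Measurable (Function.uncurry fun (z : Dis N L × (Fin T → Fin N → ℝ))
      (η : Fin r → Fin T → Fin N → ℝ) => ∑ σ, wAt P f δ a ks s x z σ η) :=
    Finset.measurable_sum _ fun σ _ => hw σ
  have hc : ∀ (g : (Dis N L × (Fin T → Fin N → ℝ)) → (Fin r → Fin T → Fin N → ℝ) → ℝ),
      Measurable (Function.uncurry g) → ∀ c, Measurable fun
        z : (Dis N L × (Fin T → Fin N → ℝ)) × CascTree (Fin T → Fin N → ℝ) r n =>
          comp m n (slotDir k) (fun η => ∑ σ, wAt P f δ a ks s x z.1 σ η) (g z.1) z.2 c := by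
    intro g hg c
    exact (Finset.measurable_sum _ fun l _ => ((measurable_leafW r m n l).comp measurable_snd).mul
      ((hg.comp (measurable_fst.prodMk ((measurable_leafMarks r n l).comp measurable_snd))).mul_const
        (leafVec n (slotDir k) l c))).div (Up.measurable_cascSum_param m n hW)
  refine ⟨Finset.measurable_sum _ fun i _ => Finset.measurable_sum _ fun c _ =>
    (hc (fun z => Sphere.Up.mag (wAt P f δ a ks s x z) i) ?_ c).pow_const 2,
    Finset.measurable_sum _ fun c _ => (hc _ hW c).pow_const 2⟩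
  exact Finset.measurable_sum (f := fun σ => fun z : (Dis N L × (Fin T → Fin N → ℝ)) ×
      (Fin r → Fin T → Fin N → ℝ) => wAt P f δ a ks s x z.1 σ z.2 * Sphere.unitVec σ i)
    Finset.univ fun σ _ => (hw σ).mul_const (Sphere.unitVec σ i)

/-- The truncation is not felt. -/
lemma truncV_mul (ha : 0 ≤ a) (hn : ∀ i, 0 < n i) (d : Dis N L) (E : Fin T → Fin N → ℝ)
    {t : CascTree (Fin T → Fin N → ℝ) r n} (ht : GoodTree r n t) (σ : Sphere.Conf P) :
    truncV δ a m ks n (E, t) σ * Real.exp (Sphere.totalH f s x d σ) =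
      cascMean m n (slotW δ a ks (Sphere.totalH (P := P) f s x d) E σ) t := by
  set M := (T : ℝ) * (Real.sqrt δ * (N * a))
  have hY : Bdd (Real.exp M) fun η => Real.exp (slotX δ a ks E σ η) :=
    ⟨Real.exp_pos _, ((measurable_slotX δ a ks σ).comp measurable_prodMk_left).exp, fun η => by
      obtain ⟨h1, h2⟩ := abs_le.1 (abs_slotX_le (δ := δ) ha ks E σ η)
      rw [← Real.exp_neg]
      exact ⟨Real.exp_le_exp.2 h1, Real.exp_le_exp.2 h2⟩⟩
  have h1 := (cascSum_pos hY m hn ht).2
  have h0 := cascSum_one_pos m hn ht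
  have h3 := Up.abs_log_cascMean_le hY m n ht
  rw [Real.log_exp, abs_of_nonneg (by positivity : 0 ≤ M)] at h3
  have hc : (0 < cascSum r m n (fun η => Real.exp (slotX δ a ks E σ η)) t ∧
      0 < cascSum r m n (fun _ => 1) t ∧
      |Real.log (cascSum r m n (fun η => Real.exp (slotX δ a ks E σ η)) t /
        cascSum r m n (fun _ => 1) t)| ≤ T * (Real.sqrt δ * (N * |a|))) :=
    ⟨h1, h0, by rw [abs_of_nonneg ha]; exact h3⟩
  simp only [truncV]
  rw [if_pos hc, cascMean,
    show slotW δ a ks (Sphere.totalH (P := P) f s x d) E σ = fun η =>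
      Real.exp (Sphere.totalH f s x d σ) / P.K * Real.exp (slotX δ a ks E σ η) from
      funext fun η => by simp only [slotW, Real.exp_add]; ring, cascSum_smul]
  ring

lemma trunc_weights (ha : 0 ≤ a) (hn : ∀ i, 0 < n i) (d : Dis N L) (E : Fin T → Fin N → ℝ)
    {t : CascTree (Fin T → Fin N → ℝ) r n} (ht : GoodTree r n t) :
    basePsi (truncBase P δ a m ks n) f s x d (E, t) = Real.log
        (cascMean m n (fun η => ∑ σ, slotW δ a ks (Sphere.totalH (P := P) f s x d) E σ η) t) ∧
      ∀ σ, truncV δ a m ks n (E, t) σ * Real.exp (Sphere.totalH f s x d σ) /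
          ∑ τ : Sphere.Conf P,
            truncV δ a m ks n (E, t) τ * Real.exp (Sphere.totalH f s x d τ) =
        treeW (wAt P f δ a ks s x (d, E)) m n t σ := by
  have hsum : ∑ τ : Sphere.Conf P,
      truncV δ a m ks n (E, t) τ * Real.exp (Sphere.totalH f s x d τ) =
      cascMean m n (fun η => ∑ σ, slotW δ a ks (Sphere.totalH (P := P) f s x d) E σ η) t := by
    simp only [truncV_mul ha hn d E ht, cascMean, ← Finset.sum_div, cascSum_eq_sum_leaves,
      Finset.mul_sum]
    rw [Finset.sum_comm]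
  refine ⟨congrArg Real.log hsum, fun σ => ?_⟩
  rw [hsum, truncV_mul ha hn d E ht, cascMean, cascMean,
    div_div_div_cancel_right₀ (cascSum_one_pos m hn ht).ne']
  rfl

/-- The mean free energy on a tree, at given disorder and root variables. -/
def treeFree (P : Sphere.Pts N) (f : ℝ → ℝ) (δ a : ℝ) (m : Fin r → ℝ) (ks : Fin T → Fin (r + 1))
    (s : ℝ) (x : Fin L → ℝ) (n : Fin r → ℕ) (z : Dis N L × (Fin T → Fin N → ℝ)) : ℝ :=
  ∫ t, Real.log (cascMean m n (fun η => ∑ σ, wAt P f δ a ks s x z σ η) t)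
    ∂cascLaw (slotLaw T N) r n

lemma measurable_treeLog (hs : Smooth f A) (δ a : ℝ) (ks : Fin T → Fin (r + 1)) (s : ℝ)
    (x : Fin L → ℝ) (m : Fin r → ℝ) (n : Fin r → ℕ) :
    Measurable fun w : (Dis N L × (Fin T → Fin N → ℝ)) × CascTree (Fin T → Fin N → ℝ) r n =>
      Real.log (cascMean m n (fun η => ∑ σ, wAt P f δ a ks s x w.1 σ η) w.2) := by
  have hW : Measurable (Function.uncurry fun (z : Dis N L × (Fin T → Fin N → ℝ))
      (η : Fin r → Fin T → Fin N → ℝ) => ∑ σ, wAt P f δ a ks s x z σ η) :=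
    Finset.measurable_sum _ fun σ _ => measW_slotW hs δ a ks s x σ
  exact ((Up.measurable_cascSum_param m n hW).div (Up.measurable_cascSum_param m n
    (Y := fun _ _ => (1 : ℝ)) measurable_const)).log

lemma measurable_treeFree (hs : Smooth f A) (δ a : ℝ) (m : Fin r → ℝ) (ks : Fin T → Fin (r + 1))
    (s : ℝ) (x : Fin L → ℝ) (n : Fin r → ℕ) : Measurable (treeFree P f δ a m ks s x n) :=
  ((measurable_treeLog hs δ a ks s x m n).stronglyMeasurable.integral_prod_right'
    (ν := cascLaw (slotLaw T N) r n)).measurable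

lemma abs_treeLog_le (ha : 0 ≤ a) (m : Fin r → ℝ) (ks : Fin T → Fin (r + 1)) (n : Fin r → ℕ)
    (z : Dis N L × (Fin T → Fin N → ℝ)) {t : CascTree (Fin T → Fin N → ℝ) r n}
    (ht : GoodTree r n t) :
    |Real.log (cascMean m n (fun η => ∑ σ, wAt P f δ a ks s x z σ η) t)| ≤
      expBd P f δ a T s x z.1 := by
  have h := Up.abs_log_cascMean_le (bdd_slotW_sum (δ := δ) (P := P) (f := f) (s := s) (x := x)
    ha ks z.1 z.2) m n ht
  rwa [Real.log_exp, abs_of_nonneg (expBd_nonneg _)] at h

lemma abs_treeFree_le (ha : 0 ≤ a) (m : Fin r → ℝ) (ks : Fin T → Fin (r + 1)) (n : Fin r → ℕ)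
    (z : Dis N L × (Fin T → Fin N → ℝ)) :
    |treeFree P f δ a m ks s x n z| ≤ expBd P f δ a T s x z.1 := by
  have h := norm_integral_le_of_norm_le_const (μ := cascLaw (slotLaw T N) r n)
    (f := fun t => Real.log (cascMean m n (fun η => ∑ σ, wAt P f δ a ks s x z σ η) t))
    (C := expBd P f δ a T s x z.1) ((ae_good _ r n).mono fun t ht => by
      rw [Real.norm_eq_abs]; exact abs_treeLog_le ha m ks n z ht)
  simp only [probReal_univ, mul_one, Real.norm_eq_abs] at h
  exact h

lemma integral_treeFree (hs : Smooth f A) (ha : 0 ≤ a) (hn : ∀ i, 0 < n i)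
    (ks : Fin T → Fin (r + 1)) (d : Dis N L) :
    ∫ E, treeFree P f δ a m ks s x n (d, E) ∂slotLaw T N =
      ∫ ω, basePsi (truncBase P δ a m ks n) f s x d ω ∂(truncBase P δ a m ks n).law := by
  set F : (Fin T → Fin N → ℝ) × CascTree (Fin T → Fin N → ℝ) r n → ℝ := fun ω =>
    Real.log (cascMean m n (fun η => ∑ σ, wAt P f δ a ks s x (d, ω.1) σ η) ω.2)
  have hpair : Measurable fun ω : (Fin T → Fin N → ℝ) × CascTree (Fin T → Fin N → ℝ) r n =>
      ((d, ω.1), ω.2) := (measurable_const.prodMk measurable_fst).prodMk measurable_snd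
  have hFm : Measurable F := by
    have h := (measurable_treeLog (P := P) hs δ a ks s x m n).comp hpair
    exact h
  have hgood : ∀ᵐ ω ∂(slotLaw T N).prod (cascLaw (slotLaw T N) r n), GoodTree r n ω.2 :=
    Measure.quasiMeasurePreserving_snd.ae (ae_good _ r n)
  have hFi : Integrable F ((slotLaw T N).prod (cascLaw (slotLaw T N) r n)) :=
    Integrable.of_bound hFm.aestronglyMeasurable (expBd P f δ a T s x d) (hgood.mono fun ω hω => by
      rw [Real.norm_eq_abs]; exact abs_treeLog_le ha m ks n (d, ω.1) hω)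
  exact (integral_prod _ hFi).symm.trans (integral_congr_ae (hgood.mono fun ω hω =>
    (trunc_weights (f := f) (s := s) (x := x) ha hn d ω.1 hω).1.symm))

lemma trunc_free (hs : Smooth f A) (hm : Exps m) (ha : 0 ≤ a) (ks : Fin T → Fin (r + 1))
    (s μ : ℝ) (x : Fin L → ℝ) :
    Tendsto (fun n => baseFree (truncBase P δ a m ks n) f s x μ) (cascFilter r)
      (𝓝 (slotFree P f δ a m ks s x μ)) := by
  have hbi : Integrable (fun z : Dis N L × (Fin T → Fin N → ℝ) => expBd P f δ a T s x z.1)
      ((disLaw N L μ).prod (slotLaw T N)) := (integrable_expBd hs δ a T s μ x).comp_fst _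
  have hlim := Vale.Agent.P168.States.tendsto_integral_cascFilter
    (μ := (disLaw N L μ).prod (slotLaw T N)) (g := fun n => treeFree P f δ a m ks s x n)
    (f := slotPhi P f δ a m ks s x) (measurable_treeFree hs δ a m ks s x)
    (measurable_slotPhi hs δ a m ks s x)
    ((measurable_expBd hs δ a T s x).comp measurable_fst) hbi
    (Eventually.of_forall fun n => Eventually.of_forall (abs_treeFree_le ha m ks n))
    (Eventually.of_forall (abs_slotPhi_le ha hm ks))
    (Eventually.of_forall fun z =>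
      have hY := bdd_slotW_sum (δ := δ) (P := P) (f := f) (s := s) (x := x) ha ks z.1 z.2
      cascadeLog (Fin T → Fin N → ℝ) (slotLaw T N) r m hm.pos hm.lt_one hm.mono _ _
        hY.pos hY.meas hY.mem)
  rw [← slotFree_eq hs ha hm] at hlim
  refine hlim.congr' ((eventually_pos r).mono fun n hn => ?_)
  have hgi : Integrable (treeFree P f δ a m ks s x n) ((disLaw N L μ).prod (slotLaw T N)) :=
    hbi.mono' (measurable_treeFree hs δ a m ks s x n).aestronglyMeasurable
      (Eventually.of_forall fun z => by rw [Real.norm_eq_abs]; exact abs_treeFree_le ha m ks n z)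
  rw [integral_prod _ hgi]
  exact integral_congr_ae (Eventually.of_forall fun d => integral_treeFree hs ha hn ks d)

lemma trunc_overlap (hs : Smooth f A) (hm : Exps m) (ha : 0 ≤ a) (ks : Fin T → Fin (r + 1))
    (s μ : ℝ) (x : Fin L → ℝ) (k : Fin (r + 1)) {b : ℝ} (hb : 0 ≤ b) {ε : ℝ} (hε : 0 < ε) :
    ∀ᶠ n in cascFilter r, slotOverlap P f δ a m ks s x μ k ≤
      (baseState (truncBase P δ a m ks n) f s x μ).repMean 2
        (fun σ => max (Sphere.overlap (σ 0) (σ 1) - b) 0) + b * tailSum m (fun _ => 1) k + ε := by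
  set π := (disLaw N L μ).prod (slotLaw T N)
  set tail := tailSum m (fun _ => 1) k
  set g : (Fin r → ℕ) → Dis N L × (Fin T → Fin N → ℝ) → ℝ := fun n z =>
    ∫ t, (magSq (wAt P f δ a ks s x z) m n k t - b * massSq (wAt P f δ a ks s x z) m n k t)
      ∂cascLaw (slotLaw T N) r n
  have hgm : ∀ n, Measurable (g n) := fun n =>
    (((measurable_sqs hs δ a ks s x m n k).1.sub
      ((measurable_sqs hs δ a ks s x m n k).2.const_mul b)).stronglyMeasurable.integral_prod_right'
        (ν := cascLaw (slotLaw T N) r n)).measurable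
  have hpt : ∀ n, (∀ i, 0 < n i) → ∀ z t, GoodTree r n t →
      |magSq (wAt P f δ a ks s x z) m n k t - b * massSq (wAt P f δ a ks s x z) m n k t| ≤
        1 + b := fun n hn z t ht => by
    obtain ⟨h1, h2, h3, h4⟩ :=
      sq_bounds (m := m) (wbdd_slotW (δ := δ) (P := P) (f := f) (s := s) (x := x) ha ks z.1 z.2) hn ht k
    rw [abs_le]
    constructor <;> nlinarith
  have hbd : ∀ n, (∀ i, 0 < n i) → ∀ z, |g n z| ≤ N + (1 + b) := fun n hn z => by
    have h := norm_integral_le_of_norm_le_const (μ := cascLaw (slotLaw T N) r n)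
      (f := fun t => magSq (wAt P f δ a ks s x z) m n k t -
        b * massSq (wAt P f δ a ks s x z) m n k t)
      (C := 1 + b) ((ae_good _ r n).mono fun t ht => by
        rw [Real.norm_eq_abs]; exact hpt n hn z t ht)
    simp only [probReal_univ, mul_one, Real.norm_eq_abs] at h
    exact h.trans (le_add_of_nonneg_left (Nat.cast_nonneg _))
  have htail : |tail| ≤ 1 := by
    refine (Finset.abs_sum_le_sum_abs _ _).trans ((Finset.sum_le_sum (g := weight m)
      fun p _ => ?_).trans (Up.sum_weight m).le)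
    rw [mul_one, abs_mul, abs_of_nonneg (slotDir_nonneg k p),
      abs_of_nonneg (Up.weight_nonneg hm p)]
    exact mul_le_of_le_one_left (Up.weight_nonneg hm p) (slotDir_le_one k p)
  have hlim := Vale.Agent.P168.States.tendsto_integral_cascFilter (μ := π) (g := g)
    (f := fun z => slotB P f δ a m ks s x k z - b * tail) (B := fun _ => (N : ℝ) + (1 + b))
    hgm ((measurable_slotB hs δ a m ks s x k).sub_const _) measurable_const (integrable_const _)
    ((eventually_pos r).mono fun n hn => Eventually.of_forall (hbd n hn))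
    (Eventually.of_forall fun z => by
      have h := abs_slotB_le (δ := δ) (P := P) (f := f) (s := s) (x := x) ha hm ks k z
      have hbt := mul_le_mul_of_nonneg_left htail hb
      refine (abs_sub _ _).trans (add_le_add h ?_)
      rw [abs_mul, abs_of_nonneg hb]
      linarith)
    (Eventually.of_forall fun z => by
      have hw := wbdd_slotW (δ := δ) (P := P) (f := f) (s := s) (x := x) ha ks z.1 z.2
      have hW := Sphere.Up.bdd_sum hw
      have hmag := fun i η => (Sphere.Up.abs_mag_le hw i η).trans (hW.mem η).2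
      have hmass : ∀ η, |∑ σ, wAt P f δ a ks s x z σ η| ≤ _ := fun η =>
        (abs_of_pos (hW.gt_zero η)).trans_le (hW.mem η).2
      have l1 := tendsto_finsetSum Finset.univ fun i (_ : i ∈ Finset.univ) =>
        Up.tendsto_sumSq tilt_factor (slotLaw T N) hm (slotDir_mono k) (slotDir_nonneg k 0) hW
          (Sphere.Up.measurable_mag hw i) hW.pos.le (hmag i)
      have l2 := Up.tendsto_sumSq tilt_factor (slotLaw T N) hm (slotDir_mono k)
        (slotDir_nonneg k 0) hW hW.meas hW.pos.le hmass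
      have hl := l1.sub (l2.const_mul b)
      have hl' : Tendsto (fun n => g n z) (cascFilter r) _ :=
        hl.congr' ((eventually_pos r).mono fun n hn => ?_)
      swap
      · have hiF : ∀ i, Integrable (fun t => ∑ c, comp m n (slotDir k)
            (fun η => ∑ σ, wAt P f δ a ks s x z σ η) (Sphere.Up.mag (wAt P f δ a ks s x z) i) t c ^ 2)
            (cascLaw (slotLaw T N) r n) := fun i =>
          Up.integrable_sumSq (slotLaw T N) hn _ hW (Sphere.Up.measurable_mag hw i) (hmag i)
        have hiG := Up.integrable_sumSq (slotLaw T N) (m := m) hn (slotDir k) hW hW.meas hmass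
        simp only [g, magSq, massSq]
        rw [integral_sub (integrable_finsetSum _ fun i _ => hiF i) (hiG.const_mul b),
          integral_finsetSum _ fun i _ => hiF i, integral_const_mul]
      · refine Eq.mp (congrArg (fun L => Tendsto (fun n => g n z) (cascFilter r) (𝓝 L)) ?_) hl'
        simp only [Up.pairM_self (slotLaw T N) hm hW, tail, slotB, tailSum, Sphere.Up.bVal]
        rw [Finset.sum_comm]
        congr 1
        · refine Finset.sum_congr rfl fun p _ => ?_
          rw [← Finset.mul_sum, ← Finset.mul_sum]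
          ring
        · congr 1
          exact Finset.sum_congr rfl fun p _ => by ring)
  have hiB := integrable_slotB (δ := δ) (P := P) hs ha hm ks s μ x k
  rw [integral_sub hiB (integrable_const _), integral_const, probReal_univ, one_smul,
    ← slotOverlap_eq hs ha hm] at hlim
  filter_upwards [eventually_pos r, hlim (Ioi_mem_nhds (sub_lt_self _ hε))] with n hn hgt
  have hgt' : slotOverlap P f δ a m ks s x μ k - b * tail - ε < ∫ z, g n z ∂π := hgt
  suffices h : ∫ z, g n z ∂π ≤ (baseState (truncBase P δ a m ks n) f s x μ).repMean 2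
      (fun σ => max (Sphere.overlap (σ 0) (σ 1) - b) 0) by linarith
  set C := cascLaw (slotLaw T N) r n
  have hass := measurePreserving_prodAssoc (disLaw N L μ) (slotLaw T N) C
  set R : Dis N L × ((Fin T → Fin N → ℝ) × CascTree (Fin T → Fin N → ℝ) r n) → ℝ := fun z =>
    ∑ σ : Fin 2 → Sphere.Conf P,
      (∏ l, (baseState (truncBase P δ a m ks n) f s x μ).w z (σ l)) *
        max (Sphere.overlap (σ 0) (σ 1) - b) 0
  have hwm : ∀ σ, Measurable fun z : Dis N L × ((Fin T → Fin N → ℝ) ×
      CascTree (Fin T → Fin N → ℝ) r n) =>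
      (truncBase P δ a m ks n).v z.2 σ * Real.exp (Sphere.totalH f s x z.1 σ) := fun σ =>
    (((truncBase P δ a m ks n).meas σ).comp measurable_snd).mul
      ((measurable_totalH hs s x σ).comp measurable_fst).exp
  have hRm : Measurable R := Finset.measurable_sum _ fun σ _ =>
    (Finset.measurable_prod _ fun l _ => (hwm (σ l)).div
      (Finset.measurable_sum _ fun τ _ => hwm τ)).mul_const _
  have hRi : Integrable R ((disLaw N L μ).prod ((slotLaw T N).prod C)) := by
    refine Integrable.of_bound hRm.aestronglyMeasurable 1 (Eventually.of_forall fun z => ?_)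
    have hv : ∀ σ, 0 < (truncBase P δ a m ks n).v z.2 σ * Real.exp (Sphere.totalH f s x z.1 σ) :=
      fun σ => mul_pos ((truncBase P δ a m ks n).pos _ _) (Real.exp_pos _)
    have hS : 0 < ∑ σ, (truncBase P δ a m ks n).v z.2 σ * Real.exp (Sphere.totalH f s x z.1 σ) :=
      Finset.sum_pos (fun σ _ => hv σ) Finset.univ_nonempty
    have hw0 : ∀ σ, 0 ≤ (baseState (truncBase P δ a m ks n) f s x μ).w z σ := fun σ =>
      div_nonneg (hv σ).le hS.le
    have h1 : ∑ σ, (baseState (truncBase P δ a m ks n) f s x μ).w z σ = 1 := by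
      show ∑ σ, _ / _ = 1
      rw [← Finset.sum_div, div_self hS.ne']
    rw [Real.norm_eq_abs, abs_of_nonneg (Finset.sum_nonneg fun σ _ =>
      mul_nonneg (Finset.prod_nonneg fun l _ => hw0 _) (le_max_right _ _))]
    refine (Finset.sum_le_sum fun σ _ => mul_le_of_le_one_right
      (Finset.prod_nonneg fun l _ => hw0 _) (max_le ?_ zero_le_one)).trans_eq ?_
    · linarith [(abs_le.1 (Sphere.Main.abs_overlap_le (σ 0) (σ 1))).2]
    · rw [← Fintype.prod_sum (fun (_ : Fin 2) τ => (baseState (truncBase P δ a m ks n) f s x μ).w z τ)]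
      simp [h1]
  set H : (Dis N L × (Fin T → Fin N → ℝ)) × CascTree (Fin T → Fin N → ℝ) r n → ℝ := fun z =>
    magSq (wAt P f δ a ks s x z.1) m n k z.2 - b * massSq (wAt P f δ a ks s x z.1) m n k z.2
  have hgood : ∀ᵐ z ∂π.prod C, GoodTree r n z.2 :=
    Measure.quasiMeasurePreserving_snd.ae (ae_good _ r n)
  have hHi : Integrable H (π.prod C) :=
    Integrable.of_bound ((measurable_sqs hs δ a ks s x m n k).1.sub
      ((measurable_sqs hs δ a ks s x m n k).2.const_mul b)).aestronglyMeasurable (1 + b)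
      (hgood.mono fun z hz => by rw [Real.norm_eq_abs]; exact hpt n hn z.1 z.2 hz)
  calc ∫ z, g n z ∂π = ∫ z, H z ∂π.prod C := (integral_prod H hHi).symm
    _ ≤ ∫ z, R (z.1.1, z.1.2, z.2) ∂π.prod C := by
        refine integral_mono_ae hHi (hass.integrable_comp_of_integrable hRi) (hgood.mono fun z hz => ?_)
        have hkey := (magSq_le (m := m) (wbdd_slotW (δ := δ) (P := P) (f := f) (s := s) (x := x)
          ha ks z.1.1 z.1.2) hn hz k b).1
        have hw : ∀ σ, (baseState (truncBase P δ a m ks n) f s x μ).w (z.1.1, z.1.2, z.2) σ =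
            treeW (wAt P f δ a ks s x z.1) m n z.2 σ :=
          (trunc_weights (f := f) (s := s) (x := x) ha hn z.1.1 z.1.2 hz).2
        have hR : R (z.1.1, z.1.2, z.2) = ∑ σ, ∑ τ, treeW (wAt P f δ a ks s x z.1) m n z.2 σ *
            treeW (wAt P f δ a ks s x z.1) m n z.2 τ * max (Sphere.overlap σ τ - b) 0 := by
          simp only [R, Fin.prod_univ_two]
          rw [← (piFinTwoEquiv fun _ => Sphere.Conf P).symm.sum_comp, Fintype.sum_prod_type]
          simp only [piFinTwoEquiv_symm_apply, Fin.cons_zero, Fin.cons_one]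
          exact Finset.sum_congr rfl fun σ _ => Finset.sum_congr rfl fun τ _ =>
            congrArg (· * max (Sphere.overlap σ τ - b) 0) (congrArg₂ (· * ·) (hw σ) (hw τ))
        simp only [hR, H]
        linarith
    _ = _ := integral_mp hass hRm

/-- Module U1b. -/
theorem trunc_stmt : TruncStmt := by
  intro N L T r P f A _ hs m hm δ a _ ha s x μ _ ks
  exact ⟨trunc_free hs hm ha ks s μ x, fun k b hb ε hε =>
    trunc_overlap hs hm ha ks s μ x k hb hε⟩

end Vale.Agent.P157.Parisi.Full
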