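import Vale.Agent.P157.Full.Statements
import Vale.Agent.P157.Parisi.Main.Energy

/-!
The upper bound on the cube from the upper bound on any configurations.
-/

noncomputable section

open MeasureTheory ProbabilityTheory Filter
open scoped BigOperators NNReal ENNReal Topology

namespace Vale.Agent.P157.Parisi.Full

lemma logPartS_cube (f : ℝ → ℝ) (N : ℕ) (μ : ℝ) :
    Sphere.logPartS (cubePts N) f 0 (fun _ : Fin N => 0) μ =
      logPartS N f 0 (fun _ : Fin N => 1) μ := by
  refine integral_congr_ae (Eventually.of_forall fun d => ?_)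
  show Real.log (_ / _) = Real.log (_ / _)
  have hK : ((cubePts N).K : ℝ) = 2 ^ N := by
    show (Fintype.card (Cube N) : ℝ) = 2 ^ N
    simp
  rw [hK]
  congr 2
  have e : ∀ (σ : Cube N),
      Real.exp (totalH f 0 (fun _ : Fin N => (1 : ℝ)) d σ) =
        Real.exp (∑ a ∈ Finset.range d.1, f (dot (d.2.1 a) (unitVec σ))) := fun σ => by
    simp [totalH, pertH]
  simp only [e]
  rw [← (Fintype.equivFin (Cube N)).symm.sum_comp
    (fun σ => Real.exp (∑ a ∈ Finset.range d.1, f (dot (d.2.1 a) (unitVec σ))))]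
  refine Finset.sum_congr rfl fun k _ => ?_
  simp [Sphere.totalH, Sphere.pertH]
  rfl

theorem upper_full (hU : UpperGenStmt) (hI : InitCubeStmt) : UpperFullStmt := by
  intro α A f hα hf r m q hq S₀ hS ε hε
  have hA : 0 ≤ A := (abs_nonneg _).trans (hf.b0 0)
  have h0 : Tendsto (fun N : ℕ => A * (Real.sqrt α / Real.sqrt N + 1 / N)) atTop (𝓝 0) := by
    have h1 := (tendsto_const_nhds (x := Real.sqrt α)).div_atTop
      (Real.tendsto_sqrt_atTop.comp (tendsto_natCast_atTop_atTop (R := ℝ)))
    simpa [Function.comp_def] using (h1.add tendsto_one_div_atTop_nhds_zero_nat).const_mul A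
  filter_upwards [hU cubePts α A f hα hf r m q hq S₀ (hI r m q hq S₀ hS) (ε / 2) (half_pos hε),
    h0.eventually (eventually_le_nhds (half_pos hε)), eventually_gt_atTop 0] with N h1 h2 hN
  have hNR : (0 : ℝ) < N := Nat.cast_pos.2 hN
  have h3 := (abs_le.1 (Main.logPartS_close (s := 0) (x := fun _ : Fin N => (1 : ℝ)) hf hα.le hN
    fun _ => ⟨le_rfl, one_le_two⟩)).1
  rw [logPartS_cube] at h1
  have h4 : A * (Real.sqrt (α * N) + 1) ≤ N * (ε / 2) := by
    refine le_trans (le_of_eq ?_) (mul_le_mul_of_nonneg_left h2 hNR.le)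
    calc A * (Real.sqrt (α * N) + 1)
        = A * (Real.sqrt α * ((N : ℝ) / Real.sqrt N) + (N : ℝ) / N) := by
          rw [Real.sqrt_mul hα.le, Real.div_sqrt, div_self hNR.ne']
      _ = _ := by ring
  refine le_of_mul_le_mul_left ?_ hNR
  linarith

end Vale.Agent.P157.Parisi.Full
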