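import Vale.Agent.P157.Full.Lower
import Vale.Agent.P157.Full.UpperCube
import Vale.Agent.P157.Full.UpperMain.Main
import Vale.Agent.P157.Full.SlotStep
import Vale.Agent.P157.Full.Trunc
import Vale.Agent.P157.Full.InitCube
import Vale.Agent.P157.Full.Conc.Main
import Vale.Agent.P157.Full.Dom
import Vale.Agent.P157.Full.Extend.Main
import Vale.Agent.P157.Full.CavPair.Main
import Vale.Agent.P157.Full.Target
import Vale.Agent.P157.Full.Add
import Vale.Agent.P157.Full.PertShape
import Vale.Agent.P157.Full.GG
import Vale.Agent.P157.Parisi.ModA.TreeShape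
import Vale.Agent.P157.Parisi.ModA.Bridge
import Vale.Agent.P157.Parisi.ModA.TiltFactor
import Vale.Agent.P157.Parisi.TreeApprox.Main
import Vale.Agent.P157.Parisi.Cavity.Change
import Vale.Agent.P157.Parisi.Cavity.Main
import Vale.Agent.P157.Parisi.Cont.Main
import Vale.Agent.P157.Parisi.Perturb.Main
import Vale.Agent.P157.Parisi.Sphere.TreeApprox.Main
import Vale.Agent.P157.Parisi.Sphere.Cont.Main

/-!
The variational formula for every bounded Borel potential on the cube.
-/

noncomputable section

open MeasureTheory ProbabilityTheory Filter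
open scoped BigOperators NNReal ENNReal Topology

namespace Vale.Agent.P157.Parisi.Full

/-- The formula for smooth potentials from the two bounds. -/
theorem smooth_formula (hS : SiteSlopeStmt) (hC : ConcaveStmt) (hU : UpperFullStmt)
    (hL : LowerFullStmt) : SmoothFormulaStmt := by
  intro α A f hα hf
  have hb : BddBelow (fullValues α f) :=
    Extend.bddBelow_fullValues hC hα.le (A := A) ⟨hf.d0.continuous.measurable, hf.b0⟩
  have hne : (fullValues α f).Nonempty := Extend.fullValues_nonempty α f
  rw [Metric.tendsto_nhds]
  intro ε hε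
  obtain ⟨v, ⟨r, m, ρ, hρ, rfl⟩, hv⟩ := exists_lt_of_csInf_lt hne
    (show sInf (fullValues α f) < sInf (fullValues α f) + ε / 4 by linarith)
  have hbound : ∀ ρ', IsFieldPath m ρ' →
      siteValue m ρ' + 1 / 2 * ∑ p, weight m p * ρ' p * siteSlope m ρ p ≤
        siteValue m ρ + 1 / 2 * ∑ p, weight m p * ρ p * siteSlope m ρ p := by
    intro ρ' hρ'
    have h := hC r m ρ ρ' hρ hρ'
    have e : ∑ p, weight m p * siteSlope m ρ p * (ρ' p - ρ p) =
        ∑ p, weight m p * ρ' p * siteSlope m ρ p - ∑ p, weight m p * ρ p * siteSlope m ρ p := by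
      rw [← Finset.sum_sub_distrib]
      exact Finset.sum_congr rfl fun p _ => by ring
    rw [e] at h
    linarith
  filter_upwards [hU α A f hα hf r m _ (Extend.isPath_siteSlope hS hρ) _ hbound (ε / 4)
    (by linarith), hL α A f hα hf (ε / 2) (by linarith)] with N h1 h2
  obtain ⟨w, hw, h2⟩ := h2
  have h3 := csInf_le hb hw
  rw [Real.dist_eq, abs_lt]
  simp only [fullVal] at hv
  constructor <;> linarith

theorem concave : ConcaveStmt := Concave.concave_spec siteDeriv_spec

/-- The upper bound on the cube, with no hypotheses left. -/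
theorem upper_cube : UpperFullStmt :=
  upper_full (upper_gen slot_step trunc_stmt addStmt pertShapeStmt ggStmt Conc.concStmt
    Sphere.TreeApprox.treeApproxS (Sphere.Cont.logS bridge) (dom patDeriv_spec)) init_cube

/-- The lower bound on the cube, with no hypotheses left. -/
theorem lower_cube : LowerFullStmt :=
  lower_full_of Perturb.perturb_stmt TreeApprox.treeApprox (Cont.contStmt tilt_factor tree_shape)
    (Cont.logStmt bridge) cavity pertChange
    (site_stmt (Cont.contStmt tilt_factor tree_shape) slope_spec) (fixed cavPair_stmt target)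
    patDeriv_spec

theorem smooth_cube : SmoothFormulaStmt :=
  smooth_formula Concave.siteSlope_spec concave upper_cube lower_cube

/-- The formula on the cube for every bounded Borel potential. -/
theorem borel_formula : BorelFormulaStmt :=
  Extend.extend Concave.siteSlope_spec concave smooth_cube

end Vale.Agent.P157.Parisi.Full
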