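import Vale.Agent.P157.Parisi.Main.Lower
import Vale.Agent.P157.Full.Fixed
import Vale.Agent.P157.Full.Deriv

/-!
The lower bound for an arbitrary smooth potential: the limit cascades are stationary, so the
values along them are values of the functional in the field path.
-/

noncomputable section

open MeasureTheory ProbabilityTheory Filter
open scoped BigOperators NNReal ENNReal Topology

namespace Vale.Agent.P157.Parisi.Full

open Main (avgPart stepPart integrable_stepPart exists_step_lower approx_shift pattern_step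
  integrable_logPartS ae_xLaw logPartS_close smooth_nonneg sysState_good patLog cubeLog abs_cubeLog_le patH abs_patH_le)

variable {f : ℝ → ℝ} {A α : ℝ}

/-- At a stationary path the two functionals agree. -/
lemma fullVal_le_parisi (hD : PatDerivStmt) (hα : 0 ≤ α) (hf : Smooth f A) (η : Path) :
    fullVal α f η.m (Site.rhoOf α f η) ≤ parisi α f η.m η.q +
      α * A ^ 2 * ∑ p, weight η.m p * |siteSlope η.m (Site.rhoOf α f η) p - η.q p| := by
  set c := siteSlope η.m (Site.rhoOf α f η) with hcdef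
  obtain ⟨hcm, hc⟩ := Concave.siteSlope_spec _ _ _ (isFieldPath_rhoOf hα hf η)
  have hP := η.isPath
  have hw : ∀ p, 0 ≤ weight η.m p := fun p => Up.weight_nonneg ⟨hP.pos, hP.lt_one, hP.strictMono⟩ p
  set B := A ^ 2 / 2 * ∑ p, weight η.m p * |c p - η.q p| with hB
  have hs : ∀ (η' : Path) p, 0 ≤ slope f η'.m η'.q p ∧ slope f η'.m η'.q p ≤ A ^ 2 := fun η' p =>
    let h := (slope_spec f A hf η').2 p
    ⟨h.1, h.2.2.1.trans h.2.2.2⟩
  have hcP : IsPath η.m c := ⟨hP.pos, hP.lt_one, hP.strictMono, hcm, (hc 0).1, (hc _).2⟩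
  have hpat : patValue f η.m c - patValue f η.m η.q ≤ B := by
    refine hD f A hf η.r η.m η.q c hP hcP B fun t ht => ?_
    have hseg : IsPath η.m (seg η.q c t) := by
      obtain ⟨ht0, ht1⟩ := ht
      refine ⟨hP.pos, hP.lt_one, hP.strictMono, fun a b hab => ?_, ?_, ?_⟩
      · exact add_le_add (mul_le_mul_of_nonneg_left (hP.mono hab) (by linarith))
          (mul_le_mul_of_nonneg_left (hcm hab) ht0.le)
      · exact add_nonneg (mul_nonneg (by linarith) hP.nonneg) (mul_nonneg ht0.le (hc 0).1)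
      · simp only [seg]
        linarith [mul_le_mul_of_nonneg_left hP.le_one (show (0 : ℝ) ≤ 1 - t by linarith),
          mul_le_mul_of_nonneg_left (hc (Fin.last η.r)).2 ht0.le]
    rw [hB, Finset.mul_sum, Finset.mul_sum]
    refine Finset.sum_le_sum fun p _ => ?_
    obtain ⟨h0, h1⟩ := hs ⟨η.r, η.m, seg η.q c t, hseg⟩ p
    have k1 := mul_le_mul_of_nonneg_left (neg_abs_le (c p - η.q p))
      (mul_nonneg (hw p) h0)
    have k2 := mul_le_mul_of_nonneg_right h1 (mul_nonneg (hw p) (abs_nonneg (c p - η.q p)))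
    simp only at k1 k2
    nlinarith
  have hpair : ∑ p, weight η.m p * Site.rhoOf α f η p * c p -
      α * ∑ p, weight η.m p * η.q p * slope f η.m η.q p ≤
      α * A ^ 2 * ∑ p, weight η.m p * |c p - η.q p| := by
    rw [Finset.mul_sum, Finset.mul_sum, ← Finset.sum_sub_distrib]
    refine Finset.sum_le_sum fun p _ => ?_
    obtain ⟨h0, h1⟩ := hs η p
    have k1 := mul_le_mul_of_nonneg_left (le_abs_self (c p - η.q p))
      (mul_nonneg hα (mul_nonneg (hw p) h0))
    have k2 := mul_le_mul_of_nonneg_right h1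
      (mul_nonneg hα (mul_nonneg (hw p) (abs_nonneg (c p - η.q p))))
    rw [Site.rhoOf]
    nlinarith
  have := mul_le_mul_of_nonneg_left hpat hα
  rw [parisi, fullVal, ← hcdef, hB] at *
  have e : siteValue η.m (fun p => α * slope f η.m η.q p) = siteValue η.m (Site.rhoOf α f η) := rfl
  rw [e]
  linarith

lemma step_ge (hD : PerturbStmt) (hE : TreeApproxStmt) (hC : ContStmt) (hL : LogStmt)
    (hG : CavityStmt) (hP : PertChangeStmt) (hH : SiteStmt) (hF : FixedStmt) (hD' : PatDerivStmt) (hα : 0 < α) (hf : Smooth f A)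
    {ε : ℝ} (hε : 0 < ε) :
    ∀ᶠ N : ℕ in atTop, ∃ v ∈ fullValues α f, v - ε ≤ avgPart α f (N + 1) - avgPart α f N := by
  by_contra hcon
  rw [not_eventually] at hcon
  obtain ⟨B, hB, hlow⟩ := exists_step_lower hG hα hf
  obtain ⟨δ, hδm, hδb, hδgg, hδ0⟩ := hD α A 0 f hα hf (fun N => α * N)
    (fun N => by positivity) fun N => by simp
  -- the weighted defect
  set e : (N : ℕ) → (Fin N → ℝ) → ℝ := fun N x => ∑ p ∈ Finset.range N, (1 / 2) ^ p * δ N p x
  set E : ℕ → ℝ := fun N => ∫ x, e N x ∂xLaw N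
  have hδi : ∀ N p, Integrable (δ N p) (xLaw N) := fun N p =>
    integrable_of_abs_le (hδm N p) fun x => abs_le.2 ⟨by linarith [(hδb N p x).1], (hδb N p x).2⟩
  have he0 : ∀ N x, 0 ≤ e N x := fun N x =>
    Finset.sum_nonneg fun p _ => mul_nonneg (by positivity) (hδb N p x).1
  have hei : ∀ N, Integrable (e N) (xLaw N) := fun N =>
    integrable_finsetSum _ fun p _ => (hδi N p).const_mul _
  have hE0 : ∀ N, 0 ≤ E N := fun N => integral_nonneg (he0 N)
  have hElim : Tendsto E atTop (𝓝 0) := by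
    have h := tendsto_tsum_of_dominated_convergence
      (f := fun N p => if p < N then (1 / 2 : ℝ) ^ p * ∫ x, δ N p x ∂xLaw N else 0)
      (g := fun _ => (0 : ℝ)) (bound := fun p => (1 / 2 : ℝ) ^ p * 2)
      ((summable_geometric_of_lt_one (by norm_num) (by norm_num)).mul_right 2)
      (fun p => by
        refine squeeze_zero_norm (a := fun N => (1 / 2 : ℝ) ^ p * ∫ x, δ N p x ∂xLaw N) (fun N => ?_)
          (by simpa using (hδ0 p).const_mul ((1 / 2 : ℝ) ^ p))
        have h0 : 0 ≤ (1 / 2 : ℝ) ^ p * ∫ x, δ N p x ∂xLaw N :=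
          mul_nonneg (by positivity) (integral_nonneg fun x => (hδb N p x).1)
        by_cases hp : p < N
        · simp only [if_pos hp, Real.norm_eq_abs, abs_of_nonneg h0, le_refl]
        · simpa only [if_neg hp, norm_zero] using h0)
      (Eventually.of_forall fun N p => by
        split_ifs
        · rw [Real.norm_eq_abs, abs_mul, abs_of_nonneg (by positivity : (0 : ℝ) ≤ (1 / 2) ^ p)]
          refine mul_le_mul_of_nonneg_left ?_ (by positivity)
          simpa using norm_integral_le_of_norm_le_const (μ := xLaw N)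
            (Eventually.of_forall fun x => show ‖δ N p x‖ ≤ 2 from
              abs_le.2 ⟨by linarith [(hδb N p x).1], (hδb N p x).2⟩)
        · simp)
    rw [tsum_zero] at h
    refine h.congr fun N => ?_
    rw [tsum_eq_sum (s := Finset.range N) fun p hp => if_neg (by simpa using hp)]
    simp only [E, e]
    rw [integral_finsetSum _ fun p _ => (hδi N p).const_mul _]
    exact Finset.sum_congr rfl fun p hp => by
      rw [if_pos (by simpa using hp), integral_const_mul]
  set R : ℕ → ℝ := fun N => 1 / Real.sqrt (E N + 1 / ((N : ℝ) + 1))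
  have hR : ∀ N, 0 < R N := fun N => by
    have := hE0 N
    positivity
  have hREz : Tendsto (fun N => Real.sqrt (E N + 1 / ((N : ℝ) + 1))) atTop (𝓝 0) := by
    simpa using (hElim.add (tendsto_one_div_add_atTop_nhds_zero_nat)).sqrt
  -- good parameters
  have hsel : ∀ N, ∃ x : Fin N → ℝ, (∀ i, x i ∈ Set.Icc (1 : ℝ) 2) ∧
      stepPart α f N x + R N * e N x ≤ ∫ y, (stepPart α f N y + R N * e N y) ∂xLaw N := by
    intro N
    have hint := (integrable_stepPart (α := α) hf N).add ((hei N).const_mul (R N))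
    obtain ⟨x, hx1, hx2⟩ := exists_notMem_null_le_integral hint
      (ae_iff.1 (ae_xLaw N))
    exact ⟨x, not_not.1 hx1, hx2⟩
  choose x hx hsel using hsel
  obtain ⟨Ns, hNs, hbad⟩ := extraction_of_frequently_atTop
    (hcon.and_eventually ((eventually_gt_atTop 0).and hlow))
  have hNt : Tendsto Ns atTop atTop := hNs.tendsto_atTop
  -- the selected defects vanish
  have hsel' : ∀ j, R (Ns j) * e (Ns j) (x (Ns j)) ≤
      (avgPart α f (Ns j + 1) - avgPart α f (Ns j)) + R (Ns j) * E (Ns j) + B +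
        |(∫ y, logPartS (Ns j + 1) f (scale (Ns j + 1)) y (α * Ns j + α) ∂xLaw (Ns j + 1)) -
          ∫ y, logPartS (Ns j + 1) f (scale (Ns j)) y (α * Ns j + α) ∂xLaw (Ns j)| ∧
      stepPart α f (Ns j) (x (Ns j)) ≤
      (avgPart α f (Ns j + 1) - avgPart α f (Ns j)) + R (Ns j) * E (Ns j) +
        |(∫ y, logPartS (Ns j + 1) f (scale (Ns j + 1)) y (α * Ns j + α) ∂xLaw (Ns j + 1)) -
          ∫ y, logPartS (Ns j + 1) f (scale (Ns j)) y (α * Ns j + α) ∂xLaw (Ns j)| := by
    intro j
    have h1 := hsel (Ns j)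
    rw [integral_add (integrable_stepPart hf _) ((hei _).const_mul _), integral_const_mul] at h1
    have h2 : ∫ y, stepPart α f (Ns j) y ∂xLaw (Ns j) =
        (∫ y, logPartS (Ns j + 1) f (scale (Ns j)) y (α * Ns j + α) ∂xLaw (Ns j)) -
          avgPart α f (Ns j) := integral_sub (integrable_logPartS hf) (integrable_logPartS hf)
    have h3 : avgPart α f (Ns j + 1) =
        ∫ y, logPartS (Ns j + 1) f (scale (Ns j + 1)) y (α * Ns j + α) ∂xLaw (Ns j + 1) := by
      simp only [avgPart]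
      push_cast
      ring_nf
    have h4 := (hbad j).2.2 (x (Ns j)) (hx _)
    have h5 := mul_nonneg (hR (Ns j)).le (he0 (Ns j) (x (Ns j)))
    have h6 : E (Ns j) = ∫ y, e (Ns j) y ∂xLaw (Ns j) := rfl
    set Q1 := ∫ y, logPartS (Ns j + 1) f (scale (Ns j + 1)) y (α * Ns j + α) ∂xLaw (Ns j + 1)
    set Q2 := ∫ y, logPartS (Ns j + 1) f (scale (Ns j)) y (α * Ns j + α) ∂xLaw (Ns j)
    constructor <;> linarith [neg_abs_le (Q1 - Q2)]
  have hPz : Tendsto (fun N : ℕ => |(∫ y, logPartS (N + 1) f (scale (N + 1)) y (α * N + α) ∂xLaw (N + 1)) -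
      ∫ y, logPartS (N + 1) f (scale N) y (α * N + α) ∂xLaw N|) atTop (𝓝 0) := by
    simpa using (hP α A α f hα hf (fun N => α * N + α) (fun N => by positivity)
      fun N => by rw [add_sub_cancel_left, abs_of_pos hα]).abs
  have hRE : Tendsto (fun N => R N * E N) atTop (𝓝 0) := by
    refine squeeze_zero (fun N => mul_nonneg (hR N).le (hE0 N)) (fun N => ?_) hREz
    simp only [R]
    have h1 : 0 < E N + 1 / ((N : ℝ) + 1) := add_pos_of_nonneg_of_pos (hE0 N) (by positivity)
    rw [div_mul_eq_mul_div, one_mul, div_le_iff₀ (Real.sqrt_pos.2 h1), Real.mul_self_sqrt h1.le]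
    have : (0 : ℝ) ≤ 1 / ((N : ℝ) + 1) := by positivity
    linarith
  -- an upper bound for the increments along the sequence
  obtain ⟨v₀, hv₀⟩ : (fullValues α f).Nonempty :=
    ⟨_, 0, Fin.elim0, fun _ => 0, ⟨fun i => i.elim0, fun i => i.elim0, fun i => i.elim0,
      monotone_const, le_rfl⟩, rfl⟩
  have hinc : ∀ j, avgPart α f (Ns j + 1) - avgPart α f (Ns j) < v₀ - ε := fun j => by
    have := (hbad j).1
    push_neg at this
    exact this v₀ hv₀
  have hez : Tendsto (fun j => e (Ns j) (x (Ns j))) atTop (𝓝 0) := by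
    set C := |v₀| + ε + B + 2 with hC'
    have hev : ∀ᶠ j in atTop, e (Ns j) (x (Ns j)) ≤ C * Real.sqrt (E (Ns j) + 1 / ((Ns j : ℝ) + 1)) := by
      filter_upwards [hNt.eventually ((Metric.tendsto_nhds.1 hPz) 1 one_pos),
        hNt.eventually ((Metric.tendsto_nhds.1 hRE) 1 one_pos)] with j h1 h2
      simp only [Real.dist_eq, sub_zero, abs_abs] at h1 h2
      have h3 := (hsel' j).1
      have h4 : R (Ns j) * e (Ns j) (x (Ns j)) ≤ C := by
        linarith [hinc j, le_abs_self v₀, le_abs_self (R (Ns j) * E (Ns j))]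
      have h5 : 0 < E (Ns j) + 1 / ((Ns j : ℝ) + 1) :=
        add_pos_of_nonneg_of_pos (hE0 _) (by positivity)
      simp only [R] at h4
      rwa [div_mul_eq_mul_div, one_mul, div_le_iff₀ (Real.sqrt_pos.2 h5)] at h4
    refine squeeze_zero' (Eventually.of_forall fun j => he0 _ _) hev ?_
    simpa using (hREz.comp hNt).const_mul C
  set dl : ℕ → ℕ → ℝ := fun j p => δ (Ns j) p (x (Ns j))
  have hdl : ∀ p, Tendsto (fun j => dl j p) atTop (𝓝 0) := fun p => by
    refine squeeze_zero' (Eventually.of_forall fun j => (hδb _ _ _).1)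
      (g := fun j => 2 ^ p * e (Ns j) (x (Ns j))) ?_ (by simpa using hez.const_mul ((2 : ℝ) ^ p))
    filter_upwards [hNt.eventually (eventually_gt_atTop p)] with j hj
    have h := Finset.single_le_sum (f := fun i => (1 / 2 : ℝ) ^ i * δ (Ns j) i (x (Ns j)))
      (fun i _ => mul_nonneg (by positivity) (hδb _ _ _).1) (Finset.mem_range.2 hj)
    calc dl j p = 2 ^ p * ((1 / 2 : ℝ) ^ p * δ (Ns j) p (x (Ns j))) := by
          rw [← mul_assoc, ← mul_pow]; norm_num [dl]
      _ ≤ _ := mul_le_mul_of_nonneg_left h (by positivity)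
  obtain ⟨φ, ξ, hφ, hap⟩ := hE Ns (fun j => sysState (Ns j) f (scale (Ns j)) (x (Ns j)) (α * Ns j))
    hNt (fun j => sysState_good hf _) dl hdl fun j p => hδgg _ _ _ (hx _)
  set M : ℕ → ℕ := fun j => Ns (φ j) with hMdef
  have hMt : Tendsto M atTop atTop := hNt.comp hφ.tendsto_atTop
  have hM0 : ∀ j, 0 < M j := fun j => (hbad (φ j)).2.1
  have hμ : ∀ j, 0 ≤ α * (M j : ℝ) := fun j => by positivity
  have hap' := approx_shift (s := fun j => scale (M j)) (x := fun j => x (M j))
    (μ := fun j => α * (M j : ℝ)) hC hf hM0 hμ hα.le hap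
  have hpat := pattern_step (s := fun j => scale (M j)) (x := fun j => x (M j))
    (μ := fun j => α * (M j : ℝ)) hL hf hM0 hμ hα.le (fun j => hx _) hap
  have hε4 : 0 < ε / 4 := by linarith
  obtain ⟨T₁, hT₁⟩ := hH α A α f hα hf M (fun j => x (M j)) (fun j => α * (M j : ℝ) + α) ξ hMt hM0
    (fun j => by positivity) (fun j => by rw [add_sub_cancel_left, abs_of_pos hα]) hap' (ε / 4) hε4
  obtain ⟨T₂, hT₂⟩ := hG α A α f hα hf (ε / 4) hε4
  set T := max T₁ T₂
  have hfix := hF α A α f M (fun j => x (M j)) (fun j => α * (M j : ℝ) + α) ξ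
    ⟨hα, hf, hMt, hM0, fun j => by positivity,
      fun j => by rw [add_sub_cancel_left, abs_of_pos hα], hap'⟩ (fun j i => hx _ i)
  have hfix' := (hfix.const_mul (α * A ^ 2)).eventually
    (eventually_le_nhds (show α * A ^ 2 * 0 < ε / 8 by rw [mul_zero]; linarith))
  obtain ⟨j, hj, h1, h2, h3, h4, h5⟩ := (hfix'.and <| (hT₁ T (le_max_left _ _)).and
    ((hMt.eventually (hT₂ T (le_max_right _ _))).and
      (((Metric.tendsto_nhds.1 hpat) (ε / 4) hε4).and
        ((hMt.eventually ((Metric.tendsto_nhds.1 hRE) (ε / 16) (by linarith))).and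
          (hMt.eventually ((Metric.tendsto_nhds.1 hPz) (ε / 16) (by linarith))))))).exists
  simp only [Real.dist_eq, sub_zero, abs_abs] at h3 h4 h5
  have h2' := h2 (α * (M j : ℝ) + α) (by positivity)
    (by rw [add_sub_cancel_left, abs_of_pos hα]) (x (M j)) (hx _)
  have h6 := (hsel' (φ j)).2
  have h7 := (hbad (φ j)).1
  push_neg at h7
  have h8 := h7 (fullVal α f (ξ j).m (Site.rhoOf α f (ξ j)))
    ⟨(ξ j).r, (ξ j).m, Site.rhoOf α f (ξ j), isFieldPath_rhoOf hα.le hf (ξ j), rfl⟩
  have h10 := fullVal_le_parisi hD' hα.le hf (ξ j)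
  have h9 : parisi α f (ξ j).m (ξ j).q = α * patValue f (ξ j).m (ξ j).q +
      siteValue (ξ j).m (fun p => α * slope f (ξ j).m (ξ j).q p) +
      α / 2 * ∑ p, weight (ξ j).m p * (ξ j).q p * slope f (ξ j).m (ξ j).q p := rfl
  simp only [stepPart] at h6
  simp only [hMdef] at h1 h2' h3 h4 h5
  linarith [abs_le.1 h3.le, le_abs_self (R (Ns (φ j)) * E (Ns (φ j)))]

theorem lower_full_of (hD : PerturbStmt) (hE : TreeApproxStmt) (hC : ContStmt) (hL : LogStmt)
    (hG : CavityStmt) (hP : PertChangeStmt) (hH : SiteStmt) (hF : FixedStmt) (hD' : PatDerivStmt) : LowerFullStmt := by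
  intro α A f hα hf ε hε
  obtain ⟨N₀, hN₀⟩ := eventually_atTop.1
    (step_ge hD hE hC hL hG hP hH hF hD' hα hf (show 0 < ε / 4 by linarith))
  have hA := smooth_nonneg hf
  -- the averaged partition against the pressure
  have hclose : ∀ N : ℕ, 0 < N → |avgPart α f N - N * meanPressure isingLaw α f N| ≤
      scale N ^ 2 + A * (Real.sqrt (α * N) + 1) := by
    intro N hN
    rw [avgPart, ← show ∫ _x : Fin N → ℝ, (N : ℝ) * meanPressure isingLaw α f N ∂xLaw N =
      N * meanPressure isingLaw α f N by simp, ← integral_sub (integrable_logPartS hf) (integrable_const _)]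
    simpa using norm_integral_le_of_norm_le_const (μ := xLaw N) ((ae_xLaw N).mono fun x hx =>
      show ‖logPartS N f (scale N) x (α * N) - N * meanPressure isingLaw α f N‖ ≤ _ from
        logPartS_close (s := scale N) hf hα.le hN hx)
  have herr : Tendsto (fun N : ℕ => (scale N ^ 2 + A * (Real.sqrt (α * N) + 1) + |avgPart α f N₀|) / N)
      atTop (𝓝 0) := by
    have h1 : Tendsto (fun N : ℕ => (N : ℝ) ^ (-(1 / 4) : ℝ)) atTop (𝓝 0) :=
      (tendsto_rpow_neg_atTop (by norm_num)).comp tendsto_natCast_atTop_atTop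
    have h2 : Tendsto (fun N : ℕ => A * Real.sqrt α * (N : ℝ) ^ (-(1 / 2) : ℝ)) atTop (𝓝 0) := by
      simpa using ((tendsto_rpow_neg_atTop (by norm_num)).comp tendsto_natCast_atTop_atTop).const_mul
        (A * Real.sqrt α)
    have h3 : Tendsto (fun N : ℕ => (A + |avgPart α f N₀|) / (N : ℝ)) atTop (𝓝 0) :=
      tendsto_const_nhds.div_atTop tendsto_natCast_atTop_atTop
    have h := (h1.add h2).add h3
    simp only [add_zero] at h
    refine h.congr' ((eventually_gt_atTop 0).mono fun N hN => ?_)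
    have hNR : (0 : ℝ) < N := by exact_mod_cast hN
    have e1 : scale N ^ 2 = (N : ℝ) ^ (-(1 / 4) : ℝ) * N := by
      rw [scale, ← Real.rpow_natCast ((N : ℝ) ^ (3 / 8 : ℝ)) 2, ← Real.rpow_mul hNR.le,
        ← Real.rpow_add_one hNR.ne']
      norm_num
    have e2 : Real.sqrt (α * N) = Real.sqrt α * (N : ℝ) ^ (-(1 / 2) : ℝ) * N := by
      rw [Real.sqrt_mul hα.le, mul_assoc, ← Real.rpow_add_one hNR.ne', Real.sqrt_eq_rpow (N : ℝ)]
      norm_num
    dsimp only
    rw [e1, e2]
    field_simp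
    ring
  have hstep : ∀ N, N₀ < N → ∃ v ∈ fullValues α f,
      ((N : ℝ) - N₀) * (v - ε / 4) ≤ avgPart α f N - avgPart α f N₀ := by
    intro N hN
    induction N, hN using Nat.le_induction with
    | base =>
      obtain ⟨v, hv, h⟩ := hN₀ N₀ le_rfl
      exact ⟨v, hv, by push_cast; simpa using h⟩
    | succ N hN ih =>
      obtain ⟨v, hv, h⟩ := ih
      obtain ⟨w, hw, h'⟩ := hN₀ N (by omega)
      have hNN : (N₀ : ℝ) ≤ N := by exact_mod_cast (by omega : N₀ ≤ N)
      rcases le_total v w with hvw | hvw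
      · exact ⟨v, hv, by push_cast; linarith⟩
      · have := mul_le_mul_of_nonneg_left (sub_le_sub_right hvw (ε / 4)) (sub_nonneg.2 hNN)
        exact ⟨w, hw, by push_cast; linarith⟩
  filter_upwards [eventually_gt_atTop N₀, eventually_gt_atTop 0,
    (Metric.tendsto_nhds.1 herr) (ε / 8) (by linarith),
    eventually_ge_atTop (2 * N₀), tendsto_natCast_atTop_atTop.eventually
      (eventually_gt_atTop (4 * ((N₀ : ℝ) * (α * A)) / ε))] with N hN hN1 hN2 hN3 hN4
  obtain ⟨v, hv, h⟩ := hstep N hN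
  refine ⟨v, hv, ?_⟩
  rw [Real.dist_eq, sub_zero] at hN2
  have hNR : (0 : ℝ) < N := by exact_mod_cast hN1
  have hh := (abs_lt.1 hN2).2
  rw [div_lt_iff₀ hNR] at hh
  have hc := abs_le.1 (hclose N hN1)
  have h2 : 2 * (N₀ : ℝ) ≤ N := by exact_mod_cast hN3
  by_contra hv2
  push_neg at hv2
  have h3 := mul_le_mul_of_nonneg_left (hv2.le) (show (0 : ℝ) ≤ (N : ℝ) - N₀ by linarith)
  have h4 : |meanPressure isingLaw α f N| ≤ α * A := by
    rw [Main.meanPressure_eq hf]
    have hp : |patLog f N ⌊α * N⌋₊| ≤ ⌊α * N⌋₊ * A := by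
      simpa [patLog] using norm_integral_le_of_norm_le_const
        (μ := Measure.infinitePi fun _ : ℕ => gam (Fin N)) (Eventually.of_forall fun g =>
          show ‖cubeLog (patH f ⌊α * N⌋₊ g)‖ ≤ ⌊α * N⌋₊ * A from
            abs_cubeLog_le fun σ => abs_patH_le hf _ g σ)
    rw [abs_div, Nat.abs_cast, div_le_iff₀ hNR]
    refine hp.trans ?_
    have := mul_le_mul_of_nonneg_right (Nat.floor_le (show 0 ≤ α * N by positivity)) hA
    linarith
  have h5 : (N₀ : ℝ) * |meanPressure isingLaw α f N| ≤ N₀ * (α * A) :=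
    mul_le_mul_of_nonneg_left h4 (Nat.cast_nonneg _)
  rw [div_lt_iff₀ hε] at hN4
  have h7 : (N : ℝ) / 2 * (3 * ε / 4) ≤ ((N : ℝ) - N₀) * (3 * ε / 4) :=
    mul_le_mul_of_nonneg_right (by linarith) (by linarith)
  have h8 : (N₀ : ℝ) * meanPressure isingLaw α f N ≤ N₀ * |meanPressure isingLaw α f N| :=
    mul_le_mul_of_nonneg_left (le_abs_self _) (Nat.cast_nonneg _)
  linarith [neg_abs_le (avgPart α f N₀)]

end Vale.Agent.P157.Parisi.Full
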