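import Vale.Agent.P157.Full.MinMaxDefs
import Vale.Agent.P157.Full.Formula

/-!
The two forms of the variational formula agree.
-/

noncomputable section

open MeasureTheory ProbabilityTheory Filter
open scoped BigOperators Topology

namespace Vale.Agent.P157.Parisi.Full

variable {α A : ℝ} {f : ℝ → ℝ}

/-- The infimum over overlap paths of the supremum over field paths is the infimum of the
functional in the field path, and the limit of the pressure. -/
theorem cube_formula (hα : 0 < α) (hfm : Measurable f) (hA : ∀ z, |f z| ≤ A) :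
    BddBelow (minMaxValues α f) ∧ BddBelow (fullValues α f) ∧
      sInf (minMaxValues α f) = sInf (fullValues α f) ∧
      Tendsto (meanPressure isingLaw α f) atTop (𝓝 (sInf (minMaxValues α f))) := by
  obtain ⟨hb, hlim⟩ := borel_formula α f hα hfm ⟨A, hA⟩
  have hf : Extend.Bd A f := ⟨hfm, hA⟩
  have hS := Concave.siteSlope_spec
  have hsub : fullValues α f ⊆ minMaxValues α f := by
    rintro v ⟨r, m, ρ, hρ, rfl⟩
    refine ⟨r, m, _, Extend.isPath_siteSlope hS hρ, fun ρ' hρ' => ?_⟩
    have h := concave r m ρ ρ' hρ hρ'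
    have e : ∑ p, weight m p * siteSlope m ρ p * (ρ' p - ρ p) =
        ∑ p, weight m p * ρ' p * siteSlope m ρ p - ∑ p, weight m p * ρ p * siteSlope m ρ p := by
      rw [← Finset.sum_sub_distrib]
      exact Finset.sum_congr rfl fun p _ => by ring
    rw [e] at h
    simp only [fullVal]
    linarith
  have hb' : BddBelow (minMaxValues α f) := by
    refine ⟨-(α * A), ?_⟩
    rintro v ⟨r, m, q, hq, h⟩
    have h0 := h (fun _ => 0) ⟨hq.pos, hq.lt_one, hq.strictMono, monotone_const, le_rfl⟩
    rw [Extend.siteValue_zero hq.pos] at h0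
    simp only [mul_zero, zero_mul, Finset.sum_const_zero, add_zero] at h0
    linarith [mul_le_mul_of_nonneg_left
      (abs_le.1 (Extend.abs_patValue_le_of_bd hq.pos q hf)).1 hα.le]
  have hle : ∀ v ∈ minMaxValues α f, sInf (fullValues α f) ≤ v := by
    rintro v ⟨r, m, q, hq, h⟩
    refine le_of_forall_pos_le_add fun ε hε => ?_
    set B := 2 * (A + 1) with hB
    have hA0 : 0 ≤ A := (abs_nonneg _).trans (hA 0)
    have hfB : Extend.Bd B f := ⟨hfm, fun x => (hA x).trans (by linarith)⟩
    set K := α * Real.exp (2 * B) with hK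
    have hK0 : 0 < K := mul_pos hα (Real.exp_pos _)
    obtain ⟨g, A', hgS, hg, hd⟩ :=
      Extend.exists_smooth_near hf (show 0 < ε / (4 * K) by positivity)
    have hKd : α * (Real.exp (2 * B) * ∫ x, |f x - g x| ∂gaussianReal 0 1) ≤ ε / 4 := by
      rw [← mul_assoc, ← hK]
      refine (mul_le_mul_of_nonneg_left hd hK0.le).trans_eq ?_
      field_simp
    have hsym : ∫ x, |g x - f x| ∂gaussianReal 0 1 = ∫ x, |f x - g x| ∂gaussianReal 0 1 := by
      simp only [abs_sub_comm]
    have h1 := Extend.sInf_fullValues_sub_le hS concave hα.le hg hfB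
    rw [hsym] at h1
    have h2 : sInf (fullValues α g) ≤ α * patValue g m q + (v - α * patValue f m q) := by
      refine le_of_forall_pos_le_add fun e he => ?_
      refine le_of_tendsto (smooth_cube α A' g hα hgS) ?_
      exact upper_cube α A' g hα hgS r m q hq _ (fun ρ hρ => by linarith [h ρ hρ]) e he
    have h3 := mul_le_mul_of_nonneg_left
      (abs_le.1 (Extend.abs_patValue_sub_le hq hfB hg)).1 hα.le
    linarith [h1.trans hKd]
  have e : sInf (minMaxValues α f) = sInf (fullValues α f) :=
    le_antisymm (csInf_le_csInf hb' (Extend.fullValues_nonempty α f) hsub)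
      (le_csInf ((Extend.fullValues_nonempty α f).mono hsub) hle)
  exact ⟨hb', hb, e, e ▸ hlim⟩

end Vale.Agent.P157.Parisi.Full

namespace Vale.Agent.P157.Parisi.Full

lemma minMaxValues_nonempty (α : ℝ) (f : ℝ → ℝ) : (minMaxValues α f).Nonempty := by
  refine ⟨α * patValue f Fin.elim0 (siteSlope (r := 0) Fin.elim0 fun _ => 0), 0, Fin.elim0,
    siteSlope (r := 0) Fin.elim0 fun _ => 0,
    Extend.isPath_siteSlope Concave.siteSlope_spec
      ⟨fun i => i.elim0, fun i => i.elim0, fun i => i.elim0, monotone_const, le_rfl⟩,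
    fun ρ hρ => ?_⟩
  have h0 : IsFieldPath (r := 0) Fin.elim0 fun _ => (0 : ℝ) :=
    ⟨fun i => i.elim0, fun i => i.elim0, fun i => i.elim0, monotone_const, le_rfl⟩
  have h := concave 0 Fin.elim0 (fun _ => 0) ρ h0 hρ
  rw [Extend.siteValue_zero fun i => i.elim0] at h
  simp only [sub_zero] at h
  have e : ∑ p, weight Fin.elim0 p * siteSlope Fin.elim0 (fun _ => 0) p * ρ p =
      ∑ p, weight Fin.elim0 p * ρ p * siteSlope Fin.elim0 (fun _ => 0) p :=
    Finset.sum_congr rfl fun p _ => by ring
  rw [e] at h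
  show α * patValue f Fin.elim0 (siteSlope Fin.elim0 fun _ => 0) + siteValue Fin.elim0 ρ +
    1 / 2 * _ ≤ α * patValue f Fin.elim0 (siteSlope Fin.elim0 fun _ => 0)
  linarith

end Vale.Agent.P157.Parisi.Full
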