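import Vale.Agent.P157.Full.Defs

/-!
The variational formula in min-max form: an infimum over overlap paths of a supremum over field
paths.
-/

noncomputable section

open scoped BigOperators

namespace Vale.Agent.P157.Parisi.Full

/-- The numbers above the supremum over field paths of the functional, for some overlap path. -/
def minMaxValues (α : ℝ) (f : ℝ → ℝ) : Set ℝ :=
  {v | ∃ (r : ℕ) (m : Fin r → ℝ) (q : Fin (r + 1) → ℝ), IsPath m q ∧
    ∀ ρ : Fin (r + 1) → ℝ, IsFieldPath m ρ →
      α * patValue f m q + siteValue m ρ + 1 / 2 * ∑ p, weight m p * ρ p * q p ≤ v}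

end Vale.Agent.P157.Parisi.Full
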