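import Vale.Agent.P157.Full.Defs
import Vale.Agent.P157.Parisi.Sphere.Upper.Field

/-!
Objects of the upper bound for an arbitrary potential: field slots attached to the levels of a
cascade, systems over a random base, and the same slots on a truncated cascade.
-/

noncomputable section

open MeasureTheory ProbabilityTheory
open scoped BigOperators NNReal ENNReal

namespace Vale.Agent.P157.Parisi.Full

open Vale.Agent.P168 (CascTree cascLaw cascSum)
open Vale.Agent.P168.Cascade (Leaf GoodTree leafW leafMarks)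

variable {r N L T : ℕ}

/-- The direction of a slot of level `k`. -/
def slotDir (k : Fin (r + 1)) : Fin (r + 1) → ℝ := fun p => if k ≤ p then 1 else 0

/-- The mass of the levels from `k` on, weighted by `q`. -/
def tailSum (m : Fin r → ℝ) (q : Fin (r + 1) → ℝ) (k : Fin (r + 1)) : ℝ :=
  ∑ p, slotDir k p * (weight m p * q p)

variable {P : Sphere.Pts N}

/-- The fields of the slots. -/
def slotX (δ a : ℝ) (ks : Fin T → Fin (r + 1)) (E : Fin T → Fin N → ℝ) (σ : Sphere.Conf P)
    (η : Fin r → Fin T → Fin N → ℝ) : ℝ :=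
  ∑ t, Sphere.Up.fieldX δ a (slotDir (ks t)) (E t) σ fun p => η p t

/-- The weights of a Hamiltonian with slots, normalised by the uniform law. -/
def slotW (δ a : ℝ) (ks : Fin T → Fin (r + 1)) (H : Sphere.Conf P → ℝ) (E : Fin T → Fin N → ℝ)
    (σ : Sphere.Conf P) (η : Fin r → Fin T → Fin N → ℝ) : ℝ :=
  Real.exp (H σ + slotX δ a ks E σ η) / P.K

/-- The law of the variables of the slots. -/
def slotLaw (T N : ℕ) : Measure (Fin T → Fin N → ℝ) := Measure.pi fun _ => gam (Fin N)

instance : IsProbabilityMeasure (slotLaw T N) := by unfold slotLaw; infer_instance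

/-- The free energy with slots. -/
def slotFree (P : Sphere.Pts N) (f : ℝ → ℝ) (δ a : ℝ) (m : Fin r → ℝ) (ks : Fin T → Fin (r + 1))
    (s : ℝ) (x : Fin L → ℝ) (μ : ℝ) : ℝ :=
  ∫ d, ∫ E, Sphere.Up.Phi (slotLaw T N) m
      (slotW δ a ks (Sphere.totalH (P := P) f s x d) E) ∂slotLaw T N ∂disLaw N L μ

/-- The overlap on the levels from `k` on, in the system with slots. -/
def slotOverlap (P : Sphere.Pts N) (f : ℝ → ℝ) (δ a : ℝ) (m : Fin r → ℝ)
    (ks : Fin T → Fin (r + 1)) (s : ℝ) (x : Fin L → ℝ) (μ : ℝ) (k : Fin (r + 1)) : ℝ :=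
  ∫ d, ∫ E, tailSum m (fun p => Sphere.Up.bVal (slotLaw T N) m
      (slotW δ a ks (Sphere.totalH (P := P) f s x d) E) p) k ∂slotLaw T N ∂disLaw N L μ

/-! ### Systems over a random base -/

/-- Positive random weights on the configurations. -/
structure Base (P : Sphere.Pts N) where
  Ω : Type
  mΩ : MeasurableSpace Ω
  law : @Measure Ω mΩ
  v : Ω → Sphere.Conf P → ℝ
  prob : @IsProbabilityMeasure Ω mΩ law
  meas : ∀ σ, @Measurable Ω ℝ mΩ _ fun ω => v ω σ
  pos : ∀ ω σ, 0 < v ω σ
  bd : ℝ
  le_bd : ∀ ω σ, |Real.log (v ω σ)| ≤ bd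

attribute [instance] Base.mΩ Base.prob

/-- The log-partition function over a base. -/
def basePsi (B : Base P) (f : ℝ → ℝ) (s : ℝ) (x : Fin L → ℝ) (d : Dis N L) (ω : B.Ω) : ℝ :=
  Real.log (∑ σ, B.v ω σ * Real.exp (Sphere.totalH f s x d σ))

/-- Its mean. -/
def baseFree (B : Base P) (f : ℝ → ℝ) (s : ℝ) (x : Fin L → ℝ) (μ : ℝ) : ℝ :=
  ∫ d, ∫ ω, basePsi B f s x d ω ∂B.law ∂disLaw N L μ

/-- Its mean absolute deviation from the mean. -/
def baseDev (B : Base P) (f : ℝ → ℝ) (s : ℝ) (x : Fin L → ℝ) (μ : ℝ) : ℝ :=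
  ∫ d, ∫ ω, |basePsi B f s x d ω - baseFree B f s x μ| ∂B.law ∂disLaw N L μ

/-- The system over a base, as a state. -/
def baseState (B : Base P) (f : ℝ → ℝ) (s : ℝ) (x : Fin L → ℝ) (μ : ℝ) : Sphere.State P where
  Ω := Dis N L × B.Ω
  mΩ := inferInstance
  law := (disLaw N L μ).prod B.law
  w z σ := B.v z.2 σ * Real.exp (Sphere.totalH f s x z.1 σ) /
    ∑ τ, B.v z.2 τ * Real.exp (Sphere.totalH f s x z.1 τ)

/-- The weight of a configuration on a truncated cascade with slots. -/
def truncV (δ a : ℝ) (m : Fin r → ℝ) (ks : Fin T → Fin (r + 1)) (n : Fin r → ℕ)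
    (z : (Fin T → Fin N → ℝ) × CascTree (Fin T → Fin N → ℝ) r n) (σ : Sphere.Conf P) : ℝ :=
  if 0 < cascSum r m n (fun η => Real.exp (slotX δ a ks z.1 σ η)) z.2 ∧
      0 < cascSum r m n (fun _ => 1) z.2 ∧
      |Real.log (cascSum r m n (fun η => Real.exp (slotX δ a ks z.1 σ η)) z.2 /
        cascSum r m n (fun _ => 1) z.2)| ≤ T * (Real.sqrt δ * (N * |a|))
  then cascSum r m n (fun η => Real.exp (slotX δ a ks z.1 σ η)) z.2 /
      cascSum r m n (fun _ => 1) z.2 / P.K
  else 1 / P.K

/-- The truncated cascade with slots as a base. -/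
def truncBase (P : Sphere.Pts N) (δ a : ℝ) (m : Fin r → ℝ) (ks : Fin T → Fin (r + 1))
    (n : Fin r → ℕ) : Base P where
  Ω := (Fin T → Fin N → ℝ) × CascTree (Fin T → Fin N → ℝ) r n
  mΩ := inferInstance
  law := (slotLaw T N).prod (cascLaw (slotLaw T N) r n)
  v := truncV δ a m ks n
  prob := inferInstance
  meas σ := by
    have hX : Measurable fun w : (Fin T → Fin N → ℝ) × (Fin r → Fin T → Fin N → ℝ) =>
        Real.exp (slotX δ a ks w.1 σ w.2) := by
      refine Measurable.exp (Finset.measurable_sum _ fun t _ => ?_)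
      have h := (Sphere.Up.measurable_fieldZ (N := N) δ a (slotDir (ks t)) σ).log
      simp only [Sphere.Up.fieldZ, Real.log_exp] at h
      exact h.comp (f := fun w : (Fin T → Fin N → ℝ) × (Fin r → Fin T → Fin N → ℝ) =>
        (w.1 t, fun p => w.2 p t)) (((measurable_pi_apply t).comp measurable_fst).prodMk
          (measurable_pi_lambda _ fun p =>
            (measurable_pi_apply t).comp ((measurable_pi_apply p).comp measurable_snd)))
    have h1 := Up.measurable_cascSum_param (D := Fin T → Fin N → ℝ) m n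
      (Y := fun E η => Real.exp (slotX δ a ks E σ η)) hX
    have h2 : Measurable fun z : (Fin T → Fin N → ℝ) × CascTree (Fin T → Fin N → ℝ) r n =>
        cascSum r m n (fun _ => (1 : ℝ)) z.2 :=
      (Vale.Agent.P168.Cascade.measurable_cascSum m n measurable_const).comp measurable_snd
    refine Measurable.ite ?_ ((h1.div h2).div_const _) measurable_const
    exact (measurableSet_lt measurable_const h1).inter ((measurableSet_lt measurable_const h2).inter
      (measurableSet_le (h1.div h2).log.abs measurable_const))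
  pos z σ := by
    have hK : (0 : ℝ) < P.K := Nat.cast_pos.2 P.pos
    unfold truncV
    split_ifs with h
    · exact div_pos (div_pos h.1 h.2.1) hK
    · positivity
  bd := T * (Real.sqrt δ * (N * |a|)) + |Real.log P.K|
  le_bd z σ := by
    have hK : (0 : ℝ) < P.K := Nat.cast_pos.2 P.pos
    unfold truncV
    split_ifs with h
    · rw [Real.log_div (div_pos h.1 h.2.1).ne' hK.ne']
      exact (abs_sub _ _).trans (add_le_add h.2.2 le_rfl)
    · rw [one_div, Real.log_inv, abs_neg]
      exact le_add_of_nonneg_left (by positivity)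

end Vale.Agent.P157.Parisi.Full
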