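import Vale.Agent.P157.Full.CutSwap
import Vale.Agent.P157.Full.CutLimit.PairTree

/-!
Pair targets as recursions, and their dependence on the truncated functions, uniformly in the path.
-/

noncomputable section

open MeasureTheory ProbabilityTheory Filter Topology Finset
open scoped BigOperators

namespace Vale.Agent.P157.Parisi.Full

open Vale.Agent.P168 (Shape shapeProb shapeMarks CascTree cascLaw cascSum cascFilter)
open Vale.Agent.P168.Cascade
open Vale.Agent.P168.Upper (cascFilter_neBot integral_mp)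
open Site (spread)

/-- Continuous functions with `1 ≤ φ ≤ M` and `|ψ| ≤ 2 φ`. -/
structure Pairable (M : ℝ) (φ ψ : ℝ → ℝ) : Prop where
  φc : Continuous φ
  ψc : Continuous ψ
  low : ∀ y, 1 ≤ φ y
  high : ∀ y, φ y ≤ M
  dom : ∀ y, |ψ y| ≤ 2 * φ y

variable {M : ℝ} {φ ψ : ℝ → ℝ}

lemma Pairable.one_le (h : Pairable M φ ψ) : 1 ≤ M := (h.low 0).trans (h.high 0)

lemma Pairable.abs_ψ_le (h : Pairable M φ ψ) (y : ℝ) : |ψ y| ≤ 2 * M :=
  (h.dom y).trans (by linarith [h.high y])

lemma continuous_spread {h : ℝ → ℝ} (hc : Continuous h) {B : ℝ} (hb : ∀ y, |h y| ≤ B) (δ : ℝ) :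
    Continuous (spread δ h) :=
  continuous_of_dominated (fun x => (hc.comp (by fun_prop)).aestronglyMeasurable)
    (bound := fun _ => B) (fun x => ae_of_all _ fun g => by rw [Real.norm_eq_abs]; exact hb _)
    (integrable_const _) (ae_of_all _ fun g => hc.comp (continuous_id.add continuous_const))

lemma integrable_shift {h : ℝ → ℝ} (hm : Measurable h) {B : ℝ} (hb : ∀ y, |h y| ≤ B) (c x : ℝ) :
    Integrable (fun g => h (x + c * g)) (gaussianReal 0 1) :=
  Vale.Agent.P157.integrable_of_abs_le (hm.comp ((measurable_id.const_mul c).const_add x))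
    fun _ => hb _

lemma Pairable.spread (h : Pairable M φ ψ) (δ : ℝ) :
    Pairable M (spread δ φ) (spread δ ψ) := by
  have hmem := Site.spread_mem h.φc.measurable (a := 1) (b := M) (fun y => ⟨h.low y, h.high y⟩) δ
  refine ⟨continuous_spread h.φc (B := M) (fun y => ?_) δ,
    continuous_spread h.ψc h.abs_ψ_le δ, fun y => (hmem y).1, fun y => (hmem y).2, fun y => ?_⟩
  · rw [abs_of_nonneg (by linarith [h.low y])]; exact h.high y
  · rw [Site.spread, Site.spread, ← integral_const_mul]
    exact abs_integral_le_integral_abs.trans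
      (integral_mono (integrable_shift h.ψc.measurable h.abs_ψ_le _ _).abs
        ((integrable_shift h.φc.measurable (B := M) (fun z => by
          rw [abs_of_nonneg (by linarith [h.low z])]; exact h.high z) _ _).const_mul 2)
        fun g => h.dom _)

lemma Pairable.bdd (h : Pairable M φ ψ) {r : ℕ} (ρ : Fin (r + 1) → ℝ) (e : ℝ) :
    Bdd M (fun η => φ (pathField ρ e η)) :=
  ⟨zero_lt_one.trans_le h.one_le,
    h.φc.measurable.comp ((Up.measurable_pathField ρ).comp (measurable_const.prodMk measurable_id)),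
    fun η => ⟨(inv_le_one_of_one_le₀ h.one_le).trans (h.low _), h.high _⟩⟩

lemma cb_log (h : Pairable M φ ψ) : CB (Real.log M) fun x => Real.log (φ x) :=
  ⟨h.φc.log fun x => by linarith [h.low x], fun x => by
    rw [abs_of_nonneg (Real.log_nonneg (h.low x))]
    exact Real.log_le_log (by linarith [h.low x]) (h.high x)⟩

lemma cb_ratio (h : Pairable M φ ψ) : CB 2 fun x => ψ x / φ x :=
  ⟨h.ψc.div h.φc fun x => by linarith [h.low x], fun x => by
    have := h.low x
    rw [abs_div, abs_of_pos (by linarith : 0 < φ x), div_le_iff₀ (by linarith)]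
    exact h.dom x⟩

/-- The square of the tilted mean of `u`. -/
def upSq {r : ℕ} (m : Fin r → ℝ) (ρ : Fin (r + 1) → ℝ) (F u : ℝ → ℝ) (p : Fin (r + 1)) (x : ℝ) : ℝ :=
  down m ρ F p (fun y => up m ρ F p u y ^ 2) x

lemma cb_upSq (h : Pairable M φ ψ) {r : ℕ} {m : Fin r → ℝ} (hm : ∀ i, 0 < m i)
    (ρ : Fin (r + 1) → ℝ) (p : Fin (r + 1)) :
    CB 4 (upSq m ρ (fun x => Real.log (φ x)) (fun x => ψ x / φ x) p) := by
  have h1 := cb_up (cb_log h) (cb_ratio h) hm ρ p
  refine cb_down (cb_log h) hm ρ p ⟨h1.cont.pow 2, fun y => ?_⟩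
  rw [abs_pow]
  exact (pow_le_pow_left₀ (abs_nonneg _) (h1.bound y) 2).trans_eq (by norm_num)

/-- A tilted pair moment of the field is a recursion. -/
lemma pairM_field (h : Pairable M φ ψ) {r : ℕ} {m : Fin r → ℝ} (hm : Exps m)
    (ρ : Fin (r + 1) → ℝ) (e : ℝ) (p : Fin (r + 1)) :
    Up.pairM (gaussianReal 0 1) m (fun η => φ (pathField ρ e η)) (fun η => ψ (pathField ρ e η))
        (fun η => ψ (pathField ρ e η)) p =
      upSq m ρ (fun x => Real.log (φ x)) (fun x => ψ x / φ x) p (Real.sqrt (ρ 0) * e) := by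
  set F := fun x => Real.log (φ x)
  set u := fun x => ψ x / φ x
  set x₀ := Real.sqrt (ρ 0) * e
  have hF : CB (Real.log M) F := cb_log h
  have hu : CB 2 u := cb_ratio h
  have hY : (fun η => φ (pathField ρ e η)) = pathY ρ F x₀ := funext fun η => by
    rw [pathY, Real.exp_log (by linarith [h.low (fieldFrom ρ x₀ η)])]; rfl
  have hg : (fun η => ψ (pathField ρ e η)) = fun η => pathY ρ F x₀ η * u (fieldFrom ρ x₀ η) :=
    funext fun η => by
      rw [← hY]
      exact (mul_div_cancel₀ _ (by linarith [h.low (pathField ρ e η)])).symm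
  rw [hY, hg]
  have ho := hu.obsv ρ x₀
  have e1 : Up.pairM (gaussianReal 0 1) m (pathY ρ F x₀)
      (fun η => pathY ρ F x₀ η * u (fieldFrom ρ x₀ η))
      (fun η => pathY ρ F x₀ η * u (fieldFrom ρ x₀ η)) p =
      treeW (gaussianReal 0 1) m (pathY ρ F x₀) (fun c ρ' =>
        atRep (0 : Fin 2) (fun η => u (fieldFrom ρ x₀ η)) c ρ' *
          atRep (1 : Fin 2) (fun η => u (fieldFrom ρ x₀ η)) c ρ') (Up.sh p) := by
    refine integral_congr_ae (ae_of_all _ fun ω => ?_)
    simp [integrand, atRep, Fin.prod_univ_two]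
  rw [e1, treeW_pair _ hm (bdd_pathY hF ρ x₀) (Up.isTree_sh p) _ _ ho ho, Up.sh_apply]
  simp only [cexp_pathY hF hm.pos]
  refine Eq.trans ?_ (logD_partFrom hF (fun y => up m ρ F p u y ^ 2) hm ρ p x₀)
  simp only [sq]

/-- The pair target as a recursion. -/
lemma pairTarget_eq (h : Pairable M φ ψ) {r : ℕ} {m : Fin r → ℝ} (hm : Exps m)
    (q ρ : Fin (r + 1) → ℝ) (δ : ℝ) (k : ℕ) :
    pairTarget m q ρ δ k φ ψ = ∑ p, weight m p * (q p ^ k * ∫ e,
      upSq m ρ (fun x => Real.log (spread δ φ x)) (fun x => spread δ ψ x / spread δ φ x) p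
        (Real.sqrt (ρ 0) * e) ∂gaussianReal 0 1) := by
  refine Finset.sum_congr rfl fun p _ => ?_
  congr 2
  exact integral_congr_ae (ae_of_all _ fun e => pairM_field (h.spread δ) hm ρ e p)

/-- The sum of squared components is a normalised pair average. -/
lemma sum_comp_eq {β : Type} {r : ℕ} (m : Fin r → ℝ) (n : Fin r → ℕ) (a : Fin (r + 1) → ℝ)
    (Y g : (Fin r → β) → ℝ) (t : CascTree β r n) :
    ∑ c, Up.comp m n a Y g t c ^ 2 =
      pairQ (leafW r m n t) (fun l l' => ∑ c, Up.leafVec n a l c * Up.leafVec n a l' c)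
        (fun l => g (leafMarks r n t l)) (fun l => Y (leafMarks r n t l)) := by
  simp only [Up.comp, pairQ, div_pow, ← cascSum_eq_sum_leaves, ← Finset.sum_div]
  congr 1
  simp only [sq, Finset.sum_mul_sum]
  rw [Finset.sum_comm]
  refine Finset.sum_congr rfl fun l _ => ?_
  rw [Finset.sum_comm]
  refine Finset.sum_congr rfl fun l' _ => ?_
  simp only [Finset.mul_sum, Finset.sum_mul]
  exact Finset.sum_congr rfl fun c _ => by ring

/-- Two pair targets at a fixed root differ by at most the plain mean of the differences. -/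
lemma sum_pairM_sub_le {r : ℕ} {m : Fin r → ℝ} (hm : Exps m) {a : Fin (r + 1) → ℝ}
    (ha : Monotone a) (ha0 : 0 ≤ a 0) (ha1 : a (Fin.last r) ≤ 1) {Y Y' g g' : (Fin r → ℝ) → ℝ}
    (hYm : Measurable Y) (hYm' : Measurable Y') (hgm : Measurable g) (hgm' : Measurable g')
    (hY : ∀ η, 1 ≤ Y η ∧ Y η ≤ M) (hY' : ∀ η, 1 ≤ Y' η ∧ Y' η ≤ M)
    (hg : ∀ η, |g η| ≤ 2 * Y η) (hg' : ∀ η, |g' η| ≤ 2 * Y' η) :
    |∑ p, weight m p * (a p * Up.pairM (gaussianReal 0 1) m Y g g p) -
        ∑ p, weight m p * (a p * Up.pairM (gaussianReal 0 1) m Y' g' g' p)| ≤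
      8 * ∫ η, (|g η - g' η| + |Y η - Y' η|) ∂(Measure.pi fun _ : Fin r => gaussianReal 0 1) := by
  set ν := gaussianReal 0 1
  set η₀ : Fin r → ℝ := fun _ => 0
  have hM : 1 ≤ M := (hY η₀).1.trans (hY η₀).2
  have hb : ∀ {Z : (Fin r → ℝ) → ℝ}, Measurable Z → (∀ η, 1 ≤ Z η ∧ Z η ≤ M) → Bdd M Z :=
    fun hm' hZ => ⟨zero_lt_one.trans_le hM, hm',
      fun η => ⟨(inv_le_one_of_one_le₀ hM).trans (hZ η).1, (hZ η).2⟩⟩
  have hgb : ∀ η, |g η| ≤ 2 * M := fun η => (hg η).trans (by linarith [(hY η).2])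
  have hgb' : ∀ η, |g' η| ≤ 2 * M := fun η => (hg' η).trans (by linarith [(hY' η).2])
  set h := fun η => |g η - g' η| + |Y η - Y' η|
  have hhm : Measurable h := ((hgm.sub hgm').abs).add (hYm.sub hYm').abs
  have hhb : ∀ η, |h η| ≤ 6 * M := fun η => by
    rw [abs_of_nonneg (add_nonneg (abs_nonneg _) (abs_nonneg _))]
    have h1 : |g η - g' η| ≤ 4 * M := (abs_sub _ _).trans (by linarith [hgb η, hgb' η])
    have h2 : |Y η - Y' η| ≤ 2 * M := by
      rw [abs_le]; constructor <;> linarith [(hY η).1, (hY η).2, (hY' η).1, (hY' η).2]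
    linarith
  have l1 := Up.tendsto_sumSq tilt_factor ν hm ha ha0 (hb hYm hY) hgm (by linarith : 0 ≤ 2 * M) hgb
  have l2 := Up.tendsto_sumSq tilt_factor ν hm ha ha0 (hb hYm' hY') hgm' (by linarith : 0 ≤ 2 * M)
    hgb'
  have l3 := CutLimit.tendsto_prod_ratio_one ν (k := 0) hm (g := fun _ => h) (fun _ => hhm)
    fun _ => hhb
  have l3 : Tendsto (fun n => ∫ t, ∏ _a : Fin 1, ratio m n (fun _ => 1) h t ∂cascLaw ν r n)
      (cascFilter r) (𝓝 (∑ v : Shape r 1, shapeProb m 1 v *
        ∫ ω, ∏ a : Fin 1, h (shapeMarks v ω a) ∂tableLaw ν r 1)) := l3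
  simp only [Fin.prod_univ_one] at l3
  have e3 : ∑ v : Shape r 1, shapeProb m 1 v *
      ∫ ω, h (shapeMarks v ω 0) ∂tableLaw ν r 1 = ∫ η, h η ∂(Measure.pi fun _ => ν) := by
    simp only [Up.shapeProb_one, ite_mul, one_mul, zero_mul, Finset.sum_ite_eq',
      Finset.mem_univ, if_true, Up.marks_one]
    exact integral_mp (f := fun (ω : Fin r → Fin 1 → ℝ) i => ω i 0)
      (measurePreserving_pi _ _ fun _ => measurePreserving_eval (fun _ : Fin 1 => ν) 0) hhm
  rw [e3] at l3
  have := cascFilter_neBot r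
  refine le_of_tendsto_of_tendsto ((l1.sub l2).abs) (l3.const_mul 8) ?_
  filter_upwards [eventually_pos r] with n hn
  set R : Leaf r n → Leaf r n → ℝ := fun l l' => ∑ c, Up.leafVec n a l c * Up.leafVec n a l' c
  have hR : ∀ l l', |R l l'| ≤ 1 := fun l l' => by
    refine (Finset.abs_sum_le_sum_abs _ _).trans ?_
    refine (Finset.sum_le_sum (g := fun c =>
      (Up.leafVec n a l c ^ 2 + Up.leafVec n a l' c ^ 2) / 2) fun c _ => ?_).trans ?_
    · rw [abs_mul, ← sq_abs (Up.leafVec n a l c), ← sq_abs (Up.leafVec n a l' c)]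
      linarith [two_mul_le_add_sq |Up.leafVec n a l c| |Up.leafVec n a l' c|]
    · rw [← Finset.sum_div, Finset.sum_add_distrib, Up.sum_leafVec_sq n ha ha0,
        Up.sum_leafVec_sq n ha ha0]
      linarith
  have hpt : ∀ t, GoodTree r n t →
      |(∑ c, Up.comp m n a Y g t c ^ 2) - ∑ c, Up.comp m n a Y' g' t c ^ 2| ≤
        8 * ratio m n (fun _ => 1) h t ∧
      |∑ c, Up.comp m n a Y g t c ^ 2| ≤ 4 ∧ |∑ c, Up.comp m n a Y' g' t c ^ 2| ≤ 4 := by
    intro t ht
    have hw : ∀ l, 0 ≤ leafW r m n t l := fun l => (leafW_pos r m n t l ht).le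
    have hS := cascSum_one_pos m hn ht
    have hS1 : cascSum r m n (fun _ => 1) t = ∑ l, leafW r m n t l := by
      rw [cascSum_eq_sum_leaves]; simp
    have hle : ∀ {Z : (Fin r → ℝ) → ℝ}, (∀ η, 1 ≤ Z η ∧ Z η ≤ M) →
        cascSum r m n (fun _ => 1) t ≤ ∑ l, leafW r m n t l * Z (leafMarks r n t l) := fun hZ => by
      rw [hS1]; exact Finset.sum_le_sum fun l _ => le_mul_of_one_le_right (hw l) (hZ _).1
    simp only [sum_comp_eq]
    refine ⟨?_, abs_pairQ_le hw hR fun l => hg _, abs_pairQ_le hw hR fun l => hg' _⟩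
    refine (abs_pairQ_sub_le hw hR (fun l => hg _) (fun l => hg' _) (hS.trans_le (hle hY))
      (hS.trans_le (hle hY'))).trans ?_
    rw [ratio, cascSum_eq_sum_leaves r m n h, mul_div_assoc]
    refine mul_le_mul_of_nonneg_left (div_le_div_of_nonneg_left
      (Finset.sum_nonneg fun l _ => mul_nonneg (hw l) (add_nonneg (abs_nonneg _) (abs_nonneg _)))
      hS (hle hY')) (by norm_num)
  have hcm : ∀ {Z u : (Fin r → ℝ) → ℝ}, Measurable Z → Measurable u →
      Measurable fun t : CascTree ℝ r n => ∑ c, Up.comp m n a Z u t c ^ 2 := fun hZ hu =>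
    Finset.measurable_sum _ fun c _ => ((Finset.measurable_sum _ fun l _ =>
      (measurable_leafW r m n l).mul ((hu.comp (measurable_leafMarks r n l)).mul_const _)).div
        (measurable_cascSum m n hZ)).pow_const 2
  have i1 : Integrable (fun t => ∑ c, Up.comp m n a Y g t c ^ 2) (cascLaw ν r n) :=
    Integrable.of_bound (hcm hYm hgm).aestronglyMeasurable 4
      ((ae_good ν r n).mono fun t ht => by rw [Real.norm_eq_abs]; exact (hpt t ht).2.1)
  have i2 : Integrable (fun t => ∑ c, Up.comp m n a Y' g' t c ^ 2) (cascLaw ν r n) :=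
    Integrable.of_bound (hcm hYm' hgm').aestronglyMeasurable 4
      ((ae_good ν r n).mono fun t ht => by rw [Real.norm_eq_abs]; exact (hpt t ht).2.2)
  have i3 : Integrable (fun t => 8 * ratio m n (fun _ => 1) h t) (cascLaw ν r n) := by
    refine (Integrable.of_bound ((measurable_cascSum m n hhm).div
      (measurable_cascSum m n measurable_const)).aestronglyMeasurable (1 * (6 * M))
      ((ae_good ν r n).mono fun t ht => ?_)).const_mul 8
    rw [Real.norm_eq_abs]
    exact Up.abs_ratio_le' (C := 1) ⟨one_pos, measurable_const, fun _ => by simp⟩ (by linarith)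
      hhb m n ht
  rw [← integral_sub i1 i2, ← integral_const_mul]
  exact abs_integral_le_integral_abs.trans (integral_mono_ae (i1.sub i2).abs i3
    ((ae_good ν r n).mono fun t ht => (hpt t ht).1))

/-- Pair targets of two pairs of functions. -/
theorem pairTarget_sub_le {φ' ψ' : ℝ → ℝ} (h : Pairable M φ ψ) (h' : Pairable M φ' ψ') {r : ℕ}
    {m : Fin r → ℝ} {q ρ : Fin (r + 1) → ℝ} (hq : IsPath m q) (hρ : IsFieldPath m ρ) {δ : ℝ}
    (hδ : 0 ≤ δ) (k : ℕ) :
    |pairTarget m q ρ δ k φ ψ - pairTarget m q ρ δ k φ' ψ'| ≤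
      8 * spread (ρ (Fin.last r) + δ) (fun y => |ψ y - ψ' y| + |φ y - φ' y|) 0 := by
  have hm : Exps m := hq.exps
  set ν := gaussianReal 0 1
  set H := fun y => |ψ y - ψ' y| + |φ y - φ' y| with hH
  have hHc : Continuous H := ((h.ψc.sub h'.ψc).abs).add (h.φc.sub h'.φc).abs
  have hHb : ∀ y, |H y| ≤ 6 * M := fun y => by
    simp only [H]
    rw [abs_of_nonneg (add_nonneg (abs_nonneg _) (abs_nonneg _))]
    have h1 : |ψ y - ψ' y| ≤ 4 * M :=
      (abs_sub _ _).trans (by linarith [h.abs_ψ_le y, h'.abs_ψ_le y])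
    have h2 : |φ y - φ' y| ≤ 2 * M := by
      rw [abs_le]; constructor <;> linarith [h.low y, h.high y, h'.low y, h'.high y]
    linarith
  have hM1 := h.one_le
  have henv : ∀ x, |H x| ≤ 6 * M * Real.exp |x| := fun x =>
    (hHb x).trans (le_mul_of_one_le_right (by linarith) (Real.one_le_exp (abs_nonneg x)))
  have hs := fun {φ₀ ψ₀ : ℝ → ℝ} (h₀ : Pairable M φ₀ ψ₀) (p : Fin (r + 1)) =>
    CB.integrable ⟨(cb_upSq (h₀.spread δ) hm.pos ρ p).cont.comp
      (continuous_const.mul continuous_id (f := fun _ : ℝ => Real.sqrt (ρ 0))),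
      fun e => (cb_upSq (h₀.spread δ) hm.pos ρ p).bound _⟩ ν
  have hT : ∀ {φ₀ ψ₀ : ℝ → ℝ}, Pairable M φ₀ ψ₀ →
      Integrable (fun e => ∑ p, weight m p * (q p ^ k * Up.pairM ν m
        (fun η => spread δ φ₀ (pathField ρ e η)) (fun η => spread δ ψ₀ (pathField ρ e η))
        (fun η => spread δ ψ₀ (pathField ρ e η)) p)) ν ∧
      pairTarget m q ρ δ k φ₀ ψ₀ = ∫ e, ∑ p, weight m p * (q p ^ k * Up.pairM ν m
        (fun η => spread δ φ₀ (pathField ρ e η)) (fun η => spread δ ψ₀ (pathField ρ e η))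
        (fun η => spread δ ψ₀ (pathField ρ e η)) p) ∂ν := fun {φ₀ ψ₀} h₀ => by
    have hi : ∀ p, Integrable (fun e => Up.pairM ν m
        (fun η => spread δ φ₀ (pathField ρ e η)) (fun η => spread δ ψ₀ (pathField ρ e η))
        (fun η => spread δ ψ₀ (pathField ρ e η)) p) ν := fun p =>
      (hs h₀ p).congr (ae_of_all _ fun e => (pairM_field (h₀.spread δ) hm ρ e p).symm)
    refine ⟨integrable_finsetSum _ fun p _ => ((hi p).const_mul _).const_mul _, ?_⟩
    rw [integral_finsetSum _ fun p _ => ((hi p).const_mul _).const_mul _, pairTarget]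
    exact Finset.sum_congr rfl fun p _ => by rw [integral_const_mul, integral_const_mul]
  obtain ⟨i1, e1⟩ := hT h
  obtain ⟨i2, e2⟩ := hT h'
  have hsH : Measurable (spread δ H) := (continuous_spread hHc hHb δ).measurable
  have hsb : ∀ x, |spread δ H x| ≤ 6 * M * Real.exp |x| := fun x =>
    (Site.abs_integral_le fun g => hHb _).trans
      (le_mul_of_one_le_right (by linarith) (Real.one_le_exp (abs_nonneg x)))
  obtain ⟨i3, e3⟩ := integral_pathField hρ.mono hρ.nonneg hsH hsb
  rw [e1, e2, ← integral_sub i1 i2]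
  refine abs_integral_le_integral_abs.trans ((integral_mono (i1.sub i2).abs (i3.const_mul 8)
    fun e => ?_).trans_eq ?_)
  · have hfm : Measurable fun η : Fin r → ℝ => pathField ρ e η :=
      (Up.measurable_pathField ρ).comp (measurable_const.prodMk measurable_id)
    refine (sum_pairM_sub_le (M := M) hm (a := fun p => q p ^ k)
      (fun p p' hpp => pow_le_pow_left₀ (hq.nonneg.trans (hq.mono (Fin.zero_le p))) (hq.mono hpp) k)
      (pow_nonneg hq.nonneg k) (pow_le_one₀ (hq.nonneg.trans (hq.mono (Fin.zero_le _))) hq.le_one)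
      ((h.spread δ).φc.measurable.comp hfm) ((h'.spread δ).φc.measurable.comp hfm)
      ((h.spread δ).ψc.measurable.comp hfm) ((h'.spread δ).ψc.measurable.comp hfm)
      (fun η => ⟨(h.spread δ).low _, (h.spread δ).high _⟩)
      (fun η => ⟨(h'.spread δ).low _, (h'.spread δ).high _⟩)
      (fun η => (h.spread δ).dom _) fun η => (h'.spread δ).dom _).trans ?_
    refine mul_le_mul_of_nonneg_left (integral_mono ?_ ?_ fun η => ?_) (by norm_num)
    · exact Vale.Agent.P157.integrable_of_abs_le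
        (((((h.spread δ).ψc.measurable.comp hfm).sub ((h'.spread δ).ψc.measurable.comp hfm)).abs).add
          (((h.spread δ).φc.measurable.comp hfm).sub ((h'.spread δ).φc.measurable.comp hfm)).abs)
        (K := 6 * M) fun η => by
          simp only [Pi.add_apply, Function.comp_apply]
          rw [abs_of_nonneg (add_nonneg (abs_nonneg _) (abs_nonneg _))]
          set x := pathField ρ e η
          have h1 : |spread δ ψ x - spread δ ψ' x| ≤ 4 * M := (abs_sub _ _).trans
            (by linarith [(h.spread δ).abs_ψ_le x, (h'.spread δ).abs_ψ_le x])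
          have h2 : |spread δ φ x - spread δ φ' x| ≤ 2 * M := by
            rw [abs_le]; constructor <;>
              linarith [(h.spread δ).low x, (h.spread δ).high x, (h'.spread δ).low x,
                (h'.spread δ).high x]
          linarith
    · exact Vale.Agent.P157.integrable_of_abs_le (hsH.comp hfm) (K := 6 * M) fun η =>
        Site.abs_integral_le fun g => hHb _
    · simp only [H, Site.spread, Function.comp_apply, Pi.add_apply]
      have j1 := integrable_shift h.ψc.measurable h.abs_ψ_le (Real.sqrt δ) (pathField ρ e η)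
      have j2 := integrable_shift h'.ψc.measurable h'.abs_ψ_le (Real.sqrt δ) (pathField ρ e η)
      have j3 := integrable_shift h.φc.measurable (B := M) (fun z => by
        rw [abs_of_nonneg (by linarith [h.low z])]; exact h.high z) (Real.sqrt δ) (pathField ρ e η)
      have j4 := integrable_shift h'.φc.measurable (B := M) (fun z => by
        rw [abs_of_nonneg (by linarith [h'.low z])]; exact h'.high z) (Real.sqrt δ) (pathField ρ e η)
      have j12 : Integrable (fun g => |ψ (pathField ρ e η + Real.sqrt δ * g) -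
          ψ' (pathField ρ e η + Real.sqrt δ * g)|) (gaussianReal 0 1) := (j1.sub j2).abs
      have j34 : Integrable (fun g => |φ (pathField ρ e η + Real.sqrt δ * g) -
          φ' (pathField ρ e η + Real.sqrt δ * g)|) (gaussianReal 0 1) := (j3.sub j4).abs
      rw [← integral_sub j1 j2, ← integral_sub j3 j4, integral_add j12 j34]
      exact add_le_add abs_integral_le_integral_abs abs_integral_le_integral_abs
  · rw [integral_const_mul, e3]
    congr 1
    have hρr : 0 ≤ ρ (Fin.last r) := hρ.nonneg.trans (hρ.mono (Fin.zero_le _))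
    have := (Site.spread_spread hHc.measurable henv hρr hδ 0).2
    rw [← this]
    rfl

end Vale.Agent.P157.Parisi.Full
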